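import Vale.Agent.P014Y.Mu.St0

/-! # P014Y, block MU: conjugation and congruence of local conditions (helper24) -/

set_option autoImplicit false
set_option linter.all false

noncomputable section

namespace Vale.Agent.P014Y.Mu.Ds

open NumberField Matrix
open scoped Classical Pointwise
open Vale.Agent.P022 (Qb GQ)
open Vale.Agent.P022.H443 (inP)
open Vale.Agent.P027M.S (Inert)
open Vale.Agent.P022D.W (dec inP_le_dec)
open Vale.Agent.P022E.GW (Ov Fb)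
open Vale.Agent.P022K.G2 (In Lv d1_apply ch_apply lv_of')
open Vale.Agent.P014U
open L2 (W M2 rh dt cu BB am ai ai' aw dt_mul dt_inv)
open P004S (wp)

variable [Pp] {a b : GQ →* M2} {D E : Subgroup GQ} {x y : X} {P : Ideal (𝓞 Qb)} {t g φ : GQ}
  {l : ℕ} {T : Finset ℕ}

theorem mem_bl : x ∈ Bl a D ↔ ∃ v, ∀ g ∈ D, x g = a g *ᵥ v - v := Iff.rfl

theorem cl_mono (h : x ∈ Cl a D) (e : E ≤ D) : x ∈ Cl a E :=
  ⟨fun g m j n => h.1 g (e m) j (e n), h.2.imp fun _ k => ⟨k.1, fun w m => k.2 w (e m)⟩⟩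

theorem cl_congr (e : ∀ g ∈ D, b g = a g) (e' : ∀ g ∈ D, y g = x g) (h : x ∈ Cl a D) :
    y ∈ Cl b D :=
  ⟨fun g m j n => by rw [e' _ (mul_mem m n), e' g m, e' j n, e g m, h.1 g m j n],
    h.2.imp fun _ k => ⟨k.1, fun w m n => (e' w m).trans (k.2 w m n)⟩⟩

theorem bl_congr (e : ∀ g ∈ D, b g = a g) (e' : ∀ g ∈ D, y g = x g) (h : x ∈ Bl a D) :
    y ∈ Bl b D :=
  mem_bl.2 ((mem_bl.1 h).imp fun v k g m => by rw [e' g m, e g m, k g m])

theorem ur_congr (e : ∀ g ∈ dec P, b g = a g) (e' : ∀ g ∈ dec P, y g = x g) (h : x ∈ Ur a P) :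
    y ∈ Ur b P :=
  ⟨cl_congr e e' h.1, bl_congr (fun g m => e g (inP_le_dec m)) (fun g m => e' g (inP_le_dec m)) h.2⟩

theorem ot_congr (e : ∀ g ∈ dec P, b g = a g) (e' : ∀ g ∈ dec P, y g = x g)
    (h : x ∈ Ot a (dec P) (Ur a P)) : y ∈ Ot b (dec P) (Ur b P) :=
  ⟨cl_congr e e' h.1, fun u m => by
    obtain ⟨f, p, q⟩ := h.2 u (ur_congr (fun g m => (e g m).symm) (fun _ _ => rfl) m)
    refine ⟨f, p, fun g s j n => ?_⟩
    have := q g s j n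
    simp only [cu, d1_apply, ch_apply, dt] at this ⊢
    rw [e g s, e' j n, this]⟩

theorem ov_sm (o : Ov l P) (t : GQ) : Ov l (t • P) :=
  ⟨o.1, haveI := o.2.1; inferInstance, by
    rw [Ideal.mem_pointwise_smul_iff_inv_smul_mem,
      show t⁻¹ • (l : 𝓞 Qb) = l from map_natCast (MulSemiringAction.toRingHom GQ (𝓞 Qb) t⁻¹) l]
    exact o.2.2⟩

theorem fb_sm (f : Fb l P φ) (t : GQ) : Fb l (t • P) (t * φ * t⁻¹) := fun x => by
  rw [Ideal.mem_pointwise_smul_iff_inv_smul_mem, smul_sub, mul_smul, mul_smul, inv_smul_smul,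
    smul_pow']
  exact f _

theorem dec_sm (h : g ∈ dec (t • P)) : t⁻¹ * g * t ∈ dec P := fun x => by
  have := h (t • x)
  rw [Ideal.mem_pointwise_smul_iff_inv_smul_mem, Ideal.mem_pointwise_smul_iff_inv_smul_mem,
    inv_smul_smul] at this
  rwa [mul_smul, mul_smul]

theorem in_sm (h : Inert (t • P) g) : Inert P (t⁻¹ * g * t) := fun x => by
  have := h (t • x)
  rw [Ideal.mem_pointwise_smul_iff_inv_smul_mem, smul_sub, inv_smul_smul] at this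
  rwa [mul_smul, mul_smul]

theorem in_cj {S : Set ℕ} (h : g ∈ In S) (t : GQ) : t⁻¹ * g * t ∈ In S :=
  let ⟨l, n, P, o, i⟩ := h
  ⟨l, n, _, ov_sm o t⁻¹, in_sm (by rwa [smul_inv_smul])⟩

/-- the conjugate function -/
def cj (a : GQ →* M2) (t : GQ) (y : X) : X := fun g => a t *ᵥ y (t⁻¹ * g * t)

theorem a_cj (t g : GQ) (v : W) : a t *ᵥ (a (t⁻¹ * g * t) *ᵥ v) = a g *ᵥ (a t *ᵥ v) := by
  rw [← am, ← am, ← mul_assoc, mul_inv_cancel_left]

theorem cjm (t g h : GQ) : t⁻¹ * (g * h) * t = t⁻¹ * g * t * (t⁻¹ * h * t) := by group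

theorem cl_cj (h : y ∈ Cl a E) (m : ∀ g ∈ D, t⁻¹ * g * t ∈ E) : cj a t y ∈ Cl a D :=
  ⟨fun g p j q => by simp only [cj, cjm, h.1 _ (m g p) _ (m j q), mulVec_add, a_cj],
    h.2.imp fun U k => ⟨k.1, fun w p q => by rw [cj, k.2 _ (m w p) (k.1.cj q t), mulVec_zero]⟩⟩

theorem bl_cj (h : y ∈ Bl a E) (m : ∀ g ∈ D, t⁻¹ * g * t ∈ E) : cj a t y ∈ Bl a D :=
  let ⟨v, e⟩ := mem_bl.1 h
  mem_bl.2 ⟨a t *ᵥ v, fun g p => by rw [cj, e _ (m g p), mulVec_sub, a_cj]⟩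

theorem ur_cj (h : y ∈ Ur a P) (t : GQ) : cj a t y ∈ Ur a (t • P) :=
  ⟨cl_cj h.1 fun _ => dec_sm, bl_cj h.2 fun _ => in_sm⟩

theorem ot_cj (h : y ∈ Ot a (dec P) (Ur a P)) (t : GQ) :
    cj a t y ∈ Ot a (dec (t • P)) (Ur a (t • P)) :=
  ⟨cl_cj h.1 fun _ => dec_sm, fun u m => by
    have := ur_cj m t⁻¹
    rw [inv_smul_smul] at this
    obtain ⟨f, ⟨U, o, p⟩, q⟩ := h.2 _ this
    refine ⟨fun g => dt a t * f (t⁻¹ * g * t), ⟨U, o, fun g s w n k => ?_⟩, fun g s j n => ?_⟩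
    · simp only [cjm, p _ (dec_sm s) _ (dec_sm n) (o.cj k t)]
    have e := q _ (dec_sm s) _ (dec_sm n)
    have d : dt a (t⁻¹ * g * t) = dt a g := by
      rw [dt_mul, dt_mul]; linear_combination dt a g * dt_inv (a := a) t
    simp only [cu, d1_apply, ch_apply, cj, d] at e ⊢
    rw [show t⁻¹⁻¹ * (t⁻¹ * g * t) * t⁻¹ = g by group, ← cjm] at e
    rw [← a_cj, ← ai' (a := a) t (u g), aw, e]
    ring⟩

theorem vs_cj (h : y ∈ Vs a φ) (t : GQ) : cj a t y ∈ Vs a (t * φ * t⁻¹) :=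
  let ⟨v, e⟩ := (mem_Vs a).1 h
  (mem_Vs a).2 ⟨a t *ᵥ v, by
    rw [cj, show t⁻¹ * (t * φ * t⁻¹) * t = φ by group, ← e, mulVec_sub, am, am, ai]⟩

theorem cl_one (h : x ∈ Cl a D) : x 1 = 0 := by
  simpa using h.1 1 (one_mem _) 1 (one_mem _)

theorem cl_cjk (h : x ∈ Cl a D) (m : g ∈ D) (n : t ∈ D) (e : a g = 1) :
    x (t * g * t⁻¹) = a t *ᵥ x g := by
  have := h.1 _ (mul_mem (mul_mem n m) (inv_mem n)) t n
  rw [inv_mul_cancel_right, h.1 t n g m, am, am, e, one_mulVec, ai', add_comm] at this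
  exact (add_right_cancel this).symm

theorem in_mono {S : Finset ℕ} (h : S ⊆ T) : In (T : Set ℕ) ⊆ In (S : Set ℕ) :=
  fun _ ⟨l, p, q⟩ => ⟨l, fun m => p (h m), q⟩

/-- global cocycles -/
theorem zg_of (o : IsOpen (a.ker : Set GQ)) (u : ∀ g ∈ In (T : Set ℕ), a g = 1) (h : x ∈ Cl a ⊤)
    (e : ∀ g ∈ In (T : Set ℕ), x g = 0) : x ∈ Zg a T := by
  let V : Subgroup GQ :=
    { carrier := {w | a w = 1 ∧ x w = 0}
      mul_mem' := fun {p q} r s => ⟨by rw [map_mul, r.1, s.1, one_mul], by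
        rw [h.1 p trivial q trivial, r.2, s.2, mulVec_zero, add_zero]⟩
      one_mem' := ⟨map_one _, cl_one h⟩
      inv_mem' := fun {w} p => ⟨inv_mem (show w ∈ a.ker from p.1), by
        have := h.1 w⁻¹ trivial w trivial
        rw [inv_mul_cancel, cl_one h, p.2, mulVec_zero, add_zero] at this
        exact this.symm⟩ }
  obtain ⟨U, l, k⟩ := h.2
  exact ⟨fun g m j n => h.1 g m j n, fun g m => absurd trivial m, V,
    lv_of' ⟨fun w p s => ⟨a.normal_ker.conj_mem w p.1 s, by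
      rw [cl_cjk h trivial trivial p.1, p.2, mulVec_zero]⟩⟩
      (Subgroup.isOpen_mono (H₁ := a.ker ⊓ U) (fun w p => ⟨p.1, k w trivial p.2⟩) (o.inter l.opn))
      fun g m => ⟨u g m, e g m⟩, fun w _ p => p.2⟩

end Vale.Agent.P014Y.Mu.Ds
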