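import Vale.Agent.P014Y.Mu.St0
import Vale.Agent.P014Y.St0
import Vale.Agent.P014U.Cp.One

/-! # P014Y, block MU: layers, the curve (words and rows at any odd prime) -/

set_option autoImplicit false
set_option linter.all false

noncomputable section

namespace Vale.Agent.P014Y.Mu

open NumberField Matrix Module
open scoped Classical
open Vale.Agent.P022 (Qb GQ)
open Vale.Agent.P027M.S (Inert)
open Vale.Agent.P022D.W (dec)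
open Vale.Agent.P022E.GW (Ov Fb)
open Vale.Agent.P014U
open L2 (W M2)
open X4S (Pl)
open X4F (Rb)
open P004S (nu)
open P004F (Cc hq)
open P014Y.F (Crv Fld)
open Top (Sur Par)

variable [Pp]

/-- the class of `T` -/
def tb (J : ℕ) : Rb J := Ideal.Quotient.mk _ PowerSeries.X

/-- the action on `V ⊗ 𝔽_p[T] / T ^ J` -/
def ag (a : GQ →* M2) (J : ℕ) (χ : GQ → ℕ) (g : GQ) : Matrix (Fin 2) (Fin 2) (Rb J) :=
  (Ideal.Quotient.mk _ (1 + PowerSeries.X) : Rb J) ^ χ g •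
    (a g).map ((Ideal.Quotient.mk _).comp PowerSeries.C : F →+* Rb J)

/-- the cocycles which vanish at `P` -/
def Zx (a : GQ →* M2) (Γ : Subgroup GQ) (T : Finset ℕ) (J : ℕ) (χ : GQ → ℕ) (P : Ideal (𝓞 Qb)) :
    Set (GQ → Fin 2 → Rb J) := {x | Cc Γ T (ag a J χ) x ∧ ∀ g ∈ dec P, x g = 0}

/-- one layer of degree `pp ^ N` and conductor `c`; the places above `S` are inert -/
structure Ly (Γ : Subgroup GQ) (S : Finset ℕ) (N c : ℕ) (χ : GQ → ℕ) : Prop where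
  c0 : c ≠ 0
  add : ∀ g ∈ Γ, ∀ h ∈ Γ, χ (g * h) ≡ χ g + χ h [MOD pp ^ N]
  opn : ∃ U : Subgroup GQ, IsOpen (U : Set GQ) ∧ ∀ g ∈ Γ, g ∈ U → pp ^ N ∣ χ g
  unr : ∀ l P, Ov l P → ¬ l ∣ c → ∀ g ∈ Γ, Inert P g → pp ^ N ∣ χ g
  out : ∀ q : ℕ, q.Prime → q ∣ c → q ∉ S ∧ Sq Γ q ∧ q ≡ 1 [MOD pp ^ N]
  ram : ∀ q P, Ov q P → q ∣ c → ∃ t, Inert P t ∧ χ t ≡ 1 [MOD pp ^ N]
  fro : ∀ p ∈ S, ∀ P, Ov p P → dec P ≤ Γ ∧ ∀ g, Fb p P g → ¬ pp ∣ χ g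

/-- the Frobenius elements above `q` have trace zero -/
def Tz (a : GQ →* M2) (q : ℕ) : Prop := ∀ P φ, Ov q P → Fb q P φ → (a φ).trace = 0

/-- **from the residual groups to all levels** -/
def LEV : Prop := ∀ a S (d : ℤ) (Γ : Subgroup GQ), Rs a S → (∀ g, g ∈ Γ ↔ nu d g = 0) → Nf a Γ →
  ∃ m : ℕ, ∀ N c χ (Q : Finset ℕ) P₀, 0 < N → Ly Γ S N c χ → Ov pp P₀ → (∀ q ∈ Q, q.Prime ∧ q ∣ c) →
  (∀ q : ℕ, q.Prime → q ∣ c → q ∈ Q ∨ Tz a q) → Kk a Γ S Q P₀ → ∀ J ≤ pp ^ N,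
  ∀ x ∈ Zx a Γ (S ∪ c.primeFactors) J χ P₀, ∀ g, tb J ^ m • x g = 0

/-- the residual representation -/
def rb (e : Crv) : GQ →* M2 := Cp.ab (hq e.par.disc)

theorem z0_eq {e : Crv} (b : Fld e) (J c : ℕ) (χ : GQ → ℕ) :
    b.Z0 J c χ = Zx (rb e) b.Γ (e.S.toFinset ∪ c.primeFactors) J χ (e.P pp) := rfl

/-- the bad primes of the curve and of the field -/
def Sd {e : Crv} (b : Fld e) : Finset ℕ := e.S.toFinset ∪ b.δ'.primeFactors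

/-- counting -/
def CNT : Prop := ∀ (e : Crv) (b : Fld e) (k i : ℕ), ∃ B : ℕ, ∀ (c : ℕ) χ,
  c.primeFactors.card ≤ k → Nat.card (b.Z0 i c χ) ≤ pp ^ B ∧ ∀ J,
    (∀ x ∈ b.Z0 J c χ, ∀ g, tb J ^ i • x g = 0) →
    Nat.card (b.Z0 J c χ) ≠ 0 ∧ Nat.card (b.Z0 J c χ) ≤ Nat.card (b.Z0 i c χ)

/-- the curve and the field in the residual words -/
def RSE : Prop := ∀ e : Crv, Rs (rb e) e.S.toFinset ∧ (∃ pl : Pl, ∀ p ∈ e.S, pl.P p = e.P p) ∧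
  ∀ b : Fld e, Rs (rb e) (Sd b) ∧ Rs (tw (-b.δ') (rb e)) (Sd b) ∧
    (∀ g, g ∈ b.Γ ↔ nu (-b.δ') g = 0) ∧ b.c ∉ b.Γ ∧ b.c * b.c = 1 ∧ (∀ l ∈ e.S, Sq b.Γ l) ∧
    (∃ t ∉ b.Γ, e.r t = 1) ∧ (Sur e.par.disc → Nf (rb e) b.Γ)

/-- the Kummer condition -/
def Km {A B : ℤ} (h : 4 * (A : ℚ) ^ 3 + 27 * (B : ℚ) ^ 2 ≠ 0) (D : Subgroup GQ) : Set X :=
  {z | z ∈ Cl (Cp.ab h) D ∧ (fun g => Cp.vv h (z g)) ∈ Bt.Km A B D}

/-- **it is Lagrangian** -/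
def KML : Prop := ∀ (A B : ℤ) (h : 4 * (A : ℚ) ^ 3 + 27 * (B : ℚ) ^ 2 ≠ 0) l P, Ov l P →
  ∃ L : Submodule F X, (L : Set X) = Km h (dec P) ∧ Ot (Cp.ab h) (dec P) L = L

/-- **the parity input in the residual words** -/
def BRG : Prop := ∀ (e : Crv) (b : Fld e) (pl : Pl), (∀ p ∈ e.S, pl.P p = e.P p) →
  Sur e.par.disc → Par b → Pa (rb e) (tw (-b.δ') (rb e)) pl e.S.toFinset (Sd b)

end Vale.Agent.P014Y.Mu
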