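import Vale.Agent.P014U.L2.All
import Vale.Agent.P014U.G2.Lib
import Vale.Agent.P014U.Pq.Lo1

/-! # P014Y, block MU: the count at a large set of primes (helper34) -/

set_option autoImplicit false
set_option linter.all false

noncomputable section

namespace Vale.Agent.P014Y.Mu.Bg

open NumberField Matrix Module Cardinal
open Vale.Agent.P022 (Qb GQ)
open Vale.Agent.P022D.W (dec)
open Vale.Agent.P022E.GW (Ov)
open Vale.Agent.P022K Vale.Agent.P022K.G2 Vale.Agent.P014U Vale.Agent.P014U.L2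

variable [Pp] {a : GQ →* M2} {l : ℕ} {P : Ideal (𝓞 Qb)} {D : Subgroup GQ} {I : Set GQ}

/-- the dimension of the fixed vectors -/
def h0 (a : GQ →* M2) (D : Subgroup GQ) : ℕ := finrank (ZMod pp) (H0 D (rh a) fun _ => 1)

theorem rk_w : Module.rank (ZMod pp) W = 2 := by rw [rank_fin_fun]; rfl

theorem h0_le : h0 a D ≤ 2 := (Submodule.finrank_le _).trans_eq (finrank_fin_fun _)

/-- the dimension of the coboundaries -/
theorem b1_rk (r : Rp I D (rh a)) :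
    finrank (ZMod pp) ↥(Z1 I D (rh a) ⊓ B1 D (rh a)) + h0 a D = 2 := by
  have e := rk_b1 r
  rw [rk_w] at e
  have f := Module.rank_lt_aleph0_iff.1 ((le_self_add.trans_eq e).trans_lt (nat_lt_aleph0 2))
  rw [rk, rk, ← finrank_eq_rank, ← finrank_eq_rank] at e
  exact_mod_cast e

theorem rp_loc (ko : IsOpen (a.ker : Set GQ)) (D : Subgroup GQ) : Rp ∅ D (rh a) :=
  rp_of (le_of_open ko D)

open Classical in
/-- the local cocycles, upper bound -/
theorem z_le (o : Ov l P) (hd : dt a = om pp (ZMod pp)) (ko : IsOpen (a.ker : Set GQ)) :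
    Module.Finite (ZMod pp) (Z1 ∅ (dec P) (rh a)) ∧
    finrank (ZMod pp) (Z1 ∅ (dec P) (rh a)) ≤ h0 a (dec P) + if l = pp then 4 else 2 := by
  obtain ⟨f, c⟩ := cnt o hd (rp_loc ko _) ko
  refine ⟨Module.Finite.of_finite, (Nat.pow_le_pow_iff_right one_lt).1 ?_⟩
  rw [Nat.card_congr (Equiv.subtypeEquivRight (q := (· ∈ H0 (dec P) (rh a) fun _ => 1)) fun v =>
      forall₂_congr fun g _ => by rw [one_smul]; rfl), Module.natCard_eq_pow_finrank (K := ZMod pp),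
    Module.natCard_eq_pow_finrank (K := ZMod pp) (V := H0 _ _ _), Nat.card_zmod] at c
  refine c.trans_eq ?_
  rw [h0]
  split_ifs <;> ring

/-- large sets -/
theorem ex_ok (hd : dt a = om pp (ZMod pp)) (ko : IsOpen (a.ker : Set GQ)) (T₀ : Finset ℕ)
    (pr : ∀ l ∈ T₀, l.Prime) : ∃ T : Finset ℕ, T₀ ⊆ T ∧ (∀ l ∈ T, l = 0 ∨ l.Prime) ∧
      Ok pp T ⊤ a.ker (rh a) := by
  obtain ⟨x, y, xy, n⟩ := ex_syl a ⊤
  obtain ⟨T, s, p, L, b⟩ := lg pp ⊤ a.ker (Hs a x) T₀ le_top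
    (fun g m => (om_eq_one _).1 (hd ▸ dt_ker m)) (fun g _ u m => a.normal_ker.conj_mem u m g) ko
    (Subgroup.isOpen_mono ker_le ko) fun l m => .inr (pr l m)
  exact ⟨T, s, fun l m => (em (l ∈ T₀)).elim (fun c => .inr (pr l c)) (p l m), ok hd xy n L b⟩

open Classical in
/-- the local cocycles -/
theorem z_eq (o : Ov l P) (hd : dt a = om pp (ZMod pp)) (ko : IsOpen (a.ker : Set GQ)) :
    finrank (ZMod pp) (Z1 ∅ (dec P) (rh a)) = h0 a (dec P) + if l = pp then 4 else 2 := by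
  obtain ⟨f, c⟩ := z_le o hd ko
  obtain ⟨T, -, -, k⟩ := ex_ok hd ko ∅ (by simp)
  have e := Pq.Co.ll pp_ne_two k o
  rw [top_inf_eq, ← hd, hm_h0, rk_w, rk, ← finrank_eq_rank] at e
  refine c.antisymm ?_
  have e' : h0 a (dec P) + (if l = pp then 2 else 1) * 2 ≤
      finrank (ZMod pp) (Z1 ∅ (dec P) (rh a)) := by exact_mod_cast e
  refine le_of_eq_of_le ?_ e'
  split_ifs <;> rfl

open Classical in
/-- **the local cohomology** -/
theorem q_eq (o : Ov l P) (hd : dt a = om pp (ZMod pp)) (ko : IsOpen (a.ker : Set GQ)) :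
    Module.Finite (ZMod pp) ((Z1 ∅ (dec P) (rh a)).map (B1 (dec P) (rh a)).mkQ) ∧
    finrank (ZMod pp) ((Z1 ∅ (dec P) (rh a)).map (B1 (dec P) (rh a)).mkQ) =
      2 * h0 a (dec P) + if l = pp then 2 else 0 := by
  have f := (z_le o hd ko).1
  have e := rq_add (Z1 ∅ (dec P) (rh a)) (B1 (dec P) (rh a))
  have f' : Module.Finite (ZMod pp) ↥(Z1 ∅ (dec P) (rh a) ⊓ B1 (dec P) (rh a)) :=
    Submodule.finiteDimensional_inf_left _ _
  rw [rq, rk, rk, ← finrank_eq_rank, ← finrank_eq_rank, ← finrank_eq_rank, z_eq o hd ko] at e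
  have b := b1_rk (rp_loc ko (dec P))
  refine ⟨inferInstance, ?_⟩
  norm_cast at e
  split_ifs at e ⊢ <;> omega

/-- an involution of determinant minus one -/
theorem inf_fx {c : GQ} (cc : c * c = 1) (d : dt a c = -1) (h : ∀ g ∈ D, g = 1 ∨ g = c) :
    1 ≤ h0 a D := by
  refine Submodule.one_le_finrank_iff.2 fun e => two_ne ?_
  have z : ∀ v, a c *ᵥ v = -v := fun v => eq_neg_of_add_eq_zero_left
    ((Submodule.eq_bot_iff _).1 e _ fun g m => by
      obtain rfl | rfl := h g m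
      · rw [one_smul]; exact a1 _
      · rw [one_smul, mulVecLin_apply, mulVec_add, ← am, cc, a1, add_comm])
  have k := aw (a := a) c ![1, 0] ![0, 1]
  rw [z, z, d] at k
  simp only [P004S.wp, Pi.neg_apply, cons_val_zero, cons_val_one] at k
  linear_combination k

/-- cocycles on a group of order two -/
theorem inf_b1 {c : GQ} {z : GQ → W} (cc : c * c = 1) (h : ∀ g ∈ D, g = 1 ∨ g = c)
    (hz : z ∈ Z1 I ⊤ (rh a)) : z ∈ B1 D (rh a) := by
  have z1 : z 1 = 0 := Z1.one hz (rh_one.2 (map_one a))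
  have e := zc hz (g := c) (h := c) trivial trivial
  rw [cc, z1] at e
  refine ⟨-(2 : ZMod pp)⁻¹ • z c, fun g m => ?_⟩
  obtain rfl | rfl := h g m
  · rw [z1, d0_apply, mulVecLin_apply, a1, sub_self]
  · rw [d0_apply, mulVecLin_apply, mulVec_smul, eq_neg_of_add_eq_zero_right e.symm, ← smul_sub,
      ← neg_add', ← two_smul (ZMod pp), smul_neg, smul_smul, neg_mul, inv_mul_cancel₀ two_ne,
      neg_smul, neg_neg, one_smul]

/-- **the count at a large set of primes** -/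
theorem big0 (hd : dt a = om pp (ZMod pp)) (ko : IsOpen (a.ker : Set GQ))
    (P : ℕ → Ideal (𝓞 Qb)) (ov : ∀ l, l.Prime → Ov l (P l)) (T₀ : Finset ℕ)
    (pr : ∀ l ∈ T₀, l.Prime) : ∃ T : Finset ℕ, T₀ ⊆ T ∧ (∀ l ∈ T, l.Prime) ∧ pp ∈ T ∧
      In T ⊆ a.ker ∧ Module.Finite (ZMod pp) (Z1 (In T) ⊤ (rh a)) ∧
      (∀ c ∈ Z1 (In T) ⊤ (rh a), (∀ l ∈ T, c ∈ B1 (dec (P l)) (rh a)) → c ∈ B1 ⊤ (rh a)) ∧
      ∑ l ∈ T, h0 a (dec (P l)) + 3 ≤ finrank (ZMod pp) (Z1 (In T) ⊤ (rh a)) + h0 a ⊤ := by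
  classical
  obtain ⟨T', s, p, k⟩ := ex_ok hd ko T₀ pr
  have L := k.lg
  set T := T'.erase 0
  have pT : ∀ l ∈ T, l.Prime := fun l m =>
    (p l (Finset.mem_of_mem_erase m)).resolve_left (Finset.ne_of_mem_erase m)
  have eI : In T = In T' := Set.ext fun g => exists_congr fun l => ⟨fun ⟨n, Q, o, i⟩ =>
    ⟨fun m => n (Finset.mem_erase.2 ⟨o.1.ne_zero, m⟩), Q, o, i⟩,
    fun ⟨n, b⟩ => ⟨fun m => n (Finset.mem_of_mem_erase m), b⟩⟩
  obtain ⟨w⟩ : Nonempty (InfinitePlace Qb) := ⟨.mk (IsAlgClosed.lift (R := ℚ) (M := ℂ)).toRingHom⟩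
  obtain ⟨c, -, cc, hS, hc⟩ := ex_cc w
  let x : Option T → Plc := fun i => i.elim (ip w) fun l => fp (P l)
  have o := fun l : T => ov l (pT l l.2)
  have hx : Reps (G := GQ) ⊤ (Ab T') x := by
    refine ⟨fun i g _ => Plc.ab_smul ?_ g, fun y m => ?_, ?_⟩
    · rcases i with _ | l
      exacts [mem_ab_ip.2 L.h0, mem_ab_fp.2 ⟨l, Finset.mem_of_mem_erase l.2, o l⟩]
    · obtain ⟨l, n, m⟩ := Plc.ab_one m
      obtain rfl | e := eq_or_ne l 0
      · obtain ⟨g, e⟩ := Plc.ab_trans (y := ip w) (mem_ab_ip.2 rfl) m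
        exact ⟨none, g, trivial, e⟩
      · have n' : l ∈ T := Finset.mem_erase.2 ⟨e, n⟩
        obtain ⟨g, e⟩ := Plc.ab_trans (mem_ab_fp.2 ⟨l, rfl, o ⟨l, n'⟩⟩) m
        exact ⟨some ⟨l, n'⟩, g, trivial, e⟩
    · rintro (_ | l) (_ | l') g - e
      exacts [rfl, (nomatch e), (nomatch e), congrArg some (Subtype.ext (GW.Pl.ov_uniq
        (GW.ov_smul (o l) g) ((Sum.inl.inj e).subst (o l'))))]
  have d0 : ∀ g ∈ Dv ⊤ x none, g = 1 ∨ g = c := fun g m => (hS g).1 m.2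
  have d1 : ∀ l : T, Dv ⊤ x (some l) = dec (P l) := fun l => (top_inf_eq _).trans (st_fp _)
  have f := Module.rank_lt_aleph0_iff.1 (Cx.fin_all P014U.G2.chi02 L le_top k.fin k.rp k.tri).1
  refine ⟨T, fun l m => Finset.mem_erase.2 ⟨(pr l m).ne_zero, s m⟩, pT,
    Finset.mem_erase.2 ⟨pp_prime.ne_zero, L.hp⟩, eI ▸ Hb.le_in L.lv, eI ▸ f, fun z hz e => ?_, ?_⟩
  · rw [eI] at hz
    refine P014U.G2.sh12 _ W ⊤ a.ker T' _ x (rh a) z k.rp L k.tri (fun b hb _ e =>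
      cyc1 (rp_loc ko ⊤) hb fun g m => (e g m).imp fun v q => q.symm) hx hz ?_
    rintro (_ | l)
    exacts [inf_b1 cc d0 hz, d1 l ▸ e l l.2]
  · have b := P014U.G2.lb2 _ W ⊤ a.ker T' _ x (rh a) k hx
    have i := inf_fx cc (by rw [hd, om, oz_cc hc, map_neg, map_one]) d0
    simp only [← hd, hm_h0, Fintype.sum_option, rk_w] at b
    rw [rk, ← finrank_eq_rank] at b
    have b' : h0 a (Dv ⊤ x none) + ∑ l : T, h0 a (Dv ⊤ x (some l)) + 2 ≤
        finrank (ZMod pp) (Z1 (In T') ⊤ (rh a)) + h0 a ⊤ := by exact_mod_cast b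
    rw [Finset.sum_congr rfl fun l _ => congrArg (h0 a) (d1 l),
      Finset.sum_coe_sort T fun l => h0 a (dec (P l))] at b'
    rw [eI]
    omega

end Vale.Agent.P014Y.Mu.Bg
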