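import Vale.Agent.P014Y.Mu.St0
import Vale.Agent.P014Y.Mu.Big0

/-! # P014Y, block MU: rows DIM and BIG (helper34) -/

set_option autoImplicit false
set_option linter.all false

noncomputable section

namespace Vale.Agent.P014Y.Mu

open NumberField Matrix Module
open Vale.Agent.P022 (Qb GQ)
open Vale.Agent.P022D.W (dec)
open Vale.Agent.P022K.G2 (In Z1 B1)
open Vale.Agent.P014U
open L2 (W M2 rh)

variable [Pp] {a : GQ →* M2} {D : Subgroup GQ}

theorem Bg.z1_le : Z1 ∅ D (rh a) ≤ Cl a D := fun _ m => ⟨m.1, m.2.2⟩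

theorem Bg.ind_z1 {z : X} (m : z ∈ Cl a D) : (D : Set GQ).indicator z ∈ Z1 ∅ D (rh a) :=
  ⟨fun g p h q => by
      rw [Set.indicator_of_mem (mul_mem p q), Set.indicator_of_mem p, Set.indicator_of_mem q,
        m.1 g p h q, mulVecLin_apply],
    fun g p => Set.indicator_of_notMem p _,
    m.2.imp fun U e => ⟨e.1, fun w p q => by rw [Set.indicator_of_mem p, e.2 w p q]⟩⟩

theorem Bg.sub_ind (z : X) : z - (D : Set GQ).indicator z ∈ Bl a D :=
  ⟨0, fun g m => by rw [Pi.sub_apply, Set.indicator_of_mem m, sub_self, map_zero, Pi.zero_apply]⟩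

theorem Bg.map_cl : (Cl a D).map (Bl a D).mkQ = (Z1 ∅ D (rh a)).map (Bl a D).mkQ :=
  le_antisymm (fun _ ⟨z, m, e⟩ => ⟨_, Bg.ind_z1 m,
    ((Submodule.Quotient.eq _).2 (Bg.sub_ind z)).symm.trans e⟩) (Submodule.map_mono Bg.z1_le)

/-- the local classes form a finite dimensional space -/
theorem Bg.fin_cl {l : ℕ} {P : Ideal (𝓞 Qb)} (r : R0 a) (o : P022E.GW.Ov l P) :
    Module.Finite F ((Cl a (dec P)).map (Bl a (dec P)).mkQ) :=
  Bg.map_cl (a := a) ▸ (Bg.q_eq o r.det r.opn).1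

theorem dim : DIM := fun a l P r o => by
  rw [dq, Bg.map_cl, (Bg.q_eq o r.det r.opn).2]
  rfl

theorem big : BIG := fun a pl S r => by
  obtain ⟨T, s, pr, pm, un, f, sh, b⟩ := Bg.big0 r.det r.opn pl.P pl.ov S r.pr
  refine ⟨T, s, ⟨r.toR0, pm, pr, un⟩, ?_⟩
  have e : sl (Zg a T) T (fun l => Bl a (dec (pl.P l))) = Zg a T ⊓ Bl a ⊤ :=
    le_antisymm (fun z m => ⟨m.1, sh z m.1 fun l n =>
      (Submodule.mem_iInf _).1 ((Submodule.mem_iInf _).1 m.2 l) n⟩)
      (inf_le_inf_left _ (le_iInf₂ fun l _ z m => m.imp fun _ q g _ => q g trivial))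
  obtain ⟨U, o, le⟩ := P022K.G2.ex_lv' (H := a.ker.normalCore) (P022K.GW.Pl.core_open r.opn)
  have c := Bg.b1_rk (I := In (T : Set ℕ)) (D := ⊤) (a := a) (L2.rp_of ⟨a.ker,
    ⟨a.normal_ker, r.opn, haveI := o.fin
      Subgroup.finiteIndex_of_le (le.trans a.ker.normalCore_le), un⟩, fun _ _ m => m⟩)
  rw [e]
  exact Nat.le_of_add_le_add_right (b := Bg.h0 a ⊤) (by
    rw [add_assoc, c, add_assoc]
    exact b)

end Vale.Agent.P014Y.Mu
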