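import Mathlib

/-! Lagrangian subspaces of a nondegenerate symmetric bilinear space: parity of intersections. -/

set_option linter.all false

namespace Vale.Agent.P014Y.Mu.Lg

open Module Submodule LinearMap

variable {F W : Type*} [Field F] [AddCommGroup W] [Module F W] [FiniteDimensional F W]

/-- A nondegenerate skew form lives on a space of even dimension. -/
theorem even_of_skew (h2 : (2 : F) ≠ 0) (ω : LinearMap.BilinForm F W)
    (hs : ∀ x y, ω x y = -ω y x) (hn : ω.Nondegenerate) : Even (finrank F W) := by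
  classical
  let b := Module.finBasis F W
  have hd := (LinearMap.BilinForm.nondegenerate_iff_det_ne_zero b).1 hn
  set A := LinearMap.BilinForm.toMatrix b ω with hA
  have ht : A.transpose = -A := by
    ext i j
    simp only [hA, Matrix.transpose_apply, Matrix.neg_apply, LinearMap.BilinForm.toMatrix_apply]
    exact hs _ _
  have h1 : A.det = (-1) ^ finrank F W * A.det := by
    conv_lhs => rw [← Matrix.det_transpose, ht, Matrix.det_neg, Fintype.card_fin]
  by_contra ho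
  rw [Nat.not_even_iff_odd] at ho
  rw [ho.neg_one_pow] at h1
  have : (2 : F) * A.det = 0 := by linear_combination h1
  exact hd ((mul_eq_zero.1 this).resolve_left h2)

/-- The rank of a skew form is even. -/
theorem even_rank (h2 : (2 : F) ≠ 0) (ω : LinearMap.BilinForm F W)
    (hs : ∀ x y, ω x y = -ω y x) : Even (finrank F W + finrank F (LinearMap.ker ω)) := by
  obtain ⟨C, hC⟩ := (LinearMap.ker ω).exists_isCompl
  have hr : ω.IsRefl := fun x y h => by rw [hs, h, neg_zero]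
  have hk : ∀ v ∈ LinearMap.ker ω, ∀ w, ω v w = 0 := fun v hv w => by
    rw [LinearMap.mem_ker.1 hv]; rfl
  have hn : (ω.restrict C).Nondegenerate := by
    refine LinearMap.BilinForm.nondegenerate_restrict_of_disjoint_orthogonal ω hr ?_
    rw [Submodule.disjoint_def]
    intro x hx ho
    refine (Submodule.disjoint_def.1 hC.disjoint) x ?_ hx
    rw [LinearMap.mem_ker]
    ext w
    obtain ⟨r, hr', c, hc, rfl⟩ := Submodule.mem_sup.1 (hC.sup_eq_top.symm ▸ Submodule.mem_top :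
      w ∈ LinearMap.ker ω ⊔ C)
    have h1 : ω c x = 0 := ho c hc
    rw [map_add, hs x r, hk r hr', hs x c, h1]; simp
  have he := even_of_skew h2 (ω.restrict C) (fun x y => hs _ _) hn
  have := Submodule.finrank_add_eq_of_isCompl hC
  obtain ⟨t, ht⟩ := he
  exact ⟨t + finrank F (LinearMap.ker ω), by omega⟩

/-- Symmetric and nondegenerate. -/
structure Sn (B : LinearMap.BilinForm F W) : Prop where
  sym : ∀ x y, B x y = B y x
  nd : ∀ x, (∀ y, B x y = 0) → x = 0

/-- `X` is its own orthogonal. -/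
def Lag (B : LinearMap.BilinForm F W) (X : Submodule F W) : Prop := B.orthogonal X = X

variable {B : LinearMap.BilinForm F W}

omit [FiniteDimensional F W] in
theorem mem_perp {X : Submodule F W} {w : W} : w ∈ B.orthogonal X ↔ ∀ x ∈ X, B x w = 0 := Iff.rfl

omit [FiniteDimensional F W] in
theorem perp_sup (X Y : Submodule F W) :
    B.orthogonal (X ⊔ Y) = B.orthogonal X ⊓ B.orthogonal Y := by
  refine le_antisymm (le_inf (LinearMap.BilinForm.orthogonal_le le_sup_left)
    (LinearMap.BilinForm.orthogonal_le le_sup_right)) ?_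
  rintro w ⟨h1, h2⟩
  refine mem_perp.2 fun z hz => ?_
  obtain ⟨x, hx, y, hy, rfl⟩ := Submodule.mem_sup.1 hz
  rw [map_add, LinearMap.add_apply, mem_perp.1 h1 x hx, mem_perp.1 h2 y hy, add_zero]

namespace Sn

omit [FiniteDimensional F W] in
theorem nondeg (h : Sn B) : B.Nondegenerate :=
  ⟨fun x hx => h.nd x hx, fun x hx => h.nd x fun y => by rw [h.sym]; exact hx y⟩

omit [FiniteDimensional F W] in
theorem refl (h : Sn B) : B.IsRefl := fun x y hxy => by rw [h.sym, hxy]

theorem perp_perp (h : Sn B) (X : Submodule F W) : B.orthogonal (B.orthogonal X) = X :=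
  LinearMap.BilinForm.orthogonal_orthogonal h.nondeg h.refl X

theorem dim_perp (h : Sn B) (X : Submodule F W) :
    finrank F X + finrank F (B.orthogonal X) = finrank F W := by
  have := LinearMap.BilinForm.finrank_orthogonal h.nondeg X
  have := Submodule.finrank_le X
  omega

theorem perp_inf (h : Sn B) (X Y : Submodule F W) :
    B.orthogonal (X ⊓ Y) = B.orthogonal X ⊔ B.orthogonal Y := by
  conv_lhs => rw [← h.perp_perp X, ← h.perp_perp Y, ← perp_sup, h.perp_perp]

end Sn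

namespace Lag

variable {X Y Z : Submodule F W}

omit [FiniteDimensional F W] in
theorem iso (hX : Lag B X) {x y : W} (hx : x ∈ X) (hy : y ∈ X) : B x y = 0 :=
  mem_perp.1 (hX.symm ▸ hy : y ∈ B.orthogonal X) x hx

omit [FiniteDimensional F W] in
theorem mem (hX : Lag B X) {w : W} (hw : ∀ x ∈ X, B x w = 0) : w ∈ X :=
  hX ▸ (mem_perp.2 hw : w ∈ B.orthogonal X)

theorem dim (h : Sn B) (hX : Lag B X) : 2 * finrank F X = finrank F W := by
  have := h.dim_perp X
  rw [hX] at this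
  omega

end Lag

/-- An isotropic subspace of at least half the dimension is Lagrangian. -/
theorem lag_of (h : Sn B) {X : Submodule F W} (hi : ∀ x ∈ X, ∀ y ∈ X, B x y = 0)
    (hd : finrank F W ≤ 2 * finrank F X) : Lag B X := by
  have hle : X ≤ B.orthogonal X := fun y hy => mem_perp.2 fun x hx => hi x hx y hy
  have := h.dim_perp X
  exact (Submodule.eq_of_le_of_finrank_le hle (by omega)).symm

/-- Dimension of the part of a subspace of `W × W` above a subspace of the first factor. -/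
theorem dim_fst (T : Submodule F (W × W)) (P Q : Submodule F W)
    (hP : ∀ x, x ∈ P ↔ ∃ y, (x, y) ∈ T) (hQ : ∀ y, y ∈ Q ↔ ((0 : W), y) ∈ T) :
    finrank F T = finrank F P + finrank F Q := by
  have h1 := LinearMap.finrank_range_add_finrank_ker ((LinearMap.fst F W W).domRestrict T)
  have h2 : LinearMap.range ((LinearMap.fst F W W).domRestrict T) = P := by
    ext x
    rw [hP]
    constructor
    · rintro ⟨⟨⟨a, b⟩, ht⟩, rfl⟩
      exact ⟨b, ht⟩
    · rintro ⟨y, hy⟩
      exact ⟨⟨_, hy⟩, rfl⟩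
  have h3 : (LinearMap.ker ((LinearMap.fst F W W).domRestrict T)).map T.subtype =
      Q.map (LinearMap.inr F W W) := by
    ext ⟨a, b⟩
    simp only [Submodule.mem_map, LinearMap.mem_ker]
    constructor
    · rintro ⟨⟨⟨a', b'⟩, ht⟩, h0, he⟩
      obtain rfl : a' = 0 := h0
      exact ⟨b', (hQ _).2 ht, he⟩
    · rintro ⟨y, hy, he⟩
      exact ⟨⟨(0, y), (hQ _).1 hy⟩, rfl, he⟩
  have h4 := congrArg (fun S : Submodule F (W × W) => finrank F S) h3
  simp only [Submodule.finrank_map_subtype_eq] at h4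
  rw [LinearEquiv.finrank_eq (Submodule.equivMapOfInjective _ LinearMap.inr_injective Q).symm] at h4
  rw [h2, h4] at h1
  exact h1.symm

/-- Three Lagrangians: the dimensions of the pairwise intersections add up to the common
dimension modulo two. -/
theorem tri (h2 : (2 : F) ≠ 0) (h : Sn B) {X Y Z : Submodule F W} (hX : Lag B X) (hY : Lag B Y)
    (hZ : Lag B Z) : Even (finrank F X + finrank F ↥(X ⊓ Y) + finrank F ↥(Y ⊓ Z) +
      finrank F ↥(X ⊓ Z)) := by
  let T : Submodule F (W × W) := X.prod Y ⊓ Z.comap (LinearMap.fst F W W + LinearMap.snd F W W)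
  have mT : ∀ x y, (x, y) ∈ T ↔ x ∈ X ∧ y ∈ Y ∧ x + y ∈ Z := fun x y => by
    simp [T, and_assoc]
  let ω : LinearMap.BilinForm F T := B.compl₁₂ ((LinearMap.fst F W W).domRestrict T)
    ((LinearMap.snd F W W).domRestrict T)
  have ωa : ∀ a b : T, ω a b = B a.1.1 b.1.2 := fun _ _ => rfl
  have hs : ∀ a b, ω a b = -ω b a := by
    rintro ⟨⟨x, y⟩, ha⟩ ⟨⟨x', y'⟩, hb⟩
    obtain ⟨hx, hy, hz⟩ := (mT _ _).1 ha
    obtain ⟨hx', hy', hz'⟩ := (mT _ _).1 hb
    have := hZ.iso hz hz'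
    simp only [map_add, LinearMap.add_apply, hX.iso hx hx', hY.iso hy hy', h.sym y x'] at this
    simp only [ωa]
    linear_combination this
  have hev := even_rank h2 ω hs
  have d1 : finrank F T = finrank F ↥(X ⊓ (Y ⊔ Z)) + finrank F ↥(Y ⊓ Z) := by
    refine dim_fst T _ _ (fun x => ?_) (fun y => ?_)
    · simp only [mT, Submodule.mem_inf, Submodule.mem_sup]
      constructor
      · rintro ⟨hx, y, hy, z, hz, rfl⟩
        exact ⟨-y, hx, Y.neg_mem hy, by simpa using hz⟩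
      · rintro ⟨y, hx, hy, hz⟩
        exact ⟨hx, -y, Y.neg_mem hy, _, hz, by abel⟩
    · simp [mT]
  have d2 : finrank F ((LinearMap.ker ω).map T.subtype) =
      finrank F ↥(X ⊓ Y ⊔ X ⊓ Z) + finrank F ↥(Y ⊓ Z) := by
    have mR : ∀ x y, (x, y) ∈ (LinearMap.ker ω).map T.subtype ↔
        (x ∈ X ∧ y ∈ Y ∧ x + y ∈ Z) ∧ x ∈ X ⊓ Y ⊔ X ⊓ Z := by
      intro x y
      constructor
      · rintro ⟨⟨⟨a, b⟩, ht⟩, hk, he⟩
        obtain ⟨rfl, rfl⟩ : a = x ∧ b = y := Prod.mk.inj he
        obtain ⟨hx, hy, hz⟩ := (mT _ _).1 ht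
        refine ⟨⟨hx, hy, hz⟩, ?_⟩
        have h1 : a ∈ B.orthogonal (Y ⊓ (X ⊔ Z)) := by
          refine mem_perp.2 fun y' ⟨hy', hxz⟩ => ?_
          obtain ⟨x', hx', z, hz', rfl⟩ := Submodule.mem_sup.1 hxz
          have hm : (-x', x' + z) ∈ T := (mT _ _).2 ⟨X.neg_mem hx', hy', by simpa using hz'⟩
          have := LinearMap.congr_fun (LinearMap.mem_ker.1 hk) ⟨_, hm⟩
          rw [h.sym]
          exact this
        rw [h.perp_inf, perp_sup, hX, hY, hZ] at h1
        obtain ⟨y1, hy1, w, hw, rfl⟩ := Submodule.mem_sup.1 h1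
        exact Submodule.add_mem_sup ⟨by simpa using X.sub_mem hx hw.1, hy1⟩ hw
      · rintro ⟨ht, hm⟩
        refine ⟨⟨(x, y), (mT _ _).2 ht⟩, LinearMap.mem_ker.2 ?_, rfl⟩
        ext ⟨⟨x', y'⟩, hb⟩
        obtain ⟨hx', hy', hz'⟩ := (mT _ _).1 hb
        obtain ⟨u, hu, w, hw, rfl⟩ := Submodule.mem_sup.1 hm
        have e1 := hZ.iso hw.2 hz'
        rw [map_add, hX.iso hw.1 hx', zero_add] at e1
        show B (u + w) y' = 0
        rw [map_add, LinearMap.add_apply, hY.iso hu.2 hy', e1, add_zero]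
    refine dim_fst _ _ _ (fun x => ?_) (fun y => ?_)
    · simp only [mR]
      refine ⟨fun hm => ?_, fun ⟨_, _, hm⟩ => hm⟩
      obtain ⟨u, hu, w, hw, rfl⟩ := Submodule.mem_sup.1 hm
      exact ⟨-u, ⟨X.add_mem hu.1 hw.1, Y.neg_mem hu.2, by simpa using hw.2⟩, hm⟩
    · simp [mR]
  rw [Submodule.finrank_map_subtype_eq] at d2
  have d3 := h.dim_perp (X ⊔ Y ⊓ Z)
  rw [perp_sup, h.perp_inf, hX, hY, hZ] at d3
  have d4 := Submodule.finrank_sup_add_finrank_inf_eq X (Y ⊓ Z)
  have d5 := Submodule.finrank_sup_add_finrank_inf_eq (X ⊓ Y) (X ⊓ Z)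
  rw [← inf_inf_distrib_left] at d5
  have d6 := hX.dim h
  rw [Nat.even_iff] at hev ⊢
  omega

/-- The parity of `dim (X ⊓ L) + dim (Y ⊓ L)` does not depend on the Lagrangian `L`. -/
theorem quad (h2 : (2 : F) ≠ 0) (h : Sn B) {X Y L L' : Submodule F W} (hX : Lag B X)
    (hY : Lag B Y) (hL : Lag B L) (hL' : Lag B L') :
    Even (finrank F ↥(X ⊓ L) + finrank F ↥(Y ⊓ L) + finrank F ↥(X ⊓ L') + finrank F ↥(Y ⊓ L')) := by
  have a := tri h2 h hX hY hL
  have b := tri h2 h hX hY hL'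
  rw [Nat.even_iff] at a b ⊢
  omega

/-- Reduction along an isotropic subspace: `X ⊓ U^⊥ + U` is a Lagrangian containing `U`. -/
theorem red (h : Sn B) {X U : Submodule F W} (hX : Lag B X) (hU : U ≤ B.orthogonal U) :
    Lag B (X ⊓ B.orthogonal U ⊔ U) := by
  unfold Lag
  rw [perp_sup, h.perp_inf, hX, h.perp_perp, sup_comm X U, sup_inf_assoc_of_le X hU, sup_comm]

/-- Duality count: `dim (X ⊓ U^⊥) + dim U = dim (X ⊓ U) + dim X` for a Lagrangian `X`. -/
theorem dim_inf_perp (h : Sn B) {X : Submodule F W} (hX : Lag B X) (U : Submodule F W) :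
    finrank F ↥(X ⊓ B.orthogonal U) + finrank F U = finrank F ↥(X ⊓ U) + finrank F X := by
  have d3 := h.dim_perp (X ⊔ U)
  rw [perp_sup, hX] at d3
  have d4 := Submodule.finrank_sup_add_finrank_inf_eq X U
  have d6 := hX.dim h
  omega

section card

variable {p : ℕ} {A : Type*} [AddCommGroup A]

theorem triM [Fact p.Prime] [Module (ZMod p) A] (h2 : p ≠ 2) [Finite A]
    (B : A →+ A →+ ZMod p) (sym : ∀ x y, B x y = B y x) (nd : ∀ x, (∀ y, B x y = 0) → x = 0)
    {X Y Z : AddSubgroup A} (iX : ∀ x ∈ X, ∀ y ∈ X, B x y = 0) (iY : ∀ x ∈ Y, ∀ y ∈ Y, B x y = 0)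
    (iZ : ∀ x ∈ Z, ∀ y ∈ Z, B x y = 0) (cX : Nat.card A ≤ Nat.card X * Nat.card X)
    (cY : Nat.card A ≤ Nat.card Y * Nat.card Y) (cZ : Nat.card A ≤ Nat.card Z * Nat.card Z) :
    ∃ t, Nat.card X * Nat.card ↥(X ⊓ Y) * Nat.card ↥(Y ⊓ Z) * Nat.card ↥(X ⊓ Z) = p ^ (2 * t) := by
  have hp : p.Prime := Fact.out
  haveI : Module.Finite (ZMod p) A := Module.Finite.of_finite
  let B' : LinearMap.BilinForm (ZMod p) A := LinearMap.mk₂ (ZMod p) (fun x y => B x y)
    (fun x x' y => by simp) (fun c x y => ZMod.map_smul (B.flip y) c x) (fun x y y' => by simp)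
    (fun c x y => ZMod.map_smul (B x) c y)
  have hS : Sn B' := ⟨sym, nd⟩
  have cd : ∀ S : Submodule (ZMod p) A, Nat.card ↥S = p ^ finrank (ZMod p) ↥S := fun S => by
    rw [Module.natCard_eq_pow_finrank (K := ZMod p), Nat.card_zmod]
  have cA : Nat.card A = p ^ finrank (ZMod p) A := by
    rw [Module.natCard_eq_pow_finrank (K := ZMod p), Nat.card_zmod]
  have lg : ∀ S : AddSubgroup A, (∀ x ∈ S, ∀ y ∈ S, B x y = 0) →
      Nat.card A ≤ Nat.card S * Nat.card S → Lag B' (AddSubgroup.toZModSubmodule p S) := by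
    intro S hi hc
    refine lag_of hS hi ?_
    have e : Nat.card S = _ := cd (AddSubgroup.toZModSubmodule p S)
    rw [cA, e, ← pow_add, Nat.pow_le_pow_iff_right hp.one_lt] at hc
    omega
  have h2' : (2 : ZMod p) ≠ 0 := by
    intro h
    have : ((2 : ℕ) : ZMod p) = 0 := by exact_mod_cast h
    rw [ZMod.natCast_eq_zero_iff] at this
    exact h2 ((Nat.prime_dvd_prime_iff_eq hp Nat.prime_two).1 this)
  obtain ⟨t, ht⟩ := tri h2' hS (lg X iX cX) (lg Y iY cY) (lg Z iZ cZ)
  refine ⟨t, ?_⟩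
  have e1 : Nat.card X = _ := cd (AddSubgroup.toZModSubmodule p X)
  have e2 : Nat.card ↥(X ⊓ Y) = _ :=
    cd (AddSubgroup.toZModSubmodule p X ⊓ AddSubgroup.toZModSubmodule p Y)
  have e3 : Nat.card ↥(Y ⊓ Z) = _ :=
    cd (AddSubgroup.toZModSubmodule p Y ⊓ AddSubgroup.toZModSubmodule p Z)
  have e4 : Nat.card ↥(X ⊓ Z) = _ :=
    cd (AddSubgroup.toZModSubmodule p X ⊓ AddSubgroup.toZModSubmodule p Z)
  rw [e1, e2, e3, e4, ← pow_add, ← pow_add, ← pow_add, ht, two_mul]

/-- `tri` for finite abelian groups killed by an odd prime, in cardinalities. -/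
theorem triN (hp : p.Prime) (h2 : p ≠ 2) [Finite A] (hk : ∀ a : A, p • a = 0)
    (B : A →+ A →+ ZMod p) (sym : ∀ x y, B x y = B y x) (nd : ∀ x, (∀ y, B x y = 0) → x = 0)
    {X Y Z : AddSubgroup A} (iX : ∀ x ∈ X, ∀ y ∈ X, B x y = 0) (iY : ∀ x ∈ Y, ∀ y ∈ Y, B x y = 0)
    (iZ : ∀ x ∈ Z, ∀ y ∈ Z, B x y = 0) (cX : Nat.card A ≤ Nat.card X * Nat.card X)
    (cY : Nat.card A ≤ Nat.card Y * Nat.card Y) (cZ : Nat.card A ≤ Nat.card Z * Nat.card Z) :
    ∃ t, Nat.card X * Nat.card ↥(X ⊓ Y) * Nat.card ↥(Y ⊓ Z) * Nat.card ↥(X ⊓ Z) = p ^ (2 * t) :=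
  haveI := Fact.mk hp
  @triM p A _ _ (AddCommGroup.zmodModule hk) h2 _ B sym nd X Y Z iX iY iZ cX cY cZ

end card

end Vale.Agent.P014Y.Mu.Lg
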