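import Vale.Agent.P014Y.Mu.Qs
import Vale.Agent.P014Y.Mu.Lag

/-! # P014Y, block MU: the rows of linear algebra -/

set_option autoImplicit false
set_option linter.all false

noncomputable section

namespace Vale.Agent.P014Y.Mu

open Module Lg

namespace Li

variable {k X W : Type} [Field k] [AddCommGroup X] [Module k X] [AddCommGroup W] [Module k W]

theorem mem_ot {C L : Submodule k X} {β : Bf k X} {y : X} :
    y ∈ ot C β L ↔ y ∈ C ∧ ∀ x ∈ L, β x y = 0 := Iff.rfl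

theorem ot_le {C L : Submodule k X} {β : Bf k X} : ot C β L ≤ C := fun _ h => h.1

theorem mem_sl {Z : Submodule k X} {T : Finset ℕ} {L : ℕ → Submodule k X} {z : X} :
    z ∈ sl Z T L ↔ z ∈ Z ∧ ∀ l ∈ T, z ∈ L l := by
  simp [sl, Submodule.mem_iInf]

theorem fr_map {Y : Type} [AddCommGroup Y] [Module k Y] (f : X →ₗ[k] W) (g : X →ₗ[k] Y)
    (L : Submodule k X) (h : ∀ x ∈ L, f x = 0 ↔ g x = 0) :
    finrank k (L.map f) = finrank k (L.map g) := by
  have e : LinearMap.ker (f.domRestrict L) = LinearMap.ker (g.domRestrict L) := by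
    ext x
    exact h x x.2
  rw [← LinearMap.range_domRestrict, ← LinearMap.range_domRestrict,
    ← (LinearMap.quotKerEquivRange _).finrank_eq, ← (LinearMap.quotKerEquivRange _).finrank_eq, e]

theorem fr_add (f : X →ₗ[k] W) (L M : Submodule k X) [Module.Finite k L]
    (h : ∀ x, x ∈ M ↔ x ∈ L ∧ f x = 0) : finrank k L = finrank k (L.map f) + finrank k M := by
  have h1 := LinearMap.finrank_range_add_finrank_ker (f.domRestrict L)
  have h2 : (LinearMap.ker (f.domRestrict L)).map L.subtype = M := by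
    ext x
    rw [h]
    exact ⟨fun ⟨y, hy, e⟩ => e ▸ ⟨y.2, hy⟩, fun ⟨a, b⟩ => ⟨⟨x, a⟩, b, rfl⟩⟩
  rw [LinearMap.range_domRestrict, ← Submodule.finrank_map_subtype_eq, h2] at h1
  exact h1.symm

theorem dq_add [FiniteDimensional k W] (A A' : Submodule k W) :
    dq A A' + finrank k ↥(A ⊓ A') = finrank k A :=
  (fr_add A'.mkQ A (A ⊓ A') fun x => by simp).symm

/-- a finite dimensional model of a local space -/
structure Ps (C B : Submodule k X) (β : Bf k X) (π : X →ₗ[k] W)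
    (γ : LinearMap.BilinForm k W) : Prop where
  sn : Sn γ
  ker : ∀ x ∈ C, π x = 0 ↔ x ∈ B
  sur : ∀ w, ∃ x ∈ C, π x = w
  frm : ∀ x ∈ C, ∀ y ∈ C, γ (π x) (π y) = β x y
  bc : B ≤ C

theorem pres {C B : Submodule k X} {β : Bf k X} (h : Lq C B β) :
    ∃ (n : ℕ) (π : X →ₗ[k] (Fin n → k)) (γ : LinearMap.BilinForm k (Fin n → k)),
      Ps C B β π γ := by
  have := h.fin
  let e := (Module.finBasis k (C.map B.mkQ)).equivFun
  obtain ⟨p, hp⟩ := (C.map B.mkQ).subtype.exists_leftInverse_of_injective (Submodule.ker_subtype _)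
  let π := e.toLinearMap ∘ₗ p ∘ₗ B.mkQ
  have hπ : ∀ x (hx : x ∈ C), π x = e ⟨B.mkQ x, Submodule.mem_map_of_mem hx⟩ := fun x hx =>
    congrArg e (LinearMap.congr_fun hp ⟨B.mkQ x, Submodule.mem_map_of_mem hx⟩)
  have ker : ∀ x ∈ C, π x = 0 ↔ x ∈ B := fun x hx => by
    rw [hπ x hx, e.map_eq_zero_iff, Submodule.mk_eq_zero, Submodule.mkQ_apply,
      Submodule.Quotient.mk_eq_zero]
  have sur : ∀ w, ∃ x ∈ C, π x = w := fun w => by
    obtain ⟨⟨_, x, hx, rfl⟩, rfl⟩ := e.surjective w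
    exact ⟨x, hx, hπ x hx⟩
  obtain ⟨g, hg⟩ := (π.domRestrict C).exists_rightInverse_of_surjective
    (LinearMap.range_eq_top.2 fun w => (sur w).elim fun x hx => ⟨⟨x, hx.1⟩, hx.2⟩)
  have hB : ∀ b ∈ B, ∀ x ∈ C, β x b = 0 := fun b hb => (h.rad.ge hb).2
  have bc : B ≤ C := h.rad.ge.trans ot_le
  have hs : ∀ x ∈ C, (g (π x) : X) - x ∈ B := fun x hx => by
    rw [← ker _ (C.sub_mem (g _).2 hx), map_sub, sub_eq_zero]
    exact LinearMap.congr_fun hg (π x)
  have frm : ∀ x ∈ C, ∀ y ∈ C, β (g (π x)) (g (π y)) = β x y := fun x hx y hy => by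
    have a := hB _ (hs y hy) _ (g (π x)).2
    have b := hB _ (hs x hx) _ hy
    rw [h.sym _ hy _ (bc (hs x hx))] at b
    simp only [map_sub, LinearMap.sub_apply] at a b
    linear_combination a + b
  refine ⟨_, π, β.compl₁₂ (C.subtype ∘ₗ g) (C.subtype ∘ₗ g), ⟨fun x y => h.sym _ (g x).2 _ (g y).2,
    fun w hw => ?_⟩, ker, sur, frm, bc⟩
  obtain ⟨x, hx, rfl⟩ := sur w
  rw [ker x hx]
  refine h.rad.le ⟨hx, fun y hy => ?_⟩
  rw [h.sym _ hy _ hx, ← frm x hx y hy]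
  exact hw (π y)

namespace Ps

variable {C B L L' : Submodule k X} {β : Bf k X} {π : X →ₗ[k] W} {γ : LinearMap.BilinForm k W}

theorem mem (h : Ps C B β π γ) (hB : B ≤ L) (hL : L ≤ C) {x : X} (hx : x ∈ C) :
    π x ∈ L.map π ↔ x ∈ L := by
  refine ⟨fun ⟨y, hy, e⟩ => ?_, Submodule.mem_map_of_mem⟩
  have : x - y ∈ B := (h.ker _ (C.sub_mem hx (hL hy))).1 (by rw [map_sub, e, sub_self])
  simpa using L.add_mem (hB this) hy

theorem inj (h : Ps C B β π γ) (hB : B ≤ L) (hL : L ≤ C) (hB' : B ≤ L') (hL' : L' ≤ C)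
    (e : L.map π = L'.map π) : L = L' :=
  le_antisymm (fun x hx => (h.mem hB' hL' (hL hx)).1 (e ▸ Submodule.mem_map_of_mem hx))
    fun x hx => (h.mem hB hL (hL' hx)).1 (e ▸ Submodule.mem_map_of_mem hx)

theorem le_ot (h : Ps C B β π γ) (hL : L ≤ C) : B ≤ ot C β L := fun b hb =>
  ⟨h.bc hb, fun x hx => by rw [← h.frm x (hL hx) b (h.bc hb), (h.ker b (h.bc hb)).2 hb, map_zero]⟩

theorem map_ot (h : Ps C B β π γ) (hL : L ≤ C) :
    (ot C β L).map π = γ.orthogonal (L.map π) := by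
  ext w
  rw [mem_perp]
  constructor
  · rintro ⟨y, hy, rfl⟩ _ ⟨x, hx, rfl⟩
    rw [h.frm x (hL hx) y hy.1]
    exact hy.2 x hx
  · intro hw
    obtain ⟨y, hy, rfl⟩ := h.sur w
    exact ⟨y, ⟨hy, fun x hx => (h.frm x (hL hx) y hy).symm.trans (hw _ ⟨x, hx, rfl⟩)⟩, rfl⟩

theorem map_inf (h : Ps C B β π γ) (hL : L ≤ C) (hB' : B ≤ L') (hL' : L' ≤ C) :
    (L ⊓ L').map π = L.map π ⊓ L'.map π :=
  le_antisymm (Submodule.map_inf_le _) (by
    rintro _ ⟨⟨x, hx, rfl⟩, m⟩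
    exact ⟨x, ⟨hx, (h.mem hB' hL' (hL hx)).1 m⟩, rfl⟩)

theorem dq_eq (h : Ps C B β π γ) (hL : L ≤ C) (hB' : B ≤ L') (hL' : L' ≤ C) :
    dq L L' = dq (L.map π) (L'.map π) := by
  unfold dq
  rw [← Submodule.map_comp]
  refine fr_map _ _ _ fun x hx => ?_
  simp only [Submodule.mkQ_apply, LinearMap.comp_apply, Submodule.Quotient.mk_eq_zero]
  exact (h.mem hB' hL' (hL hx)).symm

theorem dq_b (h : Ps C B β π γ) (hL : L ≤ C) : dq L B = finrank k (L.map π) :=
  fr_map _ _ _ fun x hx => by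
    rw [h.ker x (hL hx), Submodule.mkQ_apply, Submodule.Quotient.mk_eq_zero]

theorem top (h : Ps C B β π γ) : C.map π = ⊤ :=
  eq_top_iff.2 fun w _ => h.sur w

theorem dq_c (h : Ps C B β π γ) : dq C B = finrank k W := by
  rw [h.dq_b le_rfl, h.top, finrank_top]

theorem lag (h : Ps C B β π γ) (e : ot C β L = L) : B ≤ L ∧ L ≤ C ∧ Lag γ (L.map π) :=
  have hL : L ≤ C := e ▸ ot_le
  ⟨e ▸ h.le_ot hL, hL, by rw [Lag, ← h.map_ot hL, e]⟩

theorem of_lag (h : Ps C B β π γ) (hB : B ≤ L) (hL : L ≤ C) (e : Lag γ (L.map π)) :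
    ot C β L = L :=
  h.inj (h.le_ot hL) ot_le hB hL ((h.map_ot hL).trans e)

end Ps

section glob

variable {ι : Type} [Fintype ι] {V : ι → Type} [∀ i, AddCommGroup (V i)] [∀ i, Module k (V i)]

/-- the orthogonal sum -/
def sm (γ : ∀ i, LinearMap.BilinForm k (V i)) : LinearMap.BilinForm k (∀ i, V i) :=
  ∑ i, (γ i).compl₁₂ (LinearMap.proj i) (LinearMap.proj i)

theorem sm_apply (γ : ∀ i, LinearMap.BilinForm k (V i)) (x y : ∀ i, V i) :
    sm γ x y = ∑ i, γ i (x i) (y i) := by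
  simp [sm, LinearMap.sum_apply]

theorem perp_pi (γ : ∀ i, LinearMap.BilinForm k (V i)) (A : ∀ i, Submodule k (V i)) :
    (sm γ).orthogonal (Submodule.pi Set.univ A) =
      Submodule.pi Set.univ fun i => (γ i).orthogonal (A i) := by
  classical
  ext w
  rw [mem_perp, Submodule.mem_pi]
  constructor
  · intro h i _
    refine mem_perp.2 fun a ha => ?_
    have := h (Pi.single i a) (Submodule.mem_pi.2 fun j _ => by
      by_cases e : j = i
      · subst e; simpa using ha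
      · simp [Pi.single_eq_of_ne e])
    rwa [sm_apply, Finset.sum_eq_single i (fun j _ e => by simp [Pi.single_eq_of_ne e]) (by simp),
      Pi.single_eq_same] at this
  · intro h x hx
    rw [sm_apply]
    exact Finset.sum_eq_zero fun i _ => mem_perp.1 (h i trivial) _ (hx i trivial)

theorem sn_sm {γ : ∀ i, LinearMap.BilinForm k (V i)} (h : ∀ i, Sn (γ i)) : Sn (sm γ) := by
  classical
  refine ⟨fun x y => by simp only [sm_apply, (h _).sym (x _)], fun x hx => funext fun i =>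
    (h i).nd _ fun a => ?_⟩
  have := hx (Pi.single i a)
  rwa [sm_apply, Finset.sum_eq_single i (fun j _ e => by simp [Pi.single_eq_of_ne e]) (by simp),
    Pi.single_eq_same] at this

theorem fr_pi [∀ i, FiniteDimensional k (V i)] (A : ∀ i, Submodule k (V i)) :
    finrank k (Submodule.pi Set.univ A) = ∑ i, finrank k (A i) := by
  let f : (∀ i, A i) →ₗ[k] ∀ i, V i := LinearMap.pi fun i => (A i).subtype ∘ₗ LinearMap.proj i
  have hf : Function.Injective f := fun x y e => funext fun i => Subtype.ext (congrFun e i)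
  have : LinearMap.range f = Submodule.pi Set.univ A := by
    ext w
    exact ⟨fun ⟨x, e⟩ => e ▸ fun i _ => (x i).2, fun h => ⟨fun i => ⟨w i, h i trivial⟩, rfl⟩⟩
  rw [← this, LinearMap.finrank_range_of_inj hf, Module.finrank_pi_fintype]

end glob

/-- a finite dimensional model of a system -/
structure Gs (T : Finset ℕ) (C B : ℕ → Submodule k X) (β : ℕ → Bf k X) (Z : Submodule k X)
    (n : T → ℕ) (π : ∀ l, X →ₗ[k] (Fin (n l) → k))
    (γ : ∀ l, LinearMap.BilinForm k (Fin (n l) → k)) : Prop extends Q0 T C B β Z where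
  ps : ∀ l : T, Ps (C l) (B l) (β l) (π l) (γ l)

theorem gs {T : Finset ℕ} {C B : ℕ → Submodule k X} {β : ℕ → Bf k X} {Z : Submodule k X}
    (h : Q0 T C B β Z) : ∃ n π γ, Gs T C B β Z n π γ := by
  choose n π γ e using fun l : T => pres (h.lq l l.2)
  exact ⟨n, π, γ, h, e⟩

namespace Gs

variable {T : Finset ℕ} {C B L : ℕ → Submodule k X} {β : ℕ → Bf k X} {Z : Submodule k X}
  {n : T → ℕ} {π : ∀ l, X →ₗ[k] (Fin (n l) → k)} {γ : ∀ l, LinearMap.BilinForm k (Fin (n l) → k)}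

theorem sn (h : Gs T C B β Z n π γ) : Sn (sm γ) := sn_sm fun l => (h.ps l).sn

theorem frm (h : Gs T C B β Z n π γ) {x y : ℕ → X} (hx : ∀ l ∈ T, x l ∈ C l)
    (hy : ∀ l ∈ T, y l ∈ C l) :
    sm γ (fun l => π l (x l)) (fun l => π l (y l)) = ∑ l ∈ T, β l (x l) (y l) := by
  rw [sm_apply, ← Finset.sum_coe_sort T]
  exact Finset.sum_congr rfl fun l _ => (h.ps l).frm _ (hx l l.2) _ (hy l l.2)

theorem dim (h : Gs T C B β Z n π γ) :
    finrank k (∀ l, Fin (n l) → k) = ∑ l ∈ T, dq (C l) (B l) := by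
  rw [Module.finrank_pi_fintype, ← Finset.sum_coe_sort T]
  exact Finset.sum_congr rfl fun l _ => (h.ps l).dq_c.symm

theorem is (h : Gs T C B β Z n π γ) : ∀ x ∈ Z.map (LinearMap.pi π),
    ∀ y ∈ Z.map (LinearMap.pi π), sm γ x y = 0 := by
  rintro _ ⟨x, hx, rfl⟩ _ ⟨y, hy, rfl⟩
  exact (h.frm (x := fun _ => x) (y := fun _ => y) (fun l m => h.le l m hx)
    fun l m => h.le l m hy).trans (h.iso x hx y hy)

theorem fz (h : Gs T C B β Z n π γ) :
    finrank k Z = finrank k (Z.map (LinearMap.pi π)) + finrank k (sl Z T B) :=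
  haveI := h.zf
  fr_add _ _ _ fun x => mem_sl.trans (and_congr_right fun hx => ⟨fun a => funext fun l =>
    ((h.ps l).ker x (h.le l l.2 hx)).2 (a l l.2), fun a l m =>
    ((h.ps ⟨l, m⟩).ker x (h.le l m hx)).1 (congrFun a ⟨l, m⟩)⟩)

theorem fs (h : Gs T C B β Z n π γ) (hB : ∀ l ∈ T, B l ≤ L l) (hL : ∀ l ∈ T, L l ≤ C l) :
    finrank k (sl Z T L) = finrank k ↥(Submodule.pi Set.univ (fun l : T => (L l).map (π l)) ⊓
      Z.map (LinearMap.pi π)) + finrank k (sl Z T B) := by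
  haveI := h.zf
  haveI : Module.Finite k (sl Z T L) := Submodule.finiteDimensional_of_le (S₂ := Z) inf_le_left
  have e : (sl Z T L).map (LinearMap.pi π) =
      Submodule.pi Set.univ (fun l : T => (L l).map (π l)) ⊓ Z.map (LinearMap.pi π) := by
    ext w
    constructor
    · rintro ⟨x, hx, rfl⟩
      exact ⟨fun l _ => ⟨x, (mem_sl.1 hx).2 l l.2, rfl⟩, x, hx.1, rfl⟩
    · rintro ⟨a, x, hx, rfl⟩
      exact ⟨x, mem_sl.2 ⟨hx, fun l m => ((h.ps ⟨l, m⟩).mem (hB l m) (hL l m) (h.le l m hx)).1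
        (a ⟨l, m⟩ trivial)⟩, rfl⟩
  rw [← e]
  exact fr_add _ _ _ fun x => ⟨fun a => ⟨mem_sl.2 ⟨a.1, fun l m => hB l m ((mem_sl.1 a).2 l m)⟩,
    funext fun l => ((h.ps l).ker x (h.le l l.2 a.1)).2 ((mem_sl.1 a).2 l l.2)⟩,
    fun a => mem_sl.2 ⟨a.1.1, fun l m =>
      ((h.ps ⟨l, m⟩).ker x (h.le l m a.1.1)).1 (congrFun a.2 ⟨l, m⟩)⟩⟩

theorem lag (h : Gs T C B β Z n π γ) (q : Qs T C B β Z) : Lag (sm γ) (Z.map (LinearMap.pi π)) := by
  refine le_antisymm (fun w hw => ?_) fun y hy => mem_perp.2 fun x hx => h.is x hx y hy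
  choose x hx e using fun l : T => (h.ps l).sur (w l)
  let x' : ℕ → X := fun l => if m : l ∈ T then x ⟨l, m⟩ else 0
  have x1 : ∀ l : T, x' l = x l := fun l => dif_pos l.2
  have x2 : ∀ l ∈ T, x' l ∈ C l := fun l m => x1 ⟨l, m⟩ ▸ hx ⟨l, m⟩
  have x3 : (fun l : T => π l (x' l)) = w := funext fun l => by rw [x1, e]
  obtain ⟨z, hz, a⟩ := q.pt x' x2 fun y hy => by
    rw [← h.frm x2 (y := fun _ => y) fun l m => h.le l m hy, x3, h.sn.sym]
    exact mem_perp.1 hw _ ⟨y, hy, rfl⟩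
  refine ⟨z, hz, funext fun l => ?_⟩
  have := ((h.ps l).ker _ ((h.ps l).bc (a l l.2))).2 (a l l.2)
  rw [map_sub, sub_eq_zero, x1, e] at this
  exact this

theorem qs (h : Gs T C B β Z n π γ) (q : Lag (sm γ) (Z.map (LinearMap.pi π))) :
    Qs T C B β Z := ⟨h.toQ0, fun x hx o => by
  obtain ⟨z, hz, e⟩ := q.mem (w := fun l => π l (x l)) (by
    rintro _ ⟨y, hy, rfl⟩
    rw [h.sn.sym]
    exact (h.frm hx (y := fun _ => y) fun l m => h.le l m hy).trans (o y hy))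
  refine ⟨z, hz, fun l m => ((h.ps ⟨l, m⟩).ker _ ((C l).sub_mem (h.le l m hz) (hx l m))).1 ?_⟩
  rw [map_sub, sub_eq_zero]
  exact congrFun e ⟨l, m⟩⟩

theorem lagp (h : Gs T C B β Z n π γ) (hL : ∀ l ∈ T, ot (C l) (β l) (L l) = L l) :
    Lag (sm γ) (Submodule.pi Set.univ fun l : T => (L l).map (π l)) := by
  rw [Lag, perp_pi]
  exact congrArg _ (funext fun l => ((h.ps l).lag (hL l l.2)).2.2)

end Gs

end Li

open Li

theorem laga : LAGA := by
  intro k X _ _ _ C B L β h hB hL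
  obtain ⟨n, π, γ, p⟩ := pres h
  have d := p.sn.dim_perp (L.map π)
  refine ⟨p.inj (p.le_ot ot_le) ot_le hB hL (by rw [p.map_ot ot_le, p.map_ot hL, p.sn.perp_perp]),
    by rw [p.dq_b ot_le, p.dq_b hL, p.dq_c, p.map_ot hL, add_comm, d], fun L' a b => ?_,
    fun a b => p.of_lag hB hL (lag_of p.sn ?_ (by rwa [p.dq_c, p.dq_b hL] at b))⟩
  · have e := dq_add (L'.map π) (L.map π)
    rw [inf_eq_right.2 (Submodule.map_mono a), ← p.dq_eq b hB hL] at e
    refine ⟨by rw [p.dq_b hL, p.dq_b b, e], fun z => p.inj (hB.trans a) b hB hL ?_⟩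
    exact (Submodule.eq_of_le_of_finrank_le (Submodule.map_mono a) (by omega)).symm
  · rintro _ ⟨x, hx, rfl⟩ _ ⟨y, hy, rfl⟩
    rw [p.frm x (hL hx) y (hL hy)]
    exact (a hy).2 x hx

theorem cnta : CNTA := by
  intro k X _ _ _ T C B β Z h
  obtain ⟨n, π, γ, g⟩ := gs h
  have a := g.fz
  have b := g.dim
  have c := g.sn.dim_perp (Z.map (LinearMap.pi π))
  have d := Submodule.finrank_mono (show Z.map (LinearMap.pi π) ≤ (sm γ).orthogonal _ from
    fun y hy => mem_perp.2 fun x hx => g.is x hx y hy)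
  exact ⟨by omega, fun e => g.qs (lag_of g.sn g.is (by omega))⟩

theorem reda : REDA := by
  intro k X _ _ _ T T' C B U β Z h le hU
  obtain ⟨n, π, γ, g⟩ := gs h.toQ0
  have hX := g.lag h
  have sp : ∀ f : ℕ → k, (∀ l ∈ T' \ T, f l = 0) → ∑ l ∈ T', f l = ∑ l ∈ T, f l := fun f e => by
    rw [← Finset.sum_sdiff le, Finset.sum_eq_zero e, zero_add]
  haveI := h.zf
  refine ⟨⟨fun l m => h.lq l (le m), Submodule.finiteDimensional_of_le (S₂ := Z) inf_le_left,
    fun l m => inf_le_left.trans (h.le l (le m)), fun x hx y hy => ?_⟩, fun x hx o => ?_⟩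
  · rw [← sp _ fun l m => ((hU l m).ge ((mem_sl.1 hy).2 l m)).2 x ((mem_sl.1 hx).2 l m)]
    exact h.iso x hx.1 y hy.1
  · let A : ∀ l : T', Submodule k (Fin (n l) → k) := fun l =>
      if l.1 ∈ T then ⊥ else (U l).map (π l)
    let x' : ℕ → X := fun l => if l ∈ T then x l else 0
    have x2 : ∀ l ∈ T', x' l ∈ C l := fun l _ => by
      by_cases m : l ∈ T
      · simpa [x', m] using hx l m
      · simp [x', m]
    have u : ∀ l : T', l.1 ∉ T → B l ≤ U l ∧ U l ≤ C l ∧ Lag (γ l) ((U l).map (π l)) :=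
      fun l m => (g.ps l).lag (hU l (Finset.mem_sdiff.2 ⟨l.2, m⟩))
    have w : (fun l : T' => π l (x' l)) ∈ (sm γ).orthogonal (Z.map (LinearMap.pi π) ⊓
        (sm γ).orthogonal (Submodule.pi Set.univ A)) := by
      refine mem_perp.2 ?_
      rintro _ ⟨⟨y, hy, rfl⟩, m⟩
      rw [perp_pi] at m
      rw [g.sn.sym]
      refine (g.frm x2 (y := fun _ => y) fun l m => h.le l m hy).trans ?_
      rw [sp _ fun l a => by simp [x', (Finset.mem_sdiff.1 a).2], ← o y (mem_sl.2 ⟨hy, fun l a => ?_⟩)]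
      · exact Finset.sum_congr rfl fun l a => by simp [x', a]
      · obtain ⟨a1, a2⟩ := Finset.mem_sdiff.1 a
        obtain ⟨u1, u2, u3⟩ := u ⟨l, a1⟩ a2
        have := m ⟨l, a1⟩ trivial
        simp only [A, if_neg a2] at this
        rw [u3] at this
        exact ((g.ps ⟨l, a1⟩).mem u1 u2 (h.le l a1 hy)).1 this
    rw [g.sn.perp_inf, hX, g.sn.perp_perp] at w
    obtain ⟨_, ⟨z, hz, rfl⟩, v, hv, e⟩ := Submodule.mem_sup.1 w
    refine ⟨z, mem_sl.2 ⟨hz, fun l a => ?_⟩, fun l a => ?_⟩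
    · obtain ⟨a1, a2⟩ := Finset.mem_sdiff.1 a
      obtain ⟨u1, u2, -⟩ := u ⟨l, a1⟩ a2
      have e1 : π ⟨l, a1⟩ z + v ⟨l, a1⟩ = π ⟨l, a1⟩ (x' l) := congrFun e ⟨l, a1⟩
      have e2 := hv ⟨l, a1⟩ trivial
      simp only [A, if_neg a2] at e2
      simp only [x', if_neg a2, map_zero] at e1
      rw [← (g.ps ⟨l, a1⟩).mem u1 u2 (h.le l a1 hz), eq_neg_of_add_eq_zero_left e1]
      exact neg_mem e2
    · have e1 : π ⟨l, le a⟩ z + v ⟨l, le a⟩ = π ⟨l, le a⟩ (x' l) := congrFun e ⟨l, le a⟩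
      have e2 := hv ⟨l, le a⟩ trivial
      simp only [A, if_pos a] at e2
      simp only [x', if_pos a, (Submodule.mem_bot k).1 e2, add_zero] at e1
      refine ((g.ps ⟨l, le a⟩).ker _ ((C l).sub_mem (h.le l (le a) hz) (hx l a))).1 ?_
      rw [map_sub, e1, sub_self]

theorem gwa : GWA := by
  intro k X _ _ _ T C B L β Z U p h hp hL hB hU
  have q := reda k X {p} T C B L β Z h (Finset.singleton_subset_iff.2 hp)
    (by rwa [Finset.sdiff_singleton_eq_erase])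
  rw [Finset.sdiff_singleton_eq_erase] at q
  generalize sl Z (T.erase p) L = Y at q ⊢
  have m := Finset.mem_singleton_self p
  obtain ⟨n, π, γ, s⟩ := pres (q.lq p m)
  have yc := q.le p m
  have uc : U ≤ C p := hU.trans ot_le
  have hY : Lag γ (Y.map π) := by
    refine le_antisymm (fun w hw => ?_) ?_
    · obtain ⟨x, hx, rfl⟩ := s.sur w
      obtain ⟨z, hz, a⟩ := q.pt (fun _ => x) (fun l e => Finset.mem_singleton.1 e ▸ hx) fun y hy => by
        rw [Finset.sum_singleton, ← s.frm x hx y (yc hy), s.sn.sym]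
        exact mem_perp.1 hw _ ⟨y, hy, rfl⟩
      refine ⟨z, hz, ?_⟩
      rw [← sub_eq_zero, ← map_sub]
      exact (s.ker _ (s.bc (a p m))).2 (a p m)
    · rintro _ ⟨y, hy, rfl⟩
      refine mem_perp.2 ?_
      rintro _ ⟨x, hx, rfl⟩
      rw [s.frm x (yc hx) y (yc hy)]
      simpa using q.iso x hx y hy
  have iU : U.map π ≤ γ.orthogonal (U.map π) := s.map_ot uc ▸ Submodule.map_mono hU
  have e1 : (Y ⊓ ot (C p) (β p) U).map π = Y.map π ⊓ γ.orthogonal (U.map π) := by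
    rw [s.map_inf yc (s.le_ot uc) ot_le, s.map_ot uc]
  refine ⟨s.of_lag (hB.trans le_sup_left) (sup_le uc (inf_le_left.trans yc)) ?_, ?_⟩
  · rw [Submodule.map_sup, e1, sup_comm]
    exact red s.sn hY iU
  · haveI := q.zf
    have f : ∀ M, B p ≤ M → finrank k ↥(Y ⊓ M) = finrank k ((Y ⊓ M).map π) + finrank k ↥(Y ⊓ B p) :=
      fun M hM => fr_add _ _ _ fun x => ⟨fun a => ⟨⟨a.1, hM a.2⟩, (s.ker x (yc a.1)).2 a.2⟩,
        fun a => ⟨a.1.1, (s.ker x (yc a.1.1)).1 a.2⟩⟩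
    have d1 := dq_add (γ.orthogonal (U.map π)) (U.map π)
    have d2 := dim_inf_perp s.sn hY (U.map π)
    have d3 := hY.dim s.sn
    have d4 := s.sn.dim_perp (U.map π)
    rw [inf_eq_right.2 iU] at d1
    rw [f _ (s.le_ot uc), f _ hB, e1, s.map_inf yc hB uc, s.dq_eq ot_le hB uc, s.map_ot uc]
    omega

theorem para : PARA := by
  intro k X _ _ _ T C B L L' β Z h2 h hL hL'
  obtain ⟨n, π, γ, g⟩ := gs h.toQ0
  have t := tri h2 g.sn (g.lagp hL) (g.lagp hL') (g.lag h)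
  have b := fun l (m : l ∈ T) => (g.ps ⟨l, m⟩).lag (hL l m)
  have b' := fun l (m : l ∈ T) => (g.ps ⟨l, m⟩).lag (hL' l m)
  have i : Submodule.pi Set.univ (fun l : T => (L l).map (π l)) ⊓
      Submodule.pi Set.univ (fun l : T => (L' l).map (π l)) =
      Submodule.pi Set.univ fun l : T => (L l).map (π l) ⊓ (L' l).map (π l) := by
    ext w
    exact ⟨fun a l _ => ⟨a.1 l trivial, a.2 l trivial⟩,
      fun a => ⟨fun l _ => (a l trivial).1, fun l _ => (a l trivial).2⟩⟩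
  have s : ∑ l ∈ T, dq (L l) (L' l) + ∑ l : T, finrank k ↥((L l).map (π l) ⊓ (L' l).map (π l)) =
      ∑ l : T, finrank k ((L l).map (π l)) := by
    rw [← Finset.sum_coe_sort T, ← Finset.sum_add_distrib]
    exact Finset.sum_congr rfl fun l _ => by
      rw [(g.ps l).dq_eq (b l l.2).2.1 (b' l l.2).1 (b' l l.2).2.1, dq_add]
  rw [i, fr_pi, fr_pi] at t
  rw [g.fs (fun l m => (b l m).1) fun l m => (b l m).2.1,
    g.fs (fun l m => (b' l m).1) fun l m => (b' l m).2.1]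
  rw [Nat.even_iff] at t ⊢
  omega

end Vale.Agent.P014Y.Mu
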