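import Vale.Agent.P014Y.Mu.Loc
import Vale.Agent.P014Y.Mu.Lin

/-! # P014Y, block MU: the rows QS, GWL, STEP (helper52) -/

set_option autoImplicit false
set_option linter.all false

noncomputable section

namespace Vale.Agent.P014Y.Mu

open NumberField Matrix Module
open Vale.Agent.P022 (Qb GQ)
open Vale.Agent.P022D.W (dec)
open Vale.Agent.P022E.GW (Ov)
open Vale.Agent.P022K Vale.Agent.P022K.G2 Vale.Agent.P014U Vale.Agent.P014U.L2
open X4S (Pl)
open Lo Li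

variable [Pp] {l : ℕ} {P : Ideal (𝓞 Qb)} {a : GQ →* M2} {x : X} {S T Q : Finset ℕ}
  {f : (GQ → GQ → F) →ₗ[F] F} {pl : Pl}

namespace Gw

theorem in_mono (h : S ⊆ T) : In (T : Set ℕ) ⊆ In (S : Set ℕ) :=
  fun _ ⟨l, x, y⟩ => ⟨l, fun m => x (h m), y⟩

theorem rs_mono (r : Rs a S) (h : S ⊆ T) (pr : ∀ l ∈ T, l.Prime) : Rs a T :=
  ⟨r.toR0, h r.pm, pr, fun g m => r.unr g (in_mono h m)⟩

theorem rs_up (r : Rs a S) (u : ∀ q ∈ Q, Up a pl S q) : Rs a (S ∪ Q) :=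
  rs_mono r Finset.subset_union_left fun l m =>
    (Finset.mem_union.1 m).elim (r.pr l) fun m => (u l m).pr

theorem zg_mono (h : S ⊆ T) : Zg a S ≤ Zg a T := fun _ m => Z1.mono m (in_mono h)

theorem b_zg (r : Rs a T) : Bl a ⊤ ≤ Zg a T := fun x hx =>
  ⟨(b_le r.toR0 hx).1, fun _ m => (m trivial).elim, a.ker, lv_of' inferInstance r.opn r.unr,
    fun w hw m => hx.elim fun v hv => by
      rw [hv w hw, d0_apply, rh_one.2 m, End.one_apply, sub_self]⟩

theorem ur_le : Ur a P ≤ Cl a (dec P) := inf_le_left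

theorem rq_le {σ : GQ} : Rq a P σ ≤ Cl a (dec P) := inf_le_left

/-- the unramified classes are Lagrangian away from `pp` -/
theorem ur_lag (dim : DIM) (url : URL) (r : R0 a) (o : Ov l P) (hl : l ≠ pp) :
    Ot a (dec P) (Ur a P) = Ur a P := by
  have i : Iv1 P (Iz.iz P) := ⟨fun _ => Iz.iz_b2 o, fun _ h => (Iz.iz_iff o h).1⟩
  obtain ⟨q, e⟩ := locq a l P _ r o i
  obtain ⟨u1, u2, u3⟩ := url a l P r o
  rw [← e _ ur_le] at u2 ⊢
  exact (laga _ _ _ _ _ _ q u1 inf_le_left).2.2.2 u2 (by rw [dim a l P r o, if_neg hl, u3]; rfl)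

theorem lc_lag (dim : DIM) (url : URL) (trl : TRL) (r : Rs a S) (u : ∀ q ∈ Q, Up a pl S q)
    (hp : l.Prime) (hl : l ≠ pp) : Ot a (dec (pl.P l)) (Lc a pl Q l) = Lc a pl Q l ∧
      Bl a (dec (pl.P l)) ≤ Lc a pl Q l := by
  unfold Lc
  split_ifs with m
  · exact ⟨(trl a pl S l r (u l m)).2.2.1, (trl a pl S l r (u l m)).2.1⟩
  · exact ⟨ur_lag dim url r.toR0 (pl.ov l hp) hl, (url a l _ r.toR0 (pl.ov l hp)).1⟩

theorem lc_le (l : ℕ) : Lc a pl Q l ≤ Cl a (dec (pl.P l)) := by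
  unfold Lc
  split_ifs <;> exact inf_le_left

end Gw

open Gw

/-- **QS** -/
theorem qs (dim : DIM) (url : URL) (unq : UNQ) (big : BIG) : QS := fun a pl T f r i => by
  obtain ⟨T', tt, r', b⟩ := big a pl T r
  have o := fun l m => pl.ov l (r'.pr l m)
  rw [← unq a pl T T' r tt r'.pr]
  refine reda _ _ T T' _ _ _ _ _ ((cnta _ _ _ _ _ _ _ (recq a pl T' f r' i)).2 ?_) tt fun l m => ?_
  · rw [Finset.sum_congr rfl fun l m => dim a l _ r.toR0 (o l m), Finset.sum_add_distrib,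
      ← Finset.mul_sum, Finset.sum_ite_eq', if_pos r'.pm]
    omega
  · obtain ⟨m, n⟩ := Finset.mem_sdiff.1 m
    rw [(locq a l _ _ r.toR0 (o l m) (i.loc l (r'.pr l m))).2 _ ur_le]
    exact ur_lag dim url r.toR0 (o l m) fun e => n (e ▸ r.pm)

/-- **GWL** -/
theorem gwl (dim : DIM) (url : URL) (trl : TRL) (qs : QS) : GWL := fun a pl S Q r u => by
  obtain ⟨f, i⟩ := inv pl
  have r' := rs_up r u
  have lq := fun l m => locq a l _ _ r.toR0 (pl.ov l (r'.pr l m)) (i.loc l (r'.pr l m))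
  have o := pl.ov pp (r.pr _ r.pm)
  obtain ⟨u1, u2, u3⟩ := url a pp _ r.toR0 o
  obtain ⟨q, e⟩ := lq pp r'.pm
  have ll := fun l (m : l ∈ (S ∪ Q).erase pp) => lc_lag dim url trl r u
    (r'.pr l (Finset.mem_of_mem_erase m)) (Finset.ne_of_mem_erase m)
  obtain ⟨g1, g2⟩ := gwa _ _ _ _ _ (Lc a pl Q) _ _ (Ur a (pl.P pp)) pp (qs a pl _ f r' i) r'.pm
    (fun l m => by rw [(lq l (Finset.mem_of_mem_erase m)).2 _ (lc_le l), (ll l m).1]) u1
    (by rwa [e _ ur_le])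
  obtain ⟨-, l2, l3, -⟩ := laga _ _ _ _ _ _ q u1 (inf_le_left : Ur a (pl.P pp) ≤ _)
  have l4 := (l3 _ (u2.trans (e _ ur_le).ge) ot_le).1
  rw [dim a pp _ r.toR0 o, if_pos rfl] at l2
  rw [e _ (sup_le ur_le (inf_le_right.trans ot_le)), e _ ur_le] at g1
  have := zg_fin r'
  refine ⟨Submodule.finiteDimensional_of_le (inf_le_left.trans inf_le_left), fun x hx =>
    ⟨mem_sl.2 ⟨b_zg r' hx, fun l m => (ll l m).2 (B1.mono hx le_top)⟩, u1 (B1.mono hx le_top)⟩,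
    inf_le_inf_left _ u2, ?_, g1⟩
  rw [show dq (ot _ (bt a (f pp)) (Ur a (pl.P pp))) (Ur a (pl.P pp)) = 2 by omega,
    e _ ur_le] at g2
  unfold Rl St Sb
  omega

/-- **STEP** -/
theorem step (dim : DIM) (url : URL) (trl : TRL) (unq : UNQ) : STEP := by
  intro a pl S Q q r u uq nq z ⟨hz, zp⟩ nz x ⟨hx, xp⟩
  obtain ⟨f, i⟩ := inv pl
  have u' : ∀ x ∈ insert q Q, Up a pl S x := Finset.forall_mem_insert _ _ _ |>.2 ⟨uq, u⟩
  have r' := rs_up r u'
  have sub : S ∪ Q ⊆ S ∪ insert q Q := Finset.union_subset_union_right (Finset.subset_insert _ _)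
  have mq : q ∈ S ∪ insert q Q := by simp
  have qp : q ≠ pp := fun e => uq.out (e ▸ r.pm)
  obtain ⟨z1, z2⟩ := mem_sl.1 hz
  obtain ⟨x1, x2⟩ := mem_sl.1 hx
  have lc : ∀ l ≠ q, Lc a pl (insert q Q) l = Lc a pl Q l := fun l n => by simp [Lc, n]
  have xq : x ∈ Rq a (pl.P q) (pl.σ q) := by
    simpa [Lc] using x2 q (Finset.mem_erase.2 ⟨qp, mq⟩)
  have zc : ∀ l, z ∈ Cl a (dec (pl.P l)) := fun l => of_z1 z1 le_top
  have k := (recq a pl _ f r' i).iso x x1 z (zg_mono sub z1)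
  rw [Finset.sum_eq_single_of_mem q mq fun l m n => by
    refine (bt_iff r.toR0 (i.loc l (r'.pr l m)) (of_z1 x1 le_top) (zc l)).2 ?_
    by_cases e : l = pp
    · exact e ▸ zp.2 x xp
    have := z2 l (Finset.mem_erase.2 ⟨e, by simpa [n] using m⟩)
    rw [← (lc_lag dim url trl r u (r'.pr l m) e).1] at this
    exact this.2 x (lc l n ▸ x2 l (Finset.mem_erase.2 ⟨e, m⟩))] at k
  have o := pl.ov q uq.pr
  obtain ⟨lq, e⟩ := locq a q _ _ r.toR0 o (i.loc q uq.pr)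
  obtain ⟨t1, t2, t3, -⟩ := trl a pl S q r uq
  have xb : x ∈ Bl a (dec (pl.P q)) := by_contra fun n => nz <| by
    have le : Bl a (dec (pl.P q)) ⊔ Submodule.span F {x} ≤ Rq a (pl.P q) (pl.σ q) :=
      sup_le t2 ((Submodule.span_singleton_le_iff_mem _ _).2 xq)
    have l1 := (laga _ _ _ _ _ _ lq t2 inf_le_left).2.1
    rw [e _ rq_le, t3, dim a q _ r.toR0 o, t1, if_neg qp] at l1
    obtain ⟨l2, l3⟩ := (laga _ _ _ _ _ _ lq le_sup_left (le.trans inf_le_left)).2.2.1 _ le inf_le_left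
    have l4 := ((laga _ _ _ _ _ _ lq le_rfl (b_le r.toR0)).2.2.1 _ le_sup_left
      (le.trans inf_le_left)).2.mt fun h => n (h ▸ Submodule.mem_sup_right
        (Submodule.mem_span_singleton_self x))
    refine (t3.le ⟨zc q, fun y hy => ?_⟩).2
    rw [l3 (by omega)] at hy
    obtain ⟨b, hb, w, hw, rfl⟩ := Submodule.mem_sup.1 hy
    obtain ⟨c, rfl⟩ := Submodule.mem_span_singleton.1 hw
    refine (bt_iff r.toR0 (i.loc q uq.pr) (add_mem (b_le r.toR0 hb)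
      (Submodule.smul_mem _ c xq.1)) (zc q)).1 ?_
    rw [map_add, map_smul, LinearMap.add_apply, LinearMap.smul_apply, k, smul_zero, add_zero]
    exact (bt_iff r.toR0 (i.loc q uq.pr) (b_le r.toR0 hb) (zc q)).2 (b_cu hb (zc q))
  refine ⟨⟨mem_sl.2 ⟨?_, fun l m => ?_⟩, xp⟩, xq.2⟩
  · rw [← unq a pl _ _ (rs_up r u) sub r'.pr]
    refine mem_sl.2 ⟨x1, fun l m => ?_⟩
    obtain rfl : l = q := by
      simp only [Finset.mem_sdiff, Finset.mem_union, Finset.mem_insert] at m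
      tauto
    exact (url a l _ r.toR0 o).1 xb
  · rw [← lc l fun e => by
      simp only [e, Finset.mem_erase, Finset.mem_union, uq.out, nq, or_self, and_false] at m]
    exact x2 l (Finset.erase_subset_erase _ sub m)

end Vale.Agent.P014Y.Mu
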