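import Vale.Agent.P014Y.Mu.Lv1
import Vale.Agent.P014Y.Mu.Gwl

/-! # P014Y, block MU, row LEV: from the residual groups to all levels (helper24) -/

set_option autoImplicit false
set_option linter.all false

noncomputable section

namespace Vale.Agent.P014Y.Mu

open NumberField Matrix
open Vale.Agent.P022 (Qb GQ)
open Vale.Agent.P027M.S (Inert)
open Vale.Agent.P022D.W (dec inP_le_dec phi_mem exists_phi)
open Vale.Agent.P022E.GW (Ov Fb)
open Vale.Agent.P022K.G2 (In om oz)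
open Vale.Agent.P014U
open L2 (W M2 dt)

variable [Pp] {a : GQ →* M2} {Γ : Subgroup GQ} {S : Finset ℕ} {N c q : ℕ} {χ : GQ → ℕ}
  {P : Ideal (𝓞 Qb)} {x y z : X}

theorem Ly.md (h : Ly Γ S N c χ) (n : 0 < N) (p : q.Prime) (d : q ∣ c) : q % pp = 1 :=
  Eq.trans ((h.out q p d).2.2.of_dvd (dvd_pow_self pp n.ne')) (Nat.mod_eq_of_lt one_lt)

theorem Ly.tau (h : Ly Γ S N c χ) (n : 0 < N) (o : Ov q P) (d : q ∣ c) :
    ∃ t, Inert P t ∧ (χ t : F) = 1 :=
  (h.ram q P o d).imp fun t e => ⟨e.1, ((ZMod.natCast_eq_natCast_iff _ _ _).2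
    (e.2.of_dvd (dvd_pow_self pp n.ne'))).trans Nat.cast_one⟩

/-- at the places above `S` -/
theorem Ly.ot (h : Ly Γ S N c χ) (n : 0 < N) (r : R0 a) (L : Lv.L3 a (fun g => χ g) Γ x y z)
    (o : Ov q P) (m : q ∈ S) : x ∈ Ot a (dec P) (Ur a P) :=
  let ⟨φ, f⟩ := exists_phi o.1 o.2.1 o.2.2
  let ⟨le, e⟩ := h.fro q m P o
  (L.mono le).ot r.opn o f (fun i b => (ZMod.natCast_eq_zero_iff _ _).2 ((dvd_pow_self pp n.ne').trans
    (h.unr q P o (fun d => (h.out q o.1 d).1 m) i (le (inP_le_dec b)) b)))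
    (mt (ZMod.natCast_eq_zero_iff _ _).1 (e φ f))

theorem nf_tz (r : R0 a) (t : Tz a q) (o : Ov q P) (md : q % pp = 1) : Nf a (dec P) := fun v h => by
  obtain ⟨φ, f⟩ := exists_phi o.1 o.2.1 o.2.2
  have s := phi_mem o.1 o.2.1 f
  have e := Lv.ch2 (a φ) v
  have d : (a φ).det = 1 := (congrFun r.det φ).trans (by
    rw [om, ZMod.castHom_self, RingHom.id_apply, (Lv.dec_gz o md).2.2 φ s])
  rw [h φ s, h φ s, t P φ o f, d, zero_smul, one_smul, zero_sub, eq_neg_iff_add_eq_zero,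
    ← two_smul F] at e
  exact (smul_eq_zero.1 e).resolve_left two_ne

/-- the frame of the induction -/
theorem Ly.lev (h : Ly Γ S N c χ) (n : 0 < N) (r : Rs a S) (o : Ov pp P)
    (H : ∀ x y z, Lv.L3 a (fun g => χ g) Γ x y z →
      (∀ g ∈ Γ, g ∈ In ((S ∪ c.primeFactors : Finset ℕ) : Set ℕ) → x g = 0) →
      x ∈ Ur a P → x ∈ Bl a Γ) {J : ℕ} (hJ : J ≤ pp ^ N) :
    ∀ x ∈ Zx a Γ (S ∪ c.primeFactors) J χ P, ∀ g, tb J ^ 4 • x g = 0 :=
  let ⟨φ, f⟩ := exists_phi o.1 o.2.1 o.2.2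
  let ⟨le, e⟩ := h.fro pp r.pm P o
  fun _ hx => Lev.core (fun x y z L u b => H x y z L u ⟨(L.mono le).cl, b⟩) r.opn
    (fun g m => r.unr g (Ds.in_mono Finset.subset_union_left m)) n hJ h.add h.opn
    (fun g m ⟨l, k, Q, p, i⟩ => h.unr l Q p (fun d => k (by simp [p.1, d, h.c0])) g m i) le
    (fun g i => h.unr pp P o (fun d => (h.out pp pp_prime d).1 r.pm) g (le (inP_le_dec i)) i)
    (phi_mem o.1 o.2.1 f) (e φ f) hx

/-- **row LEV** -/
theorem lev (dim : DIM) (url : URL) : LEV := fun a S d Γ r _ _ =>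
  ⟨4, fun N c χ Q P n h o qc tz kk J hJ => h.lev n r o (fun x y z L u b => by
    have un : ∀ {q P}, Ov q P → q ∣ c → ∀ i, Inert P i → a i = 1 := fun o d i b =>
      r.unr i ⟨_, (h.out _ o.1 d).1, _, o, b⟩
    refine kk x L.cl (fun g m ⟨l, k, P, o, i⟩ => ?_)
      (fun l m ne P o => Gw.ur_lag dim url r.toR0 o ne ▸ h.ot n r.toR0 L o m) (fun q m P o => ?_) b
      fun P o => h.ot n r.toR0 L o r.pm
    · by_cases d : l ∣ c
      · exact Lv.un_nf (L.mono ((h.out l o.1 d).2.1 P o)).cl o (h.md n o.1 d) (un o d)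
          (nf_tz r.toR0 ((tz l o.1 d).resolve_left fun e => k (by simp [e])) o (h.md n o.1 d)) i
      · exact u g m ⟨l, fun e => (Finset.mem_union.1 e).elim (fun e => k (by simp [e]))
          fun e => d (Nat.dvd_of_mem_primeFactors e), P, o, i⟩
    · have d := (qc q m).2
      obtain ⟨t, i, e⟩ := h.tau n o d
      exact (L.mono ((h.out q o.1 d).2.1 P o)).vs o (h.md n o.1 d) (un o d) i
        (e.trans_ne one_ne_zero)) hJ⟩

end Vale.Agent.P014Y.Mu
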