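import Vale.Agent.P014Y.Mu.St0
import Vale.Agent.P014U.G2.Lib
import Vale.Agent.P004S.Bas3

/-! # P014Y, block MU: unramified classes (rows URL, UNQ) -/

set_option autoImplicit false
set_option linter.all false

noncomputable section

namespace Vale.Agent.P014Y.Mu

open NumberField Matrix Module
open scoped Classical
open Vale.Agent.P022 (Qb GQ)
open Vale.Agent.P022.H443 (inP)
open Vale.Agent.P027M.S (Inert)
open Vale.Agent.P022D.W (dec inP_le_dec conj_inP phi_mem exists_phi dec_gen)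
open Vale.Agent.P022E.GW (Ov Fb)
open Vale.Agent.P022K.G2 (In Lv Z1 B1 Z2 B2 H0 ch om d0 d1_apply ch_apply lv_of lv_of' ex_lv')
open Vale.Agent.P014U
open L2 (W M2 rh dt cu BB am a1 aw)
open X4S (Pl)
open P004S (wp wp_add_left wp_add_right wp_sub_left wp_sub_right)

variable [Pp]

namespace Ul

variable {a : GQ →* M2} {D D' : Subgroup GQ} {x y z : X} {l : ℕ} {P : Ideal (𝓞 Qb)} {φ g : GQ}

theorem mem_bl : z ∈ Bl a D ↔ ∃ v, ∀ g ∈ D, z g = a g *ᵥ v - v := Iff.rfl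

theorem d0_ap (v : W) (g : GQ) : d0 (rh a) v g = a g *ᵥ v - v := rfl

theorem d0_bl (D : Subgroup GQ) (v : W) : d0 (rh a) v ∈ Bl a D := ⟨v, fun _ _ => rfl⟩

theorem bl_of (h : ∀ g ∈ D, z g = 0) : z ∈ Bl a D := ⟨0, fun g m => by rw [h g m, map_zero]; rfl⟩

theorem bl_mono (le : D' ≤ D) : Bl a D ≤ Bl a D' := fun _ ⟨v, h⟩ => ⟨v, fun g m => h g (le m)⟩

theorem cl_mono (le : D' ≤ D) : Cl a D ≤ Cl a D' := fun _ ⟨h, U, o, e⟩ =>
  ⟨fun g m j n => h g (le m) j (le n), U, o, fun w m => e w (le m)⟩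

theorem cl_one (h : z ∈ Cl a D) : z 1 = 0 := by
  simpa using h.1 1 (one_mem _) 1 (one_mem _)

theorem cl_pow (h : z ∈ Cl a D) (m : g ∈ D) (e : z g = 0) (k : ℕ) : z (g ^ k) = 0 := by
  induction k with
  | zero => rw [pow_zero, cl_one h]
  | succ k ih => rw [pow_succ, h.1 _ (pow_mem m k) _ m, ih, e, mulVec_zero, add_zero]

theorem cl_conj (h : z ∈ Cl a D) (m : g ∈ D) {s : GQ} (n : s ∈ D) (e : a s = 1) :
    z (g * s * g⁻¹) = a g *ᵥ z s := by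
  have k := h.1 g m _ (inv_mem m)
  rw [mul_inv_cancel, cl_one h] at k
  rw [h.1 _ (mul_mem m n) _ (inv_mem m), h.1 g m s n, map_mul, e, mul_one, add_right_comm, ← k,
    zero_add]

theorem lv_ker (r : R0 a) : Lv ∅ a.ker := lv_of inferInstance r.opn

theorem bl_le (r : R0 a) (D : Subgroup GQ) : Bl a D ≤ Cl a D := fun z ⟨v, h⟩ =>
  ⟨fun g m j n => by
    rw [h _ (mul_mem m n), h g m, h j n, d0_ap, d0_ap, d0_ap, mulVec_sub, am]; abel,
  a.ker, lv_ker r, fun w m n => by rw [h w m, d0_ap, show a w = 1 from n, one_mulVec, sub_self]⟩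

theorem cl_lv (r : R0 a) (h : z ∈ Cl a D) : ∃ U, Lv ∅ U ∧ (∀ w ∈ U, a w = 1) ∧
    ∀ g ∈ D, ∀ w ∈ D, w ∈ U → z (g * w) = z g := by
  obtain ⟨h, U, o, e⟩ := h
  exact ⟨U ⊓ a.ker, o.inf (lv_ker r), fun w m => m.2, fun g m w n k => by
    rw [h g m w n, e w n k.1, mulVec_zero, add_zero]⟩

theorem cu_z2 (r : R0 a) (hx : x ∈ Cl a D) (hy : y ∈ Cl a D) :
    cu a x y ∈ Z2 ∅ D (ch (dt a)) := by
  obtain ⟨U, l1, u1, w1⟩ := cl_lv r hx
  obtain ⟨V, l2, -, w2⟩ := cl_lv r hy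
  refine ⟨fun g hg h hh j hj => ?_, U ⊓ V, l1.inf l2, fun g hg h hh w hw m => ?_⟩
  · simp only [cu, ch_apply, hx.1 g hg h hh, hy.1 h hh j hj, am g h, mulVec_add, wp_add_left,
      wp_add_right, aw g]
    ring
  · simp only [cu, w1 g hg w hw m.1, w2 h hh w hw m.2, map_mul, u1 w m.1, mul_one, and_true]

theorem cu_left (r : R0 a) (hx : x ∈ Bl a D) (hy : y ∈ Cl a D) : cu a x y ∈ BB a D := by
  obtain ⟨v, hv⟩ := hx
  obtain ⟨V, l2, -, w2⟩ := cl_lv r hy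
  refine ⟨fun g => wp v (y g), ⟨V, l2, fun g hg w hw m => by simp only [w2 g hg w hw m]⟩,
    fun g hg h hh => ?_⟩
  simp only [cu, d1_apply, ch_apply, hv g hg, d0_ap, hy.1 g hg h hh, wp_add_right, wp_sub_left, aw g]
  ring

theorem cu_right (r : R0 a) (hx : x ∈ Cl a D) (hy : y ∈ Bl a D) : cu a x y ∈ BB a D := by
  obtain ⟨v, hv⟩ := hy
  obtain ⟨V, l2, u, w2⟩ := cl_lv r hx
  refine ⟨fun g => -wp (x g) (a g *ᵥ v), ⟨V, l2, fun g hg w hw m => by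
    simp only [w2 g hg w hw m, map_mul, u w m, mul_one]⟩, fun g hg h hh => ?_⟩
  simp only [cu, d1_apply, ch_apply, hv h hh, d0_ap, hx.1 g hg h hh, wp_add_left, wp_sub_right,
    mulVec_sub, am g h, aw g]
  ring

/-- the cup product depends on the classes only -/
theorem cu_of (r : R0 a) {x' y' : X} (hx : x' ∈ Cl a D) (hy : y ∈ Cl a D) (ex : x - x' ∈ Bl a D)
    (ey : y - y' ∈ Bl a D) (h : cu a x' y' ∈ BB a D) : cu a x y ∈ BB a D := by
  have e : cu a x y = cu a (x - x') y + cu a x' (y - y') + cu a x' y' := by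
    funext g j
    simp only [cu, Pi.add_apply, Pi.sub_apply, mulVec_sub, wp_sub_left, wp_sub_right]
    ring
  rw [e]
  exact add_mem (add_mem (cu_left r ex hy) (cu_right r hx ey)) h

/-- the values of a cocycle which vanishes on inertia are fixed by inertia -/
theorem fix_in (h : z ∈ Cl a (dec P)) (e : ∀ s ∈ inP P, z s = 0) (m : g ∈ dec P) {s : GQ}
    (n : s ∈ inP P) : a s *ᵥ z g = z g := by
  have k := conj_inP (inv_mem m) n
  have e1 := h.1 s (inP_le_dec n) g m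
  have e2 := h.1 g m _ (inP_le_dec k)
  rw [e _ k, mulVec_zero, add_zero, show g * (g⁻¹ * s * g⁻¹⁻¹) = s * g by group, e1, e s n,
    zero_add] at e2
  exact e2

theorem ur_ex (r : R0 a) (h : x ∈ Ur a P) : ∃ x' ∈ Cl a (dec P), x - x' ∈ Bl a (dec P) ∧
    ∀ s ∈ inP P, x' s = 0 := by
  obtain ⟨h, v, hv⟩ := h
  exact ⟨x - d0 (rh a) v, sub_mem h (bl_le r _ (d0_bl _ v)), by
    rw [sub_sub_cancel]; exact d0_bl _ v, fun s m => sub_eq_zero.2 (hv s m)⟩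

theorem ur_iso (r : R0 a) (o : Ov l P) (hx : x ∈ Ur a P) (hy : y ∈ Ur a P) :
    cu a x y ∈ BB a (dec P) := by
  obtain ⟨x', a1, a2, a3⟩ := ur_ex r hx
  obtain ⟨y', b1, b2, b3⟩ := ur_ex r hy
  refine cu_of r a1 hy.1 a2 b2 ?_
  have z2 := cu_z2 r a1 b1
  have := G2.unt_two F ⊤ l P (cu a x' y') isOpen_univ o
  rw [top_inf_eq, ← r.det] at this
  refine this z2 fun g hg h hh i _ hi => ?_
  simp only [cu, a1.1 g hg i (inP_le_dec hi), b1.1 h hh i (inP_le_dec hi), a3 i hi, b3 i hi,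
    mulVec_zero, add_zero, am g i, fix_in b1 b3 hh hi, and_self]

/-- a cocycle is determined by its values on inertia and at a Frobenius element -/
theorem van (o : Ov l P) (f : Fb l P φ) (h : z ∈ Cl a (dec P)) (e : ∀ s ∈ inP P, z s = 0)
    (e' : z φ = 0) : ∀ g ∈ dec P, z g = 0 := fun g m => by
  obtain ⟨U, lv, w⟩ := h.2
  obtain ⟨k, s, u, hs, hu, rfl⟩ := dec_gen o.1 o.2.1 o.2.2 f m U lv.opn
  have m1 := pow_mem (phi_mem o.1 o.2.1 f) k
  have m2 := inP_le_dec hs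
  have m3 : u ∈ dec P := by simpa using mul_mem (mul_mem m (inv_mem m2)) (inv_mem m1)
  rw [h.1 _ (mul_mem m3 m1) s m2, h.1 u m3 _ m1, e s hs, w u m3 hu,
    cl_pow h (phi_mem o.1 o.2.1 f) e']
  simp

theorem fix_dec (r : R0 a) (o : Ov l P) (f : Fb l P φ) {v : W} (e : ∀ s ∈ inP P, a s *ᵥ v = v)
    (e' : a φ *ᵥ v = v) : ∀ g ∈ dec P, a g *ᵥ v = v := fun g m => sub_eq_zero.1
  (van o f (bl_le r _ (d0_bl _ v)) (fun s n => sub_eq_zero.2 (e s n)) (sub_eq_zero.2 e') g m)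

theorem fix_ac {v : W} (e : ∀ s ∈ inP P, a s *ᵥ v = v) (m : g ∈ dec P) :
    ∀ s ∈ inP P, a s *ᵥ (a g *ᵥ v) = a g *ᵥ v := fun s n => by
  rw [← am, show s * g = g * (g⁻¹ * s * g⁻¹⁻¹) by group, am, e _ (conj_inP (inv_mem m) n)]

/-- **unramified cocycles with a given value at a Frobenius element** -/
theorem ex_th (r : R0 a) (o : Ov l P) (f : Fb l P φ) : ∃ Θ : W →ₗ[F] X, ∀ v,
    (∀ s ∈ inP P, a s *ᵥ v = v) → Θ v ∈ Cl a (dec P) ∧ (∀ s ∈ inP P, Θ v s = 0) ∧ Θ v φ = v := by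
  obtain ⟨n, n0, hn⟩ := P022E.GW.Unr.ex_pow r.opn φ
  have M1 : 1 < n * pp := one_lt.trans_le (Nat.le_mul_of_pos_left _ (Nat.pos_of_ne_zero n0))
  have := Fact.mk M1
  obtain ⟨δ, V, hV, h1, h2, h3, h4⟩ := P022E.GW.Unr.deg o.1 o.2.1 o.2.2 f (N := n * pp) (by omega)
  have mφ := phi_mem o.1 o.2.1 f
  let T : ℕ → M2 := fun k => ∑ i ∈ Finset.range k, a (φ ^ i)
  have t1 : ∀ j k, T (j + k) = T j + a (φ ^ j) * T k := fun j k => by
    simp only [T, Finset.sum_range_add, pow_add, map_mul, Finset.mul_sum]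
  have t2 : ∀ m, T (n * m) = m • T n := fun m => by
    induction m with
    | zero => simp [T]
    | succ m ih => rw [mul_add, mul_one, t1, ih, pow_mul, show a ((φ ^ n) ^ m) = 1 from pow_mem hn m,
        one_mul, succ_nsmul]
  have t3 : ∀ k, T (k % (n * pp)) = T k := fun k => by
    conv_rhs => rw [← Nat.div_add_mod k (n * pp), t1, mul_assoc, t2, pow_mul,
      show a ((φ ^ n) ^ _) = 1 from pow_mem hn _, one_mul, mul_nsmul, ← Nat.cast_smul_eq_nsmul F pp,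
      ZMod.natCast_self, zero_smul, smul_zero, zero_add]
  obtain ⟨U, lv, le⟩ := ex_lv' hV
  refine ⟨LinearMap.pi fun g => (T (δ g).val).mulVecLin, fun v hv => ⟨⟨fun g m h k => ?_, U, lv,
    fun w m k => ?_⟩, fun s m => ?_, ?_⟩⟩
  · have mk := pow_mem mφ (δ g).val
    obtain ⟨u, hu, s, hs, e⟩ := P022E.GW.Unr.split o.1 o.2.1 o.2.2 f (dvd_mul_right n pp) hV r.opn
      h1 h2 h3 h4 hn (mul_mem (inv_mem mk) m) (j := 0) (by
        have := h1 _ mk _ (mul_mem (inv_mem mk) m)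
        rw [mul_inv_cancel_left, P022E.GW.Unr.dpow o.1 o.2.1 f h1 h2 h3, ZMod.natCast_zmod_val]
          at this
        simpa using this)
    have fx : a s *ᵥ (T (δ h).val *ᵥ v) = T (δ h).val *ᵥ v := by
      simp only [T, sum_mulVec, mulVec_sum]
      exact Finset.sum_congr rfl fun i _ => fix_ac hv (pow_mem mφ i) s hs
    show T (δ (g * h)).val *ᵥ v = T (δ g).val *ᵥ v + a g *ᵥ (T (δ h).val *ᵥ v)
    rw [h1 g m h k, ZMod.val_add, t3, t1, add_mulVec, ← mulVec_mulVec,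
      congrArg a (inv_mul_eq_iff_eq_mul.1 e), am, am, fx, show a u = 1 from hu, one_mulVec]
  · show T (δ w).val *ᵥ v = 0
    rw [h4 w (le k) m]; simp [T]
  · show T (δ s).val *ᵥ v = 0
    rw [h3 s m]; simp [T]
  · show T (δ φ).val *ᵥ v = v
    rw [h2, ZMod.val_one]; simp [T]

theorem mem_h0 {v : W} : v ∈ H0 D (rh a) (fun _ => 1) ↔ ∀ g ∈ D, a g *ᵥ v = v :=
  forall₂_congr fun g _ => by rw [one_smul]; rfl

theorem bl_ur (r : R0 a) (P : Ideal (𝓞 Qb)) : Bl a (dec P) ≤ Ur a P :=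
  le_inf (bl_le r _) (bl_mono inP_le_dec)

theorem dq_ur (r : R0 a) (o : Ov l P) : dq (Ur a P) (Bl a (dec P)) = hz a (dec P) := by
  obtain ⟨φ, f⟩ := exists_phi o.1 o.2.1 o.2.2
  have mφ := phi_mem o.1 o.2.1 f
  obtain ⟨Θ, hΘ⟩ := ex_th r o f
  let V := H0 (inP P) (rh a) fun _ => 1
  let N : V →ₗ[F] V := (a φ - 1).mulVecLin.restrict fun v m => by
    rw [mulVecLin_apply, sub_mulVec, one_mulVec]
    exact sub_mem (mem_h0.2 (fix_ac (mem_h0.1 m) mφ)) m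
  have hN : ∀ v : V, (N v : W) = a φ *ᵥ v - v := fun v => by
    show (a φ - 1) *ᵥ v.1 = _
    rw [sub_mulVec, one_mulVec]
  let ψ : V →ₗ[F] X ⧸ Bl a (dec P) := (Bl a (dec P)).mkQ ∘ₗ Θ ∘ₗ V.subtype
  have e1 : (Ur a P).map (Bl a (dec P)).mkQ = LinearMap.range ψ := by
    refine le_antisymm ?_ ?_
    · rintro _ ⟨x, hx, rfl⟩
      obtain ⟨x', a1, a2, a3⟩ := ur_ex r hx
      have m : ∀ s ∈ inP P, a s *ᵥ x' φ = x' φ := fun s => fix_in a1 a3 mφ
      obtain ⟨b1, b2, b3⟩ := hΘ _ m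
      refine ⟨⟨_, mem_h0.2 m⟩, ((Submodule.Quotient.eq _).2 ?_).symm⟩
      rw [← sub_add_sub_cancel x x']
      exact add_mem a2 (bl_of (van o f (sub_mem a1 b1)
        (fun s n => sub_eq_zero.2 ((a3 s n).trans (b2 s n).symm)) (sub_eq_zero.2 b3.symm)))
    · rintro _ ⟨v, rfl⟩
      obtain ⟨b1, b2, -⟩ := hΘ _ (mem_h0.1 v.2)
      exact ⟨Θ v, ⟨b1, bl_of b2⟩, rfl⟩
  have e2 : LinearMap.ker ψ = LinearMap.range N := Submodule.ext fun v => by
    obtain ⟨b1, b2, b3⟩ := hΘ _ (mem_h0.1 v.2)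
    refine (Submodule.Quotient.mk_eq_zero _).trans ⟨fun ⟨u, hu⟩ => ⟨⟨u, mem_h0.2 fun s n =>
      sub_eq_zero.1 ((hu s (inP_le_dec n)).symm.trans (b2 s n))⟩, Subtype.ext
        ((hN _).trans ((hu φ mφ).symm.trans b3))⟩, fun ⟨u, hu⟩ => ⟨u, fun g m => sub_eq_zero.1
      (van o f (sub_mem b1 (bl_le r _ (d0_bl _ u.1))) (fun s n => sub_eq_zero.2
        ((b2 s n).trans (sub_eq_zero.2 (mem_h0.1 u.2 s n)).symm))
        (sub_eq_zero.2 (b3.trans (hu ▸ hN u))) g m)⟩⟩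
  have e3 : (LinearMap.ker N).map V.subtype = H0 (dec P) (rh a) fun _ => 1 := by
    refine le_antisymm ?_ fun v m => ⟨⟨v, mem_h0.2 fun s n => mem_h0.1 m s (inP_le_dec n)⟩,
      Subtype.ext ((hN _).trans (sub_eq_zero.2 (mem_h0.1 m φ mφ))), rfl⟩
    rintro _ ⟨v, m, rfl⟩
    exact mem_h0.2 (fix_dec r o f (mem_h0.1 v.2)
      (sub_eq_zero.1 ((hN v).symm.trans (congrArg Subtype.val m))))
  have c1 := ψ.finrank_range_add_finrank_ker
  have c2 := N.finrank_range_add_finrank_ker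
  rw [dq, hz, e1, ← e3, Submodule.finrank_map_subtype_eq]
  rw [e2] at c1
  omega

end Ul

open Ul

/-- **row URL** -/
theorem url : URL := fun a l P r o =>
  ⟨bl_ur r P, fun y hy => ⟨hy.1, fun x hx => ur_iso r o hx hy⟩, dq_ur r o⟩

theorem Rs.inert {a : GQ →* M2} {S : Finset ℕ} (r : Rs a S) {l : ℕ} {P : Ideal (𝓞 Qb)} (o : Ov l P)
    (h : l ∉ S) : ∀ s ∈ inP P, a s = 1 := fun s m => r.unr s ⟨l, h, P, o, m⟩

theorem zg_cl {a : GQ →* M2} {T : Finset ℕ} (D : Subgroup GQ) : Zg a T ≤ Cl a D :=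
  fun _ ⟨h, _, U, o, e⟩ => ⟨fun g _ j _ => h g trivial j trivial, U, o.mono (Set.empty_subset _),
    fun w _ => e w trivial⟩

/-- **row UNQ** -/
theorem unq : UNQ := by
  intro a pl S T r le pr
  refine le_antisymm (fun z hz => ?_) fun z hz => ⟨?_, ?_⟩
  · obtain ⟨hz, h⟩ := hz
    have c : z ∈ Cl a ⊤ := zg_cl ⊤ hz
    obtain ⟨h1, h2, U, lv, e⟩ := hz
    let Z : Subgroup GQ :=
      { carrier := {g | a g = 1 ∧ z g = 0}
        mul_mem' := fun {g j} m n => ⟨by rw [map_mul, m.1, n.1, mul_one], by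
          rw [c.1 g trivial j trivial, m.2, n.2, mulVec_zero, add_zero]⟩
        one_mem' := ⟨map_one a, cl_one c⟩
        inv_mem' := fun {g} m => ⟨a.ker.inv_mem m.1, by
          have := c.1 g trivial g⁻¹ trivial
          rw [mul_inv_cancel, cl_one c, m.1, m.2, one_mulVec, zero_add] at this
          exact this.symm⟩ }
    have nz : Z.Normal := ⟨fun s m g => ⟨(inferInstance : a.ker.Normal).conj_mem s m.1 g, by
      rw [cl_conj c trivial trivial m.1, m.2, mulVec_zero]⟩⟩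
    refine ⟨h1, h2, Z, lv_of' nz (Subgroup.isOpen_mono (H₁ := U ⊓ a.ker)
      (fun w m => ⟨m.2, e w trivial m.1⟩) (lv.opn.inter r.opn)) ?_, fun w _ m => m.2⟩
    rintro g ⟨l, n, Q, o, hg⟩
    by_cases m : l ∈ T
    · obtain ⟨t, ht, -⟩ := P004S.ex_conj (pl.ov l o.1) o
      obtain ⟨-, v, hv⟩ := (Submodule.mem_iInf _).1 ((Submodule.mem_iInf _).1 h l)
        (Finset.mem_sdiff.2 ⟨m, n⟩)
      have k := r.inert (pl.ov l o.1) n _ (ht g hg)
      have := nz.conj_mem _ ⟨k, by rw [hv _ (ht g hg), d0_ap, k, one_mulVec, sub_self]⟩ t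
      rwa [show t * (t⁻¹ * g * t) * t⁻¹ = g by group] at this
    · exact ⟨r.unr g ⟨l, n, Q, o, hg⟩, e g trivial (lv.sub ⟨l, m, Q, o, hg⟩)⟩
  · obtain ⟨h1, h2, U, lv, e⟩ := hz
    exact ⟨h1, h2, U, lv.mono fun g ⟨l, n, k⟩ => ⟨l, fun m => n (le m), k⟩, e⟩
  · refine (Submodule.mem_iInf _).2 fun l => (Submodule.mem_iInf _).2 fun m => ⟨zg_cl _ hz, ?_⟩
    obtain ⟨-, -, U, lv, e⟩ := hz
    obtain ⟨m, n⟩ := Finset.mem_sdiff.1 m
    exact bl_of fun s k => e s trivial (lv.sub ⟨l, n, _, pl.ov l (pr l m), k⟩)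

end Vale.Agent.P014Y.Mu
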