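import Vale.Agent.P014Y.Mu.St1
import Vale.Agent.P014Y.F.Pn.Pn
import Vale.Agent.P014Y.F.Cn.Cnt

/-! # P014Y, block MU: row CNT (helper15; port of P004C/Mu/Adp0) -/

set_option linter.all false

noncomputable section

namespace Vale.Agent.P014Y.Mu

open NumberField Matrix PowerSeries
open Vale.Agent.P022 (Qb GQ)
open Vale.Agent.P022D.W (dec)
open Vale.Agent.P022K.G2 (In)
open Vale.Agent.P014U
open P004F (M2 Cc)
open P004F.Pr (ac ac_add ac_smul ac_zero Zs)
open X4F (Rb)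
open P014Y.F (Crv Fld)

namespace Ap

variable [Pp]

abbrev L : Type := PowerSeries (ZMod pp)

variable (Γ : Subgroup GQ) (T : Finset ℕ) (a : GQ → M2 L) (P : Ideal (𝓞 Qb))

/-- the cocycles which vanish at `P` -/
def Zm (M : Type) [AddCommGroup M] [Module L M] : Submodule L (GQ → Fin 2 → M) where
  carrier := {x | Cc Γ T a x ∧ ∀ g ∈ dec P, x g = 0}
  add_mem' := by
    rintro x y ⟨⟨x1, x2, ⟨W, hW, x3⟩, x4⟩, x5⟩ ⟨⟨y1, y2, ⟨V, hV, y3⟩, y4⟩, y5⟩
    refine ⟨⟨fun g hg h hh => ?_, fun g hg => ?_, ⟨W ⊓ V, hW.inter hV, fun w m => ?_⟩,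
      fun g hg => ?_⟩, fun g hg => ?_⟩ <;> simp only [Pi.add_apply]
    · rw [x1 g hg h hh, y1 g hg h hh, ac_add]; abel
    · rw [x2 g hg, y2 g hg, add_zero]
    · rw [x3 w m.1, y3 w m.2, add_zero]
    · rw [x4 g hg, y4 g hg, add_zero]
    · rw [x5 g hg, y5 g hg, add_zero]
  zero_mem' := ⟨⟨fun _ _ _ _ => by simp [ac_zero], fun _ _ => rfl,
    ⟨⊤, isOpen_univ, fun _ _ => rfl⟩, fun _ _ => rfl⟩, fun _ _ => rfl⟩
  smul_mem' r x h := ⟨P004F.Ra.Cc.smul h.1 r, fun g m => by rw [Pi.smul_apply, h.2 g m, smul_zero]⟩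

variable {Γ T a P} {M M' : Type} [AddCommGroup M] [Module L M] [AddCommGroup M'] [Module L M']

theorem Zm.map (f : M →ₗ[L] M') {x : GQ → Fin 2 → M} (h : x ∈ Zm Γ T a P M) :
    (fun g => f ∘ x g) ∈ Zm Γ T a P M' :=
  ⟨P004F.Ra.Cc.map h.1 f, fun g m => funext fun i => by simp [h.2 g m]⟩

theorem Zm.comap {f : M →ₗ[L] M'} (hf : Function.Injective f) {x : GQ → Fin 2 → M}
    (h : (fun g => f ∘ x g) ∈ Zm Γ T a P M') : x ∈ Zm Γ T a P M := by
  have z : ∀ g, f ∘ x g = 0 → x g = 0 := fun g e => funext fun i =>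
    hf ((congrFun e i).trans (map_zero f).symm)
  refine ⟨⟨fun g m k n => funext fun i => hf ?_, fun g m => z g (h.1.out g m),
    h.1.lc.imp fun W k => ⟨k.1, fun w m => z w (k.2 w m)⟩, fun g m => z g (h.1.unr g m)⟩,
    fun g m => z g (h.2 g m)⟩
  have := congrFun (h.1.coc g m k n) i
  rw [P004F.Ra.ac_map] at this
  rw [Pi.add_apply, map_add]
  exact this

/-- multiplication by `T ^ k` -/
def up (i k : ℕ) : Rb i →ₗ[L] Rb (i + k) :=
  Submodule.mapQ _ _ (LinearMap.mulLeft L (PowerSeries.X ^ k)) fun p h => by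
    rw [Submodule.mem_comap, LinearMap.mulLeft_apply, Ideal.mem_span_singleton, pow_add, mul_comm]
    exact mul_dvd_mul_left _ (Ideal.mem_span_singleton.1 h)

theorem up_mk (i k : ℕ) (p : L) :
    up i k (Ideal.Quotient.mk _ p) = Ideal.Quotient.mk _ (PowerSeries.X ^ k * p) := rfl

theorem up_inj (i k : ℕ) : Function.Injective (up i k) := (injective_iff_map_eq_zero _).2 fun x h => by
  obtain ⟨p, rfl⟩ := Ideal.Quotient.mk_surjective x
  rw [up_mk, Ideal.Quotient.eq_zero_iff_mem, Ideal.mem_span_singleton, pow_add, mul_comm,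
    mul_dvd_mul_iff_left (pow_ne_zero k X_ne_zero)] at h
  exact Ideal.Quotient.eq_zero_iff_mem.2 (Ideal.mem_span_singleton.2 h)

theorem up_sur (i k : ℕ) {y : Rb (i + k)} (h : (PowerSeries.X : L) ^ i • y = 0) : ∃ x, up i k x = y := by
  obtain ⟨p, rfl⟩ := Ideal.Quotient.mk_surjective y
  have : (Ideal.Quotient.mk _ (PowerSeries.X ^ i * p) : Rb (i + k)) = 0 := h
  rw [Ideal.Quotient.eq_zero_iff_mem, Ideal.mem_span_singleton, pow_add,
    mul_dvd_mul_iff_left (pow_ne_zero i X_ne_zero)] at this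
  obtain ⟨q, rfl⟩ := this
  exact ⟨Ideal.Quotient.mk _ q, rfl⟩

theorem kill (i : ℕ) (y : Rb i) : (PowerSeries.X : L) ^ i • y = 0 := by
  obtain ⟨p, rfl⟩ := Ideal.Quotient.mk_surjective y
  exact Ideal.Quotient.eq_zero_iff_mem.2 (Ideal.mem_span_singleton.2 (dvd_mul_right _ _))

/-- the elements which are killed by `T ^ i` come from the level `i` -/
theorem emb (i J : ℕ) (N : Submodule L (Zm Γ T a P (Rb J)))
    (h : ∀ x ∈ N, (PowerSeries.X : L) ^ i • x = 0) : ∃ f : N → Zm Γ T a P (Rb i), Function.Injective f := by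
  rcases le_total i J with l | l <;> obtain ⟨k, rfl⟩ := Nat.exists_eq_add_of_le l
  · choose y hy using fun (x : N) g s => up_sur i k (y := x.1.1 g s)
      (congrFun₂ (congrArg Subtype.val (h x.1 x.2)) g s)
    have e : ∀ x : N, (fun g => up i k ∘ y x g) = x.1.1 := fun x => funext₂ (hy x)
    exact ⟨fun x => ⟨y x, Zm.comap (up_inj i k) (e x ▸ x.1.2)⟩, fun x x' c =>
      Subtype.ext (Subtype.ext (by rw [← e, ← e, show y x = y x' from congrArg Subtype.val c]))⟩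
  · exact ⟨fun x => ⟨_, Zm.map (up J k) x.1.2⟩, fun x x' c => Subtype.ext (Subtype.ext
      (funext₂ fun g s => up_inj J k (congrFun₂ (congrArg Subtype.val c) g s)))⟩

theorem le_of (i J : ℕ) [Finite (Zm Γ T a P (Rb i))]
    (h : ∀ x ∈ Zm Γ T a P (Rb J), (PowerSeries.X : L) ^ i • x = 0) :
    Finite (Zm Γ T a P (Rb J)) ∧ Nat.card (Zm Γ T a P (Rb J)) ≤ Nat.card (Zm Γ T a P (Rb i)) := by
  obtain ⟨f, hf⟩ := emb (Γ := Γ) (T := T) (a := a) (P := P) i J ⊤
    fun x _ => Subtype.ext (h x.1 x.2)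
  have k := hf.comp Submodule.topEquiv.symm.injective
  exact ⟨.of_injective _ k, Nat.card_le_card_of_injective _ k⟩

theorem pow_le [Finite (Zm Γ T a P (Rb 1))] (i : ℕ) : Finite (Zm Γ T a P (Rb i)) ∧
    Nat.card (Zm Γ T a P (Rb i)) ≤ Nat.card (Zm Γ T a P (Rb 1)) ^ i := by
  induction i with
  | zero =>
    have : Subsingleton (Rb 0) := Ideal.Quotient.subsingleton_iff.2 (by simp)
    exact ⟨inferInstance, by simp [Finite.card_le_one_iff_subsingleton.2 inferInstance]⟩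
  | succ i ih =>
    obtain ⟨_, ih⟩ := ih
    let t := LinearMap.lsmul L (Zm Γ T a P (Rb (i + 1))) PowerSeries.X
    obtain ⟨f, hf⟩ := emb 1 (i + 1) (LinearMap.ker t) fun x h => by rw [pow_one]; exact h
    obtain ⟨f', hf'⟩ := emb i (i + 1) (LinearMap.range t) (by
      rintro _ ⟨x, rfl⟩
      rw [LinearMap.lsmul_apply, smul_smul, ← pow_succ]
      exact Subtype.ext (funext₂ fun g s => kill _ _))
    have e := (LinearMap.ker t).card_eq_card_quotient_mul_card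
    rw [Nat.card_congr t.quotKerEquivRange.toEquiv] at e
    have := Finite.of_injective _ hf
    have := Finite.of_injective _ hf'
    refine ⟨Nat.finite_of_card_ne_zero (e ▸ mul_ne_zero Nat.card_pos.ne' Nat.card_pos.ne'), ?_⟩
    exact e.trans_le ((Nat.mul_le_mul (Nat.card_le_card_of_injective _ hf)
      ((Nat.card_le_card_of_injective _ hf').trans ih)).trans_eq (pow_succ' _ _).symm)

/-- the residue map -/
def rs : Rb 1 →+* ZMod pp := Ideal.Quotient.lift _ constantCoeff fun p h => by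
  rwa [pow_one, Ideal.mem_span_singleton, X_dvd_iff] at h

theorem rs_inj : Function.Injective rs := (injective_iff_map_eq_zero _).2 fun x h => by
  obtain ⟨p, rfl⟩ := Ideal.Quotient.mk_surjective x
  rw [Ideal.Quotient.eq_zero_iff_mem, pow_one, Ideal.mem_span_singleton, X_dvd_iff]
  exact h

theorem rs_smul (p : L) (x : Rb 1) : rs (p • x) = constantCoeff p * rs x := by
  obtain ⟨q, rfl⟩ := Ideal.Quotient.mk_surjective x
  exact map_mul constantCoeff p q

/-- the action -/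
def aL (ρ : GQ → M2 (ZMod pp)) (χ : GQ → ℕ) (g : GQ) : M2 L := (1 + PowerSeries.X : L) ^ χ g • (ρ g).map C

/-- **the uniform bound** -/
theorem bound {S : Finset ℕ} {ρ : GQ → M2 (ZMod pp)} (G : F.Gd Γ S ρ) (k i : ℕ) : ∃ B : ℕ,
    ∀ (T : Finset ℕ) χ P, (∀ l ∈ T, l.Prime) → T.card ≤ k →
      Finite (Zm Γ (S ∪ T) (aL ρ χ) P (Rb i)) ∧
        Nat.card (Zm Γ (S ∪ T) (aL ρ χ) P (Rb i)) ≤ pp ^ B := by
  obtain ⟨C, hC⟩ := F.Pn.bnd _ Γ S ρ G
  refine ⟨(C + 4 * k) * i, fun T χ P pr le => ?_⟩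
  obtain ⟨_, h⟩ := hC Empty Empty T Empty.elim Empty.elim pr
  have z : ∀ {x : Fin 2 → Rb 1}, x = 0 → rs ∘ x = 0 := fun e => funext fun i => by simp [e]
  let f : Zm Γ (S ∪ T) (aL ρ χ) P (Rb 1) →
      Zs (ZMod pp) Γ (S ∪ T) ρ (μ := Empty) Empty.elim Empty.elim := fun x =>
    ⟨(fun g => rs ∘ x.1 g, 0), fun g m k n => by
      show rs ∘ x.1 (g * k) = rs ∘ x.1 g + ac (ρ g) (rs ∘ x.1 k)
      rw [x.2.1.coc g m k n]
      funext s
      simp [ac, aL, rs_smul], fun g m => z (x.2.1.out g m),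
      x.2.1.lc.imp fun W k => ⟨k.1, fun w m => z (k.2 w m)⟩, fun g m => z (x.2.1.unr g m),
      fun i => i.elim⟩
  have hf : Function.Injective f := fun x y e => Subtype.ext (funext₂ fun g s =>
    rs_inj (congrFun₂ (congrArg (fun t => t.1.1) e) g s))
  have := Finite.of_injective _ hf
  refine ⟨(pow_le i).1, (pow_le i).2.trans ?_⟩
  rw [pow_mul]
  refine Nat.pow_le_pow_left (((Nat.card_le_card_of_injective _ hf).trans h).trans
    (Nat.pow_le_pow_right pp_pos ?_)) i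
  simp only [Fintype.card_eq_zero, Fintype.card_fin]
  omega


theorem z0 {e : Crv} (b : Fld e) (J c : ℕ) (χ : GQ → ℕ) : b.Z0 J c χ =
    Zm b.Γ (e.S.toFinset ∪ c.primeFactors) (aL (F.Cn.rb e) χ) (e.P pp) (Rb J) := by
  have a : ∀ g (y : Fin 2 → Rb J), ac (b.ab J χ g) y = ac (aL (F.Cn.rb e) χ g) y := fun g y => by
    rw [Fld.ab, ← map_pow]; rfl
  exact Set.ext fun x => and_congr_left fun _ =>
    ⟨fun k => ⟨fun g m h n => a g _ ▸ k.coc g m h n, k.out, k.lc, k.unr⟩,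
      fun k => ⟨fun g m h n => (a g _).symm ▸ k.coc g m h n, k.out, k.lc, k.unr⟩⟩

theorem gd {e : Crv} (b : Fld e) : F.Gd b.Γ e.S.toFinset (F.Cn.rb e) := by
  have G := P004R.Lx.gd (R := ZMod 2) b.kd (List.mem_toFinset.2 e.two)
    (fun l m => (e.ov l (List.mem_toFinset.1 m)).1) (χ := fun _ => 1) rfl
    (fun _ _ _ _ => (mul_one _).symm) ⟨⊤, isOpen_univ, fun _ _ => rfl⟩ fun _ _ _ => rfl
  exact ⟨⟨G.opn, G.idx, G.cx, G.two, G.pr, F.Cn.rb_of (map_one _), fun g _ h _ => F.Cn.rb_mul e g h,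
    ⟨e.rep.Kn 1, e.rep.Kn_open 1, fun w _ m => e.tr_one.1 m⟩,
    fun g _ ⟨l, m, Q, o, i⟩ => F.Cn.rb_of (e.r_inert o (mt List.mem_toFinset.2 m) i)⟩,
    List.mem_toFinset.2 e.pm⟩

end Ap

variable [Pp]

open Ap in
/-- **row CNT** -/
theorem cnt : CNT := fun e b k i => by
  obtain ⟨B, hB⟩ := bound (gd b) k i
  refine ⟨B, fun c χ le => ?_⟩
  obtain ⟨f, h⟩ := hB c.primeFactors χ (e.P pp) (fun l => Nat.prime_of_mem_primeFactors) le
  simp only [z0]
  refine ⟨h, fun J k => ?_⟩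
  obtain ⟨f', h'⟩ := le_of (a := aL (F.Cn.rb e) χ) i J fun x m => funext₂ fun g s => by
    have := congrFun (k x m g) s
    rwa [tb, ← map_pow] at this
  exact ⟨Nat.card_pos.ne', h'⟩

end Vale.Agent.P014Y.Mu
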