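import Vale.Agent.P014Y.Mu.St
import Vale.Agent.P014Y.F.Pt.Kd
import Vale.Agent.P004F.Pt.Pert
import Vale.Agent.P004F.Ra.Lv

/-! # P014Y, block MU: the layer in the words of groups and of towers -/

set_option autoImplicit false
set_option linter.all false

noncomputable section

namespace Vale.Agent.P014Y.Mu

open NumberField Matrix
open Vale.Agent.P022 (Qb GQ)
open Vale.Agent.P014U
open P004K (RC1 RC2 Typ)
open P014Y.F (Crv Fld)
open Tp (Lz)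

theorem val1 (k : ℕ) : (1 : ZMod (3 * 3 ^ k)).val = 1 :=
  have : Fact (1 < 3 * 3 ^ k) := ⟨by have := Nat.pow_pos (n := k) three_pos; omega⟩
  ZMod.val_one _

theorem lzy (r1 : RC1) (r2 : RC2) : LZY := fun e b k c χ h gt => by
  have c0 := zero_lt_one.trans h.one
  refine ⟨c0.ne', h.ad.add, ⟨_, (r1 b.K b.j b.iq c c0).2.1, fun g _ m => h.ad.ker g m⟩,
    fun l P o n g m i => h.ad.ker g (P004F.Ra.unr_hc r2 b.iq c0 o n m i),
    fun q hq d => ⟨mt List.mem_toFinset.1 (h.out q hq d).1, (gt q hq d).sq, (gt q hq d).md⟩,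
    fun q P o d => ?_, fun p m P o => ?_⟩
  · obtain ⟨t, -, i, a⟩ := h.ram q P o d
    exact ⟨t, i, by simp only [a, val1]; rfl⟩
  · obtain ⟨a, u⟩ := h.fro p (List.mem_toFinset.1 m) P o
    refine ⟨a, fun g f d => ?_⟩
    obtain ⟨x, hx⟩ := u g f
    have := ZMod.val_coe_unit_coprime x
    rw [hx] at this
    exact absurd (Nat.eq_one_of_dvd_coprimes this d (dvd_mul_right 3 _)) (by decide)

theorem gq_tz {e : Crv} {m n q : ℕ} (m0 : 0 < m) (hq : q.Prime) (o : q ∉ e.S)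
    (md : q ≡ 1 [MOD 3 ^ (n + 1)]) (t : Tz (rb e) q) : Gq e m q := fun d => by
  obtain ⟨P, v⟩ := P004R.Mu.ex_pl hq
  obtain ⟨φ, f⟩ := P022D.W.exists_phi v.1 v.2.1 v.2.2
  have a : ((e.a q : ℤ) : ZMod 3) = 0 := by
    have := congrArg (PadicInt.toZMod (p := pp)) ((e.bad q hq o).2.2 φ ⟨P, v.2.1, v.2.2, f⟩)
    rw [map_intCast, AddMonoidHom.map_trace] at this
    exact this.symm.trans (t P φ v f)
  have k : (q : ZMod 3) = 1 := by
    simpa using (ZMod.natCast_eq_natCast_iff _ _ 3).2 (md.of_dvd (dvd_pow_self 3 n.succ_ne_zero))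
  have := (ZMod.intCast_zmod_eq_zero_iff_dvd _ 3).2 ((dvd_pow_self (3 : ℤ) m0.ne').trans d)
  push_cast at this
  rw [a, k] at this
  exact absurd this (by decide)

theorem typ {e : Crv} {b : Fld e} {n q : ℕ} (g : Gt b n ∅ q) (o : q ∉ e.S) (d : ¬ q ∣ b.δ') :
    Typ b.K q (q - 1) := by
  obtain ⟨P, v⟩ := P004R.Mu.ex_pl g.pr
  obtain ⟨φ, f⟩ := P022D.W.exists_phi v.1 v.2.1 v.2.2
  obtain ⟨ω, s, qd⟩ := P004F.Pt.ex_q b.j b.iq
  refine P004F.Pt.typ' b.kd qd b.th g.pr (e.ne_two o) ?_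
  rw [P004R.Cb.jac v (e.ne_two o) (fun k => d (by exact_mod_cast dvd_neg.1 k)) f,
    (b.kd.gk _).1 (g.sq P v (P022D.W.phi_mem v.1 v.2.1 f))]
  rfl

theorem twr : TWR := fun e e' b b' pr sm m n c χ m0 h crd H => by
  have ad : b.Ad n c fun g => (χ g).val := ⟨fun g a k a' => (h.ad.add g a k a').of_dvd
    (pow_dvd_pow _ (by omega)), fun g a => (pow_dvd_pow _ (by omega)).trans (h.ad.ker g a)⟩
  have gp : ∀ q ∈ c.primeFactors, b.Gp m n q := fun q a => by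
    obtain ⟨hq, d, -⟩ := Nat.mem_primeFactors.1 a
    obtain ⟨o, o', -⟩ := h.out q hq d
    obtain ⟨g, k⟩ := H q hq d
    exact ⟨o, o', ⟨_, typ g o o', (pow_dvd_pow 3 (n.le_add_right 2)).trans
      ((Nat.modEq_iff_dvd' hq.one_le).1 g.md.symm)⟩, k.elim id (gq_tz m0 hq o g.md)⟩
  have rm : ∀ Γ : Subgroup GQ, ∀ q ∈ c.primeFactors, ∀ P, P022E.GW.Ov q P →
      ∃ g, P027M.S.Inert P g ∧ ¬ pp ^ m ∣ (χ g).val ∧ ∀ h ∈ Γ ⊓ P022D.W.dec P,
        ∃ k, (χ h).val ≡ k * (χ g).val [MOD pp ^ n] := fun Γ q a P o => by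
    obtain ⟨t, -, i, u⟩ := h.ram q P o (Nat.dvd_of_mem_primeFactors a)
    refine ⟨t, i, ?_, fun g _ => ⟨(χ g).val, ?_⟩⟩ <;> simp only [u, val1]
    · exact fun k => absurd (Nat.dvd_one.1 k) (Nat.one_lt_pow m0.ne' (by decide)).ne'
    · rw [mul_one]
  refine ⟨⟨ad, h.sq, h.one, crd, gp, rm _⟩, ⟨sm.Γ ▸ ad.add, sm.hc c ▸ ad.ker⟩, h.sq, h.one, crd,
    fun q a => ?_, rm _⟩
  obtain ⟨o, o', ⟨k, t, u⟩, g⟩ := gp q a
  have hq := Nat.prime_of_mem_primeFactors a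
  refine ⟨pr.S ▸ o, sm.δ' ▸ o', ⟨k, (sm.typ q k).2 t, u⟩, ?_⟩
  rwa [pr.a q hq o, mul_pow, jacobiSym.sq_one, one_mul]
  exact (Int.neg_gcd ..).trans ((Nat.coprime_primes Nat.prime_three hq).2 (e.ne_pp o).symm)

end Vale.Agent.P014Y.Mu
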