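import Vale.Agent.P014Y.Mu.Ds0
import Vale.Agent.P004S.Lt
import Vale.Agent.P014T.Dr.Cy

/-! # P014Y, block MU, row LEV: classes which lift modulo `X ^ 3` (helper24) -/

set_option autoImplicit false
set_option linter.all false

noncomputable section

namespace Vale.Agent.P014Y.Mu.Lv

open NumberField Matrix
open Vale.Agent.P022 (Qb GQ)
open Vale.Agent.P022.H443 (inP)
open Vale.Agent.P027M.S (Inert)
open Vale.Agent.P022D.W (dec inP_le_dec phi_mem conj_inP exists_phi)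
open Vale.Agent.P022E.GW (Ov Fb)
open Vale.Agent.P022K.G2 hiding Hm
open Vale.Agent.P014U
open L2 (W M2 rh dt cu BB am aw)
open P004S (wp wp_add_left wp_add_right wp_sub_left wp_smul_left wp_smul_right lt)
open Ds

variable [Pp] {a : GQ →* M2} {D E : Subgroup GQ} {x y z w : X} {P : Ideal (𝓞 Qb)} {g t φ : GQ}
  {l : ℕ} {ε : GQ → F}

/-- `x + y Y + z Y ^ 2 / 2` is a cocycle of `D` for the action `a ⊗ exp (ε Y)` modulo `Y ^ 3` -/
structure L3 (a : GQ →* M2) (ε : GQ → F) (D : Subgroup GQ) (x y z : X) : Prop where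
  ad : ∀ g ∈ D, ∀ h ∈ D, ε (g * h) = ε g + ε h
  c0 : ∀ g ∈ D, ∀ h ∈ D, x (g * h) = x g + a g *ᵥ x h
  c1 : ∀ g ∈ D, ∀ h ∈ D, y (g * h) = y g + a g *ᵥ (y h + ε g • x h)
  c2 : ∀ g ∈ D, ∀ h ∈ D, z (g * h) = z g + a g *ᵥ (z h + (2 * ε g) • y h + ε g ^ 2 • x h)
  opn : ∃ U, Lv ∅ U ∧ ∀ w ∈ D, w ∈ U → ε w = 0 ∧ x w = 0 ∧ y w = 0 ∧ z w = 0

theorem L3.mono (h : L3 a ε D x y z) (e : E ≤ D) : L3 a ε E x y z :=
  ⟨fun g m j n => h.ad g (e m) j (e n), fun g m j n => h.c0 g (e m) j (e n),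
    fun g m j n => h.c1 g (e m) j (e n), fun g m j n => h.c2 g (e m) j (e n),
    h.opn.imp fun _ k => ⟨k.1, fun w m => k.2 w (e m)⟩⟩

theorem L3.cl (h : L3 a ε D x y z) : x ∈ Cl a D :=
  ⟨h.c0, h.opn.imp fun _ k => ⟨k.1, fun w m n => (k.2 w m n).2.1⟩⟩

/-- `w Y ^ 2 / 2` is a coboundary for the dual action, at `g` -/
def Ls (a : GQ →* M2) (ε : GQ → F) (w : X) (u v m : W) (g : GQ) : Prop :=
  a g *ᵥ u = u ∧ a g *ᵥ (v - ε g • u) = v ∧ w g = a g *ᵥ (m - (2 * ε g) • v + ε g ^ 2 • u) - m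

theorem L3.ort (L : L3 a ε D x y z) {u v m : W} (h : ∀ g ∈ D, Ls a ε w u v m g) :
    cu a w x ∈ BB a D := by
  obtain ⟨-, c0, c1, c2, U, o, e⟩ := L
  have pu : ∀ g ∈ D, ∀ s, wp u (a g *ᵥ s) = dt a g * wp u s := fun g t s => by
    rw [← aw, (h g t).1]
  have pv : ∀ g ∈ D, ∀ s, wp v (a g *ᵥ s) = dt a g * wp (v - ε g • u) s := fun g t s => by
    rw [← aw, (h g t).2.1]
  refine ⟨fun g => wp m (x g) + 2 * wp v (y g) + wp u (z g), ⟨U, o, fun g s j t n => ?_⟩,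
    fun g s j t => ?_⟩
  · obtain ⟨-, p0, p1, p2⟩ := e j t n
    simp only [c0 g s j t, c1 g s j t, c2 g s j t, p0, p1, p2, smul_zero, add_zero, mulVec_zero]
  rw [d1_apply, ch_apply, cu, (h g s).2.2, wp_sub_left, aw, c0 g s j t, c1 g s j t, c2 g s j t]
  simp only [wp_add_right, pu g s, pv g s, wp_add_left, wp_sub_left, wp_smul_left, wp_smul_right]
  ring

theorem Ls.mul {u v m : W} {h : GQ} (p : Ls a ε w u v m g) (q : Ls a ε w u v m h)
    (ad : ε (g * h) = ε g + ε h) (co : w (g * h) = w g + a g *ᵥ w h) : Ls a ε w u v m (g * h) := by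
  obtain ⟨p0, p1, p2⟩ := p
  obtain ⟨q0, q1, q2⟩ := q
  rw [mulVec_sub, mulVec_smul, p0, sub_eq_iff_eq_add] at p1
  rw [mulVec_sub, mulVec_smul, q0, sub_eq_iff_eq_add] at q1
  refine ⟨by rw [am, q0, p0], ?_, ?_⟩ <;>
    simp only [co, p2, q2, am, ad, mulVec_add, mulVec_sub, mulVec_smul, p0, p1, q0, q1] <;> module

theorem ch2 (N : M2) (v : W) : N *ᵥ (N *ᵥ v) = N.trace • N *ᵥ v - N.det • v := by
  funext i
  fin_cases i <;> simp [mulVec, dotProduct, trace_fin_two, det_fin_two] <;> ring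

/-- the decomposition of Fitting -/
theorem fit {M : Submodule F W} {N : M2} (h : ∀ v ∈ M, N *ᵥ v ∈ M) {v : W} (m : v ∈ M) :
    ∃ p ∈ M, ∃ q ∈ M, N *ᵥ p + q = v ∧ N *ᵥ (N *ᵥ q) = 0 := by
  have c := ch2 N v
  by_cases d : N.det = 0
  · rw [d, zero_smul, sub_zero] at c
    by_cases t : N.trace = 0
    · exact ⟨0, zero_mem _, v, m, by simp, by rw [c, t, zero_smul]⟩
    refine ⟨_, M.smul_mem N.trace⁻¹ m, _, sub_mem m (M.smul_mem N.trace⁻¹ (h v m)), ?_, ?_⟩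
    · rw [mulVec_smul, add_sub_cancel]
    · rw [mulVec_sub, mulVec_smul, c, smul_smul, inv_mul_cancel₀ t, one_smul, sub_self, mulVec_zero]
  · refine ⟨_, M.smul_mem N.det⁻¹ (sub_mem (M.smul_mem N.trace m) (h v m)), 0, zero_mem _, ?_,
      by simp⟩
    rw [mulVec_smul, mulVec_sub, mulVec_smul, c, sub_sub_cancel, smul_smul, inv_mul_cancel₀ d,
      one_smul, add_zero]

/-- the Frobenius element, inertia and an open subgroup generate -/
theorem dens (o : Ov l P) (f : Fb l P φ) {H : GQ → Prop} {U : Subgroup GQ}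
    (hU : IsOpen (U : Set GQ)) (mul : ∀ g ∈ dec P, ∀ h ∈ dec P, H g → H h → H (g * h)) (h1 : H φ)
    (h2 : ∀ i, Inert P i → H i) (h3 : ∀ w ∈ dec P, w ∈ U → H w) : ∀ g ∈ dec P, H g := by
  intro g m
  obtain ⟨n, i, hi, k⟩ := (lt l P o).2 φ g f m U hU
  have s := phi_mem o.1 o.2.1 f
  have b : H (φ ^ n) := by
    clear k
    induction n with
    | zero => exact pow_zero φ ▸ h2 1 (P004S.inert_one P)
    | succ n ih => exact pow_succ φ n ▸ mul _ (pow_mem s n) _ s ih h1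
  have c := mul_mem (pow_mem s n) (inP_le_dec hi)
  have d := mul_mem (inv_mem c) m
  exact mul_inv_cancel_left (φ ^ n * i) g ▸
    mul _ c _ d (mul _ (pow_mem s n) _ (inP_le_dec hi) b (h2 i hi)) (h3 _ d k)

/-- **orthogonality to the unramified classes** -/
theorem L3.ot (L : L3 a ε (dec P) x y z) (ko : IsOpen (a.ker : Set GQ)) (o : Ov l P)
    (f : Fb l P φ) (i0 : ∀ i, Inert P i → ε i = 0) (ne : ε φ ≠ 0) :
    x ∈ Ot a (dec P) (Ur a P) := by
  refine ⟨L.cl, fun w ⟨⟨co, V, o', e'⟩, b⟩ => ?_⟩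
  obtain ⟨n, hn⟩ := mem_bl.1 b
  have s := phi_mem o.1 o.2.1 f
  let M : Submodule F W :=
    { carrier := {v | ∀ i ∈ inP P, a i *ᵥ v = v}
      add_mem' := fun p q i m => by rw [mulVec_add, p i m, q i m]
      zero_mem' := fun _ _ => mulVec_zero _
      smul_mem' := fun c v p i m => by rw [mulVec_smul, p i m] }
  have cj : ∀ i ∈ inP P, φ⁻¹ * i * φ ∈ inP P := fun i m => by
    simpa using conj_inP (inv_mem s) m
  have hA : ∀ v ∈ M, a φ *ᵥ v ∈ M := fun v p i m => by rw [← a_cj, p _ (cj i m)]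
  have hv : w φ - (a φ *ᵥ n - n) ∈ M := fun i m => by
    have e1 := co φ s _ (inP_le_dec (cj i m))
    rw [← mul_assoc, mul_inv_cancel_left, co i (inP_le_dec m) φ s, hn i m, hn _ (cj i m),
      mulVec_sub, a_cj] at e1
    simp only [mulVec_sub]
    linear_combination e1
  obtain ⟨p, p1, q, q1, e1, e2⟩ := fit (N := a φ - 1) (fun v m => by
    rw [sub_mulVec, one_mulVec]; exact sub_mem (hA v m) m) hv
  simp only [sub_mulVec, one_mulVec, mulVec_sub] at e1 e2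
  obtain ⟨v, v1, rfl⟩ : ∃ v ∈ M, q = -(2 * ε φ) • v := ⟨_, M.smul_mem (-(2 * ε φ))⁻¹ q1, by
    rw [smul_smul, mul_inv_cancel₀ (neg_ne_zero.2 (mul_ne_zero two_ne ne)), one_smul]⟩
  obtain ⟨u, u1, hu⟩ : ∃ u ∈ M, a φ *ᵥ v = v + ε φ • u :=
    ⟨_, M.smul_mem (ε φ)⁻¹ (sub_mem (hA v v1) v1), by
      rw [smul_smul, mul_inv_cancel₀ ne, one_smul, add_sub_cancel]⟩
  have u2 : a φ *ᵥ u = u := by
    simp only [mulVec_smul, hu, mulVec_add] at e2
    refine sub_eq_zero.1 ((smul_eq_zero_iff_right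
      (mul_ne_zero (neg_ne_zero.2 (mul_ne_zero two_ne ne)) ne)).1 ?_)
    linear_combination (norm := module) e2
  obtain ⟨U, o2, e⟩ := L.opn
  have m1 := add_mem p1 (M.smul_mem (ε φ) v1)
  refine L.ort (u := u) (v := v) (m := p + ε φ • v + n) (dens o f (U := a.ker ⊓ (U ⊓ V))
    (ko.inter (o2.opn.inter o'.opn)) (fun g m h k p q => p.mul q (L.ad g m h k) (co g m h k))
    ⟨u2, ?_, ?_⟩ (fun i m => ⟨u1 i m, ?_, ?_⟩) fun j m k => ?_)
  · rw [mulVec_sub, mulVec_smul, u2, hu, add_sub_cancel_right]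
  · simp only [mulVec_add, mulVec_sub, mulVec_smul, u2, hu]
    linear_combination (norm := module) -e1
  · rw [i0 i m, zero_smul, sub_zero, v1 i m]
  · rw [i0 i m, mul_zero, zero_smul, sub_zero, zero_pow two_ne_zero, zero_smul, add_zero,
      mulVec_add, m1 i m, hn i m, add_sub_add_left_eq_sub]
  · simp [Ls, show a j = 1 from k.1, (e j m k.2.1).1, e' j m k.2.2]

theorem dec_gz (o : Ov l P) (e : l % pp = 1) : l ≠ pp ∧ (∀ g ∈ dec P, ∀ i, Inert P i →
    ka pp l (g * i * g⁻¹) = ka pp l i) ∧ ∀ g ∈ dec P, oz pp g = 1 := by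
  have n : l ≠ pp := fun k => by simp [k] at e
  obtain ⟨φ, f⟩ := exists_phi o.1 o.2.1 o.2.2
  have k : ∀ g ∈ dec P, oz pp g = 1 := fun g m => mem_Gz.1 (lt.dec_le o f Gz_open (mem_Gz'.2 (by
    rw [P014T.Dr.root_cong o (fun d => n ((Nat.prime_dvd_prime_iff_eq o.1 pp_prime).1 d)) f zt_pow,
      pow_eq_pow_mod l zt_pow, e, pow_one])) (fun i => inert_gz o n) m)
  refine ⟨n, fun g m i b => ?_, k⟩
  have := ka_conj (p := pp) (Nat.cast_ne_zero.2 o.1.ne_zero) g (inert_gz o n b) (map_natCast i l)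
  rwa [map_natCast, k g m, one_mul] at this

theorem tame {N : Type} [AddCommGroup N] [Module F N] {f : GQ → N} (o : Ov l P) (n : l ≠ pp)
    (ad : ∀ g h, Inert P g → Inert P h → f (g * h) = f g + f h) {U : Subgroup GQ} (h : Lv ∅ U)
    (e : ∀ w ∈ dec P, w ∈ U → f w = 0) : ∃ n, ∀ g, Inert P g → f g = ka pp l g • n := by
  simpa only [ZMod.castHom_self, RingHom.id_apply] using
    (tam pp l P o n).2.2 F N f ad ⟨U, h, fun w m i => e w (inP_le_dec i) m⟩

/-- no fixed vector: all classes are unramified -/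
theorem un_nf (h : x ∈ Cl a (dec P)) (o : Ov l P) (md : l % pp = 1)
    (un : ∀ i, Inert P i → a i = 1) (nf : Nf a (dec P)) (i : Inert P g) : x g = 0 := by
  obtain ⟨n, k, -⟩ := dec_gz o md
  obtain ⟨U, p, q⟩ := h.2
  obtain ⟨v, e⟩ := tame (f := x) o n (fun g j s t => by
    rw [h.1 g (inP_le_dec s) j (inP_le_dec t), un g s, one_mulVec]) p q
  exact nf _ fun s m => by
    rw [← cl_cjk h (inP_le_dec i) m (un g i), e _ (conj_inP m i), k s m g i, e g i]

theorem fb_mul (o : Ov l P) (f : Fb l P φ) (i : Inert P t) : Fb l P (φ * t) := fun x => by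
  have := add_mem ((phi_mem o.1 o.2.1 f _).2 (i x)) (f x)
  rwa [smul_sub, sub_add_sub_cancel, ← mul_smul] at this

/-- **transversality** -/
theorem L3.vs (L : L3 a ε (dec P) x y z) (o : Ov l P) (md : l % pp = 1)
    (un : ∀ i, Inert P i → a i = 1) (i : Inert P t) (ne : ε t ≠ 0) :
    ∃ φ, Fb l P φ ∧ x ∈ Vs a φ := by
  obtain ⟨n, k, -⟩ := dec_gz o md
  have d : ∀ {g}, Inert P g → g ∈ dec P := fun i => inP_le_dec i
  obtain ⟨φ, f, e0⟩ : ∃ φ, Fb l P φ ∧ ε φ = 0 := by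
    obtain ⟨φ, f⟩ := exists_phi o.1 o.2.1 o.2.2
    have : ∀ j : ℕ, Fb l P (φ * t ^ j) ∧ ε (φ * t ^ j) = ε φ + j * ε t := fun j => by
      induction j with
      | zero => exact ⟨by rw [pow_zero, mul_one]; exact f, by simp⟩
      | succ j ih => exact ⟨by rw [pow_succ, ← mul_assoc]; exact fb_mul o ih.1 i, by
          rw [pow_succ, ← mul_assoc, L.ad _ (phi_mem o.1 o.2.1 ih.1) t (d i), ih.2]
          push_cast; ring⟩
    have _ := NeZero.mk pp_ne
    exact ⟨_, (this (-ε φ / ε t).val).imp_right fun e => by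
      rw [e, ZMod.natCast_zmod_val, div_mul_cancel₀ _ ne, add_neg_cancel]⟩
  have s := phi_mem o.1 o.2.1 f
  obtain ⟨U, p, q⟩ := L.opn
  have c0 : ∀ g j, Inert P g → Inert P j → x (g * j) = x g + x j := fun g j s t => by
    rw [L.c0 g (d s) j (d t), un g s, one_mulVec]
  obtain ⟨n1, e1⟩ := tame (f := ε) o n (fun g j s t => L.ad g (d s) j (d t)) p
    fun w m b => (q w m b).1
  obtain ⟨n2, e2⟩ := tame (f := x) o n c0 p fun w m b => (q w m b).2.1
  obtain ⟨n3, e3⟩ := tame (f := fun g => (2 : F) • y g - ε g • x g) o n (fun g j s t => by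
    simp only [L.c1 g (d s) j (d t), un g s, one_mulVec, c0 g j s t, L.ad g (d s) j (d t), e1 g s,
      e1 j t, e2 g s, e2 j t, smul_eq_mul]
    module) p fun w m b => by simp [q w m b]
  have i' := conj_inP s i
  have a1 := e1 _ i'
  have a2 := e2 _ i'
  have a3 := e3 _ i'
  rw [k φ s t i] at a1 a2 a3
  rw [← e1 t i] at a1
  rw [← e2 t i] at a2
  rw [← e3 t i, a1, a2, sub_left_inj] at a3
  have a4 := L.c1 _ (d i') φ s
  rw [inv_mul_cancel_right, L.c1 φ s t (d i), e0, un _ i', a1,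
    smul_right_injective _ two_ne a3, zero_smul, add_zero, one_mulVec] at a4
  refine ⟨φ, f, (mem_Vs a).2 ⟨(ε t)⁻¹ • y t, ?_⟩⟩
  rw [mulVec_smul, ← smul_sub, inv_smul_eq_iff₀ ne]
  linear_combination a4

end Vale.Agent.P014Y.Mu.Lv
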