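import Vale.Agent.P014Y.Mu.St
import Vale.Agent.P014Y.Tp.Rho

/-! # P014Y, block MU, rows RSE and SUT: the curve in the residual words (helper76) -/

set_option autoImplicit false
set_option linter.all false

noncomputable section

namespace Vale.Agent.P014Y.Mu

open NumberField Matrix Module
open scoped Classical Pointwise
open Vale.Agent.P022 (Qb GQ)
open Vale.Agent.P027M.S (Inert)
open Vale.Agent.P022D.W (dec)
open Vale.Agent.P022E.GW (Ov Fb)
open Vale.Agent.P014U
open L2 (W M2 dt)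
open X4S (Pl)
open P004S (nu kn)
open P004F (hq)
open P014Y.F (Crv Fld)
open Top (Sur Pr)

namespace Re

variable [Pp]

theorem of (e : Crv) {g : GQ} (h : e.r g = 1) : rb e g = 1 := by
  change (e.r g).map PadicInt.toZMod = 1
  rw [h]; exact Matrix.map_one _ (map_zero _) (map_one _)

theorem r0 (e : Crv) : R0 (rb e) := ⟨Cp.ker_open _, Cp.dt_ab _⟩

theorem rs (e : Crv) {T : Finset ℕ} (s : e.S.toFinset ⊆ T) (p : ∀ l ∈ T, l.Prime) : Rs (rb e) T :=
  ⟨r0 e, s (List.mem_toFinset.2 e.pm), p, fun g ⟨l, m, P, o, i⟩ =>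
    of e (e.r_inert o (fun k => m (s (List.mem_toFinset.2 k))) i)⟩

theorem tw_of {d : ℤ} {a : GQ →* M2} {g : GQ} (h : nu d g = 0) (k : a g = 1) : tw d a g = 1 := by
  show (if nu d g = 0 then 1 else -1 : F) • a g = _
  rw [if_pos h, one_smul, k]

theorem r0_tw (d : ℤ) {a : GQ →* M2} (h : R0 a) : R0 (tw d a) :=
  ⟨Subgroup.isOpen_mono (H₁ := kn d ⊓ a.ker) (fun g m => tw_of m.1 m.2)
    ((P004S.kn_open d).inter h.opn), h.det ▸ funext fun g => by
      show ((if nu d g = 0 then 1 else -1 : F) • a g).det = (a g).det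
      rw [det_smul, Fintype.card_fin]
      split_ifs <;> simp⟩

theorem pl (e : Crv) : ∃ pl : Pl, ∀ p ∈ e.S, pl.P p = e.P p := by
  obtain ⟨q⟩ := X4S.pl_ex
  have : ∀ p : ℕ, ∃ (P : Ideal (𝓞 Qb)) (σ τ : GQ), (p ∈ e.S → P = e.P p) ∧
      (p.Prime → Ov p P ∧ Fb p P σ ∧ (p ≠ pp → Gn p P τ)) := fun p => by
    by_cases m : p ∈ e.S
    · have o := e.ov p m
      obtain ⟨φ, f⟩ := P022D.W.exists_phi o.1 o.2.1 o.2.2
      exact ⟨_, φ, e.τ p, fun _ => rfl, fun _ => ⟨o, f, e.gn p m⟩⟩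
    · exact ⟨_, _, _, fun k => absurd k m, fun h => ⟨q.ov p h, q.fb p h, q.gn p h⟩⟩
  choose P σ τ h k using this
  exact ⟨⟨P, σ, τ, fun l hl => (k l hl).1, fun l hl => (k l hl).2.1, fun l hl => (k l hl).2.2⟩, h⟩

theorem dec_conj {P : Ideal (𝓞 Qb)} {t g : GQ} (h : g ∈ dec (t • P)) : t⁻¹ * g * t ∈ dec P :=
  fun x => by
    have := h (t • x)
    rwa [Ideal.mem_pointwise_smul_iff_inv_smul_mem, Ideal.mem_pointwise_smul_iff_inv_smul_mem,
      inv_smul_smul, ← mul_smul, ← mul_smul] at this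

variable {e : Crv} (b : Fld e)

theorem sq {l : ℕ} (m : l ∈ e.S) : Sq b.Γ l := fun P o g h => by
  obtain ⟨t, rfl⟩ := P022E.GW.Tg.trans (e.ov l m) o
  have := b.Γ_conj (b.le l m (dec_conj h)) t
  rwa [show t * (t⁻¹ * g * t) * t⁻¹ = g by group] at this

theorem nf (s : Sur e.par.disc) : Nf (rb e) b.Γ := fun v h => by
  obtain ⟨g, k⟩ := s (-1) (by rw [det_neg, det_one]; simp)
  obtain ⟨x, m, j⟩ := b.onto g
  have a : rb e x = -1 := (congrArg (·.map PadicInt.toZMod) j).trans k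
  have c := h x m
  rw [a, neg_mulVec, one_mulVec] at c
  exact (smul_eq_zero.1 (show (2 : F) • v = 0 by
    rw [two_smul]; exact (congrArg (· + v) c.symm).trans (neg_add_cancel v))).resolve_left two_ne

end Re

open Re in
/-- **row RSE** -/
theorem rse [Pp] : RSE := fun e => by
  have p : ∀ l ∈ e.S.toFinset, l.Prime := fun l m => (e.ov l (List.mem_toFinset.1 m)).1
  refine ⟨rs e le_rfl p, pl e, fun b => ?_⟩
  have r := rs e (T := Sd b) Finset.subset_union_left fun l m =>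
    (Finset.mem_union.1 m).elim (p l) Nat.prime_of_mem_primeFactors
  refine ⟨r, ⟨r0_tw _ r.toR0, r.pm, r.pr, fun g m => tw_of ?_ (r.unr g m)⟩, b.kd.gk, b.c_out,
    P004M.TE.conj_sq (hq e.par.disc) b.cc, fun l => sq b, b.ex_ker, nf b⟩
  obtain ⟨l, n, P, o, i⟩ := m
  exact (b.kd.gk g).1 (b.inert_mem o
    (e.ne_two fun k => n (Finset.mem_union_left _ (List.mem_toFinset.2 k)))
    (fun d => n (Finset.mem_union_right _ (Nat.mem_primeFactors.2 ⟨o.1, d, b.pos.ne'⟩))) i)

/-- **row SUT** -/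
theorem sut : SUT := fun e e' h s => by
  obtain ⟨X, u, k⟩ := Tp.Ro.pr h
  refine ⟨fun M d => ?_, fun g t => ?_⟩
  · have z : ∀ x : ZMod 3, x ≠ 0 → x ^ 2 = 1 := by decide
    have n : (X⁻¹ * M * X).det = M.det := det_conj' ((isUnit_iff_isUnit_det X).2 u) M
    obtain ⟨g, a⟩ := s (M.det • (X⁻¹ * M * X)) (by
      rw [det_smul, Fintype.card_fin, z _ d, one_mul, n]; exact d)
    refine ⟨g, ?_⟩
    have c := k g
    change _ = X * (Tp.rho e g).det • Tp.rho e g at c
    rw [show Tp.rho e g = _ from a, det_smul, Fintype.card_fin, z _ d, one_mul, n, smul_smul, ← pow_two,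
      z _ d, one_smul, Matrix.mul_assoc, mul_nonsing_inv_cancel_left X _ u] at c
    exact (mul_nonsing_inv_cancel_right X _ u).symm.trans ((congrArg (· * X⁻¹) c).trans
      (mul_nonsing_inv_cancel_right X _ u))
  · have c := k g
    change _ = X * (Tp.rho e g).det • Tp.rho e g at c
    change (Tp.rho e' g).trace = 0
    rw [← mul_nonsing_inv_cancel_right X (Tp.rho e' g) u, c, trace_mul_cycle, nonsing_inv_mul X u,
      Matrix.one_mul, trace_smul, show (Tp.rho e g).trace = 0 from t, smul_zero]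

end Vale.Agent.P014Y.Mu
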