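import Vale.Agent.P014Y.Mu.St1
import Vale.Agent.P014Y.Tp.St

/-! # P014Y, block MU at three: the tower (words, rows, glue) -/

set_option autoImplicit false
set_option linter.all false

noncomputable section

namespace Vale.Agent.P014Y.Mu

open NumberField Matrix Module
open scoped Classical
open Vale.Agent.P022 (Qb GQ)
open Vale.Agent.P014U
open L2 (W M2)
open X4S (Pl)
open P014Y.F (Crv Fld)
open Top (Sur Par Pr)
open Tp (Lz ADP)

/-- the four representations -/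
def fr (e e' : Crv) (δ : ℕ) : Fin 4 → GQ →* M2 :=
  ![rb e, tw (-δ) (rb e), rb e', tw (-δ) (rb e')]

/-- the local factor is bounded -/
def Gq (e : Crv) (m q : ℕ) : Prop := ¬ (3 : ℤ) ^ m ∣ ((q : ℤ) + 1) ^ 2 - e.a q ^ 2

/-- split primes of level `n` -/
structure Gt {e : Crv} (b : Fld e) (n : ℕ) (E : Finset ℕ) (q : ℕ) : Prop where
  pr : q.Prime
  nE : q ∉ E
  md : q ≡ 1 [MOD 3 ^ n]
  sq : Sq b.Γ q

/-- the primes which kill -/
structure Gs {e : Crv} (b : Fld e) (e' : Crv) (pl : Pl) (m n : ℕ) (E : Finset ℕ) (q : ℕ) : Prop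
    extends Gt b n E q where
  up : ∀ i, Up (fr e e' b.δ' i) pl (Sd b) q
  gq : Gq e m q

/-- the image of the twist -/
def SUT : Prop := ∀ e e' : Crv, Pr (-3) e e' → Sur e.par.disc → Sur e'.par.disc ∧
  ∀ g, (rb e g).trace = 0 → (rb e' g).trace = 0

/-- **the supply of primes** -/
def CHV : Prop := ∀ (e e' : Crv) (b : Fld e) (pl : Pl), Pr (-3) e e' → Sur e.par.disc →
  ∃ m : ℕ, ∀ n E, Sp (fr e e' b.δ') pl (Gs b e' pl m n E)

/-- **the tower** -/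
def TWV : Prop := ∀ (e : Crv) (b : Fld e), Sur e.par.disc → ∃ (E : Finset ℕ) (d : ℕ),
  ∀ (k : ℕ) (Q : Finset ℕ), (∀ q ∈ Q, Gt b (k + d) E q) →
  ∃ (c : ℕ) (χ : GQ → ZMod (3 * 3 ^ k)), Lz b k c χ ∧ (∀ q ∈ Q, q ∣ c) ∧
    c.primeFactors.card ≤ Q.card + d ∧
    ∀ q : ℕ, q.Prime → q ∣ c → Gt b (k + 1) ∅ q ∧ (q ∈ Q ∨ Tz (rb e) q)

/-- the layer in the words of groups -/
def LZY : Prop := ∀ (e : Crv) (b : Fld e) k c χ, Lz b k c χ →
  (∀ q : ℕ, q.Prime → q ∣ c → Gt b (k + 1) ∅ q) →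
  Ly b.Γ e.S.toFinset (k + 1) c fun g => (χ g).val

/-- the layer is a level of a tower for the two curves -/
def TWR : Prop := ∀ (e e' : Crv) (b : Fld e) (b' : Fld e'), Pr (-3) e e' → b.Same b' →
  ∀ m n c χ, 0 < m → Lz b (n + 1) c χ → c.primeFactors.card ≤ m →
  (∀ q : ℕ, q.Prime → q ∣ c → Gt b (n + 2) ∅ q ∧ (Gq e m q ∨ Tz (rb e) q)) →
  b.Tw m n c (fun g => (χ g).val) ∧ b'.Tw m n c fun g => (χ g).val

theorem Gq.mono {e : Crv} {m m' q : ℕ} (h : Gq e m q) (l : m ≤ m') : Gq e m' q :=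
  fun d => h ((pow_dvd_pow _ l).trans d)

theorem tw_eq {d : ℤ} {a : GQ →* M2} {g : GQ} (h : P004S.nu d g = 0) : tw d a g = a g := by
  show (if P004S.nu d g = 0 then 1 else -1 : F) • a g = _
  rw [if_pos h, one_smul]

/-- one curve -/
theorem one (hF : FIN) (hD : DSC) (hR : RSE) (hB : BRG) {e : Crv} (b : Fld e) (pl : Pl)
    (hp : ∀ p ∈ e.S, pl.P p = e.P p) (su : Sur e.par.disc) (pa : Par b) (Q : Finset ℕ)
    (up : ∀ q ∈ Q, Up (rb e) pl (Sd b) q ∧ Sq b.Γ q) (k : St (rb e) pl (Sd b) Q ≤ Bl (rb e) ⊤)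
    (k' : St (tw (-b.δ') (rb e)) pl (Sd b) Q ≤ Bl (tw (-b.δ') (rb e)) ⊤) :
    Kk (rb e) b.Γ e.S.toFinset Q (e.P pp) := by
  obtain ⟨r0, -, h⟩ := hR e
  obtain ⟨r1, r2, mem, out, cc, sq, -, nf⟩ := h b
  have s : ∀ l ∈ e.S.toFinset ∪ Q, Sq b.Γ l := fun l m => (Finset.mem_union.1 m).elim
    (fun m => sq l (List.mem_toFinset.1 m)) fun m => (up l m).2
  have pr : ∀ l ∈ e.S.toFinset ∪ Q, l.Prime := fun l m => (Finset.mem_union.1 m).elim
    (r0.pr l) fun m => (up l m).1.pr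
  rw [← hp pp e.pm]
  exact hD _ pl _ _ _ _ _ Q r0 r2 Finset.subset_union_left mem out cc (fun q m => (up q m).1) s
    (hF _ _ pl _ _ Q r1 r2 Finset.subset_union_left r0.pm
      (fun v h => nf su v fun g _ => h g trivial)
      (fun v h => nf su v fun g m => tw_eq (a := rb e) ((mem g).1 m) ▸ h g trivial)
      (fun q m => (up q m).1)
      (fun l m g i => tw_eq ((mem g).1 (s l m _ (pl.ov l (pr l m)) i))) (hB e b pl hp su pa) k k')

theorem pw_up {J m i : ℕ} {x : Fin 2 → X4F.Rb J} (h : tb J ^ m • x = 0) (l : m ≤ i) :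
    tb J ^ i • x = 0 := by
  obtain ⟨k, rfl⟩ := Nat.exists_eq_add_of_le' l
  funext s
  have : tb J ^ m * x s = 0 := congrFun h s
  show tb J ^ (k + m) * x s = 0
  rw [pow_add, mul_assoc, this, mul_zero]

/-- **the export** -/
theorem adp (hK : KIL) (hF : FIN) (hD : DSC) (hL : LEV) (hC : CNT) (hR : RSE) (hB : BRG)
    (hS : SUT) (hV : CHV) (hT : TWV) (hY : LZY) (hW : TWR) : ADP := fun e e' b b' pr sm su p p' => by
  obtain ⟨r0, ⟨pl, hp⟩, h⟩ := hR e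
  obtain ⟨r1, r2, mem, -, -, -, -, nf⟩ := h b
  obtain ⟨r0', -, h'⟩ := hR e'
  obtain ⟨r1', r2', mem', -, -, -, -, nf'⟩ := h' b'
  obtain ⟨su', tz⟩ := hS e e' pr su
  have sd : Sd b' = Sd b := by rw [Sd, Sd, pr.S, sm.δ']
  obtain ⟨k, hk⟩ := hK (Fin 4) (fr e e' b.δ') pl (Sd b) fun i => by
    fin_cases i
    exacts [r1, r2, sd ▸ r1', sd ▸ sm.δ' ▸ r2']
  obtain ⟨m, hm⟩ := hV e e' b pl pr su
  obtain ⟨E, d, hd⟩ := hT e b su
  obtain ⟨i, hi⟩ := hL _ _ _ _ r0 mem (nf su)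
  obtain ⟨i', hi'⟩ := hL _ _ _ _ r0' mem' (nf' su')
  obtain ⟨B, hb⟩ := hC e b (k + d) (i + i')
  obtain ⟨B', hb'⟩ := hC e' b' (k + d) (i + i')
  refine ⟨m + k + d + 1, B + B', i + i', fun n => ?_⟩
  obtain ⟨Q, q1, q2, q3⟩ := hk _ (fun q g => g.up) (hm (n + 1 + d) E)
  obtain ⟨c, χ, lz, c1, c2, c3⟩ := hd (n + 1) Q fun q h => (q2 q h).toGt
  have ly := hY e b _ c χ lz fun q h s => (c3 q h s).1
  have qc : ∀ q ∈ Q, q.Prime ∧ q ∣ c := fun q h => ⟨(q2 q h).pr, c1 q h⟩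
  have k1 := hi _ c _ Q _ (Nat.succ_pos _) ly (e.ov _ e.pm) qc (fun q h s => (c3 q h s).2)
    (one hF hD hR hB b pl hp su p Q (fun q h => ⟨(q2 q h).up 0, (q2 q h).sq⟩) (q3 0) (q3 1))
  have k2 := hi' _ c _ Q _ (Nat.succ_pos _) (pr.S ▸ sm.Γ ▸ ly) (e'.ov _ e'.pm) qc
    (fun q h s => (c3 q h s).2.imp_right fun t P φ o f => tz _ (t P φ o f))
    (one hF hD hR hB b' pl (pr.S ▸ pr.P ▸ hp) su' p' Q
      (fun q h => ⟨sd ▸ (q2 q h).up 2, sm.Γ ▸ (q2 q h).sq⟩) (sd ▸ q3 2) (sd ▸ sm.δ' ▸ q3 3))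
  obtain ⟨u, v⟩ := hb c (fun g => (χ g).val) (by omega)
  obtain ⟨u', v'⟩ := hb' c (fun g => (χ g).val) (by omega)
  have w := fun J (l : J ≤ 3 * 3 ^ (n + 1)) => v J fun x a g =>
    pw_up (k1 J (l.trans_eq (pow_succ' _ _).symm) x a g) (i.le_add_right i')
  have w' := fun J (l : J ≤ 3 * 3 ^ (n + 1)) => v' J fun x a g =>
    pw_up (k2 J (l.trans_eq (pow_succ' _ _).symm) x a g) (i'.le_add_left i)
  refine ⟨c, χ, lz, fun _ => hW e e' b b' pr sm _ n c χ (Nat.succ_pos _) lz (by omega)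
    fun q h s => ⟨(c3 q h s).1, (c3 q h s).2.imp_left fun a => (q2 q a).gq.mono (by omega)⟩,
    fun J l => ⟨(w J l).1, ((w J l).2.trans u).trans (Nat.pow_le_pow_right three_pos
      (B.le_add_right B')), (w' J l).1, ((w' J l).2.trans u').trans
      (Nat.pow_le_pow_right three_pos (B'.le_add_left B))⟩,
    fun _ => ⟨(w _ le_rfl).2, (w' _ le_rfl).2⟩⟩

end Vale.Agent.P014Y.Mu
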