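import Vale.Agent.P014U.Mu.Sah

/-! # P014Y, block MU: independent cocycles (group theory) -/

set_option autoImplicit false
set_option linter.all false

open Matrix

namespace Vale.Agent.P014Y.Mu.Cv

open Vale.Agent.P014U.Mu.Sa

variable {p : ℕ} [Fact p.Prime] {G ι : Type} [Group G]
  {a : ι → G →* Matrix (Fin 2) (Fin 2) (ZMod p)} {z : ι → G → Fin 2 → ZMod p}

theorem inj (b : G →* Matrix (Fin 2) (Fin 2) (ZMod p)) (g : G) {v : Fin 2 → ZMod p}
    (h : b g *ᵥ v = 0) : v = 0 := by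
  have := mv (a := b) g⁻¹ g v
  rwa [inv_mul_cancel, map_one, one_mulVec, h, mulVec_zero] at this

/-- the values on a subgroup which acts trivially -/
def vl (hz : ∀ i, Z1 (a i) (z i)) (U : Subgroup G) : AddSubgroup (ι → Fin 2 → ZMod p) where
  carrier := {v | ∃ g ∈ U, (∀ i, a i g = 1) ∧ ∀ i, z i g = v i}
  add_mem' := by
    rintro v w ⟨g, m, e, f⟩ ⟨h, m', e', f'⟩
    exact ⟨g * h, mul_mem m m', fun i => by rw [map_mul, e, e', mul_one],
      fun i => by rw [hz, e, one_mulVec, f, f']; rfl⟩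
  zero_mem' := ⟨1, one_mem _, fun i => map_one _, fun i => (hz i).one⟩
  neg_mem' := by
    rintro v ⟨g, m, e, f⟩
    have k i : a i g⁻¹ = 1 := by rw [← mul_one (a i g⁻¹), ← e i, ← map_mul, inv_mul_cancel, map_one, e]
    refine ⟨g⁻¹, inv_mem m, k, fun i => ?_⟩
    have := hz i g⁻¹ g
    rw [inv_mul_cancel, (hz i).one, k, one_mulVec, f] at this
    exact eq_neg_of_add_eq_zero_left this.symm

theorem vl_st (hz : ∀ i, Z1 (a i) (z i)) {U : Subgroup G} (n : U.Normal) (g : G) {v}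
    (m : v ∈ vl hz U) : (fun i => a i g *ᵥ v i) ∈ vl hz U := by
  obtain ⟨h, m, e, f⟩ := m
  exact ⟨g * h * g⁻¹, n.conj_mem h m g, fun i => by
    rw [map_mul, map_mul, e, mul_one, ← map_mul, mul_inv_cancel, map_one],
    fun i => by rw [(hz i).cj (e i), f]⟩

/-- **independence of the classes of different modules** -/
theorem sep [Finite ι] (p2 : p ≠ 2) (hz : ∀ i, Z1 (a i) (z i)) (nb : ∀ i, ¬ B1 (a i) (z i))
    (ir : ∀ i, Irr (a i))
    (df : ∀ i j, i ≠ j → ∃ g, (a i g).det = (a j g).det ∧ (a i g).trace ≠ (a j g).trace)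
    {U : Subgroup G} (n : U.Normal) {c : G} (hc : c ∈ U) (e : ∀ i, a i c = -1) :
    vl hz U = ⊤ := by
  classical
  have := Fintype.ofFinite ι
  have k i (s : Finset ι) : ∃ v ∈ vl hz U, v i ≠ 0 ∧ ∀ j ∈ s, j ≠ i → v j = 0 := by
    induction s using Finset.induction_on with
    | empty =>
      by_contra! k
      refine nb i (sah0 (hz i) (z := c) (s := -1) (by simp [e]) (neg_ne p2) fun g => ?_)
      by_contra f
      refine (k _ ⟨(g * c)⁻¹ * (c * g), ?_, fun j => ?_, fun _ => rfl⟩ f).elim (by simp)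
      · rw [_root_.mul_inv_rev, mul_assoc, ← mul_assoc g⁻¹]
        exact mul_mem (inv_mem hc) (by simpa using n.conj_mem c hc g⁻¹)
      · rw [map_mul, show a j (c * g) = a j (g * c) by simp [e], ← map_mul, inv_mul_cancel, map_one]
    | insert j s _ ih =>
      obtain ⟨v, m, v0, h⟩ := ih
      by_cases ji : j = i
      · exact ⟨v, m, v0, Finset.forall_mem_insert _ _ _ |>.2 ⟨fun q => (q ji).elim, h⟩⟩
      obtain ⟨g, d, t⟩ := df j i ji
      refine ⟨_, add_mem (sub_mem (vl_st hz n g (vl_st hz n g m)) (ZMod.smul_mem (vl_st hz n g m)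
        (a j g).trace)) (ZMod.smul_mem m (a j g).det), fun q => v0 (inj (a i) g ?_),
        Finset.forall_mem_insert _ _ _ |>.2 ⟨fun _ => ?_, fun l ml q => by simp [h l ml q]⟩⟩
      · simp only [Pi.add_apply, Pi.sub_apply, Pi.smul_apply, mulVec_mulVec, ch2, sub_mulVec,
          smul_mulVec, one_mulVec, d] at q
        exact (smul_eq_zero.1 (show ((a i g).trace - (a j g).trace) • a i g *ᵥ v i = 0 by
          rw [← q, sub_smul]; abel)).resolve_left (sub_ne_zero.2 t.symm)
      · simp only [Pi.add_apply, Pi.sub_apply, Pi.smul_apply, mulVec_mulVec, ch2, sub_mulVec,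
          smul_mulVec, one_mulVec]
        abel
  refine top_unique fun w _ => ?_
  rw [← Finset.univ_sum_single w]
  refine sum_mem fun i _ => ?_
  obtain ⟨v, m, v0, h⟩ := k i Finset.univ
  have q := (ir i).top (W := (vl hz U).comap (AddMonoidHom.single (fun _ => Fin 2 → ZMod p) i))
    (fun g x mx => by
      have := vl_st hz n g mx
      refine (congrArg (· ∈ vl hz U) (funext fun j => ?_)).mp this
      by_cases ji : j = i
      · subst ji; simp
      · simp [ji]) (v := v i) (by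
      refine (congrArg (· ∈ vl hz U) (funext fun j => ?_)).mp m
      by_cases ji : j = i
      · subst ji; simp
      · simp [ji, h j (Finset.mem_univ _) ji]) v0
  exact q.ge (AddSubgroup.mem_top (w i))

/-- all values are taken in every coset -/
theorem coset (hz : ∀ i, Z1 (a i) (z i)) {U : Subgroup G} (t : vl hz U = ⊤) (u : G)
    (y : ι → Fin 2 → ZMod p) : ∃ g ∈ U, (∀ i, a i g = 1) ∧ ∀ i, z i (u * g) = y i := by
  obtain ⟨g, m, e, f⟩ : (fun i => a i u⁻¹ *ᵥ (y i - z i u)) ∈ vl hz U := t ▸ trivial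
  exact ⟨g, m, e, fun i => by
    rw [hz, f, ← mv, mul_inv_cancel, map_one, one_mulVec, add_sub_cancel]⟩

variable {b : G →* Matrix (Fin 2) (Fin 2) (ZMod p)} {x : G → Fin 2 → ZMod p}

/-- the value at a conjugate -/
theorem cj_val (h : Z1 b x) {g s : G} (e : ∃ v, b (s * g * s⁻¹) *ᵥ v - v = x (s * g * s⁻¹)) :
    ∃ v, b g *ᵥ v - v = x g := by
  obtain ⟨v, e⟩ := e
  have k := h (s * g * s⁻¹) s
  rw [inv_mul_cancel_right, h, ← e] at k
  refine ⟨b s⁻¹ *ᵥ (v + x s), sub_eq_zero.1 (inj b s ?_)⟩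
  rw [mulVec_sub, mulVec_sub, ← mv, ← mv, ← mv, mul_inv_cancel, map_one, one_mulVec, mulVec_add]
  linear_combination (exp := 1) -k

/-- a value which is not the value of a coboundary -/
theorem ex_out {A : Matrix (Fin 2) (Fin 2) (ZMod p)} (h : (A - 1) ^ 2 = 0) :
    ∃ y, ∀ v, A *ᵥ v - v ≠ y := by
  by_contra! k
  have q (y : Fin 2 → ZMod p) : A *ᵥ y - y = 0 := by
    obtain ⟨v, rfl⟩ := k y
    simpa [pow_two, sub_mulVec, mulVec_sub, ← mulVec_mulVec] using congrArg (· *ᵥ v) h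
  obtain ⟨v, e⟩ := k 1
  exact one_ne_zero (e.symm.trans (q v))

end Vale.Agent.P014Y.Mu.Cv
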