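import Vale.Agent.P014Y.Mu.St0
import Vale.Agent.P014Y.Mu.Cv0
import Vale.Agent.P014U.Mu.Chb
import Vale.Agent.P014U.X4F.En.Big
import Vale.Agent.P004R.Twr0

/-! # P014Y, block MU: the supply of primes for a family of planes -/

set_option autoImplicit false
set_option linter.all false

noncomputable section

namespace Vale.Agent.P014Y.Mu.Cv

open NumberField Matrix
open Vale.Agent.P022 (Qb GQ)
open Vale.Agent.P022E.GW (Ov Fb)
open Vale.Agent.P022K.G2 (In Lv)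
open Vale.Agent.P014U
open L2 (W M2)
open X4S (Pl Rp Rep ep)
open X4F.En (Big Gq)
open P014U.Mu.Sa (Z1 B1 Irr)
open P014T.Dr (Hm Hm_le)

variable [Pp]

theorem z_pp {a : GQ →* M2} {z : X} (h : Z1 a z) {k : GQ} (e : a k = 1) (i : ℕ) :
    z (k ^ (pp * i)) = 0 := by
  have q (n : ℕ) : z (k ^ n) = (n : F) • z k := by
    induction n with
    | zero => simpa using h.one
    | succ n ih => rw [pow_succ', h, ih, e, one_mulVec, Nat.cast_succ, add_smul, one_smul, add_comm]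
  rw [q]; simp

theorem ex_fr {O : Subgroup GQ} (o : IsOpen (O : Set GQ)) (g : GQ) (T : Finset ℕ) :
    ∃ q : ℕ, q.Prime ∧ q ∉ T ∧ ∃ v ∈ O, P022.IsFrob q (g * v) := by
  obtain ⟨q, φ, a, b, c, d⟩ := P022K.Cheb.exists_fr (g := g)
    (o.preimage (continuous_mul_left g⁻¹)) (by simp [one_mem]) T
  exact ⟨q, a, b, g⁻¹ * φ, d, by rwa [mul_inv_cancel_left]⟩

/-- **the supply of primes**: the Frobenius element is put into a given coset -/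
theorem supply {ι : Type} [Finite ι] {a : ι → GQ →* M2} (pl : Pl) {S S₀ : Finset ℕ} {r : Rp}
    (h : ∀ i, Rs (a i) S) (ir : ∀ i, Irr (a i))
    (df : ∀ i j, i ≠ j → ∃ g, (a i g).trace ≠ (a j g).trace) (hr : Rep r S₀)
    (hd : ∀ g ∈ Hm pp, ‖ep r g - 1‖ ≤ 1 / pp) {k : GQ} (bk : Big r k) (k1 : ∀ i, a i k = 1) : ∃ m, ∀ (n : ℕ) (U : Subgroup GQ) (E : Finset ℕ),
    U.Normal → IsOpen (U : Set GQ) → In E ⊆ U → U ≤ Hm (pp ^ (n + 1)) → k ∈ U → (∃ c ∈ U, ∀ i, a i c = -1) →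
    ∀ u ∈ Hm (pp ^ (n + 1)), (∀ i, (a i u - 1) ^ 2 = 0) → Sp a pl fun q => q.Prime ∧ q ∉ E ∧
      q ∉ S ∧ q ∉ S₀ ∧ q % pp ^ (n + 1) = 1 ∧ Gq r m (pl.σ q) ∧
      ∃ s, ∃ w ∈ U, (∀ i, a i w = 1) ∧ pl.σ q = s * (u * w) * s⁻¹ := by
  classical
  obtain ⟨m, hm⟩ := bk.gq hr pp_ne
  refine ⟨m, fun n U E nU oU iU le hk ⟨c, hc, ec⟩ u hu uu z T hz => ?_⟩
  have co i : Z1 (a i) (z i) := fun g g' => (hz i).1.1 g trivial g' trivial
  have t := sep pp_ne_two co (fun i ⟨v, e⟩ => (hz i).2 ⟨v, fun g _ => e g⟩) ir (fun i j n =>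
    (df i j n).imp fun g e => ⟨(congrFun (h i).det g).trans (congrFun (h j).det g).symm, e⟩)
    nU hc ec
  choose y hy using fun i => ex_out (uu i)
  obtain ⟨g, gU, g1, gz⟩ := coset co t u y
  choose V lV hV using fun i => (hz i).1.2.2
  have m1 : u * g ∈ Hm (pp ^ (n + 1)) := mul_mem hu (le gU)
  obtain ⟨j, -, hj⟩ := hm (u * g) (hd _ (Hm_le (dvd_pow_self _ n.succ_ne_zero) m1))
  have kU := pow_mem hk (pp * j)
  have ka i : a i (k ^ (pp * j)) = 1 := by rw [map_pow, k1, one_pow]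
  have kz i := z_pp (co i) (k1 i) j
  generalize k ^ (pp * j) = κ at *
  have oV : IsOpen ((⨅ i, (a i).ker ⊓ V i : Subgroup GQ) : Set GQ) := by
    rw [Subgroup.coe_iInf]
    exact isOpen_iInter_of_finite fun i => (h i).opn.inter (lV i).opn
  obtain ⟨q, hq, qT, v, ⟨⟨b1, b2⟩, b3⟩, fr⟩ := ex_fr
    (O := U ⊓ hr.Kn (m + 1) ⊓ ⨅ i, (a i).ker ⊓ V i) ((oU.inter (hr.Kn_open _)).inter oV)
    (u * g * κ) (E ∪ S ∪ S₀ ∪ T)
  simp only [Finset.mem_union, not_or] at qT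
  obtain ⟨⟨⟨qE, qS⟩, q0⟩, qT⟩ := qT
  have b4 := Subgroup.mem_iInf.1 b3
  have ov := pl.ov q hq
  obtain ⟨x, s, hs, e⟩ := P004R.Wr.fb_cj ov (pl.fb q hq) fr
  have iE : s ∈ U := iU ⟨q, qE, _, ov, hs⟩
  have iS i : a i s = 1 := (h i).unr s ⟨q, qS, _, ov, hs⟩
  have e2 : pl.σ q = x⁻¹ * (u * (g * κ * v * ((u * g * κ * v)⁻¹ * (x * s⁻¹ * x⁻¹) *
      (u * g * κ * v)))) * x⁻¹⁻¹ := by
    rw [← mul_inv_cancel_left s⁻¹ (pl.σ q), inv_inv, show s * pl.σ q = x⁻¹ * (u * g * κ * v) * x by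
      rw [e]; group]
    group
  have av i : a i v = 1 := (b4 i).1
  have si i : a i s⁻¹ = 1 := (a i).mem_ker.1 (inv_mem (iS i))
  have wU := nU.conj_mem' _ (nU.conj_mem _ (inv_mem iE) x) (u * g * κ * v)
  have wa i : a i ((u * g * κ * v)⁻¹ * (x * s⁻¹ * x⁻¹) * (u * g * κ * v)) = 1 :=
    (a i).normal_ker.conj_mem' _ ((a i).normal_ker.conj_mem _ (si i) x) _
  obtain ⟨Q, p1, p2, f⟩ := fr
  refine ⟨q, qT, ⟨hq, qE, qS, q0, P014U.Mu.Cb.fb_mod ⟨hq, p1, p2⟩ (hr.ne_two q0) f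
    (mul_mem (mul_mem m1 (le kU)) (le b1)), ?_, x⁻¹, _, mul_mem (mul_mem (mul_mem gU kU) b1) wU,
    fun i => by rw [map_mul, wa, map_mul, map_mul, g1, ka, av]; simp, e2⟩, fun i c => ?_⟩
  · have := (hj.mul hr b2).conj x⁻¹
    rw [e, show x⁻¹ * (x * (s * pl.σ q) * x⁻¹) * x⁻¹⁻¹ = s * pl.σ q by group] at this
    rwa [Gq, ep, X4S.mt_mul, hr.mt_inert ov q0 hs, one_mul] at this
  · obtain ⟨w, c⟩ := (mem_Vs _).1 c
    obtain ⟨w', c'⟩ := cj_val (co i) (g := u * g * κ * v) (s := x⁻¹) ⟨w, by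
      rw [e, show x⁻¹ * (x * (s * pl.σ q) * x⁻¹) * x⁻¹⁻¹ = s * pl.σ q by group, co, map_mul, iS,
        one_mul, one_mulVec, hV i s trivial ((lV i).sub ⟨q, qT, _, ov, hs⟩), zero_add, c]⟩
    refine hy i w' ?_
    rwa [co, co, gz, kz, hV i v trivial (b4 i).2, map_mul, map_mul, map_mul, av, ka, g1, mul_one,
      mul_one, mul_one, mulVec_zero, add_zero, add_zero] at c'

end Vale.Agent.P014Y.Mu.Cv
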