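import Vale.Agent.P014Y.Mu.St
import Vale.Agent.P014Y.Mu.Cv1
import Vale.Agent.P014Y.Tp.Rho
import Vale.Agent.P014Y.F.Pt.Pe

/-! # P014Y, block MU, row CHV: the supply of primes for the four planes -/

set_option autoImplicit false
set_option linter.all false

noncomputable section

namespace Vale.Agent.P014Y.Mu

open NumberField Matrix
open Vale.Agent.P022 (Qb GQ)
open Vale.Agent.P022D.W (dec)
open Vale.Agent.P022E.GW (Ov Fb)
open Vale.Agent.P022K.G2 (In)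
open Vale.Agent.P014U
open L2 (M2)
open X4S (Pl)
open P014Y.F (Crv Fld)
open Top (Sur Pr)
open P004S (nu)
open P014T.Dr (Hm Hm_open inert_Hm Ha_le)
open Tp (G3)

namespace Cv

theorem rs_mono [Pp] {a : GQ →* M2} {S T : Finset ℕ} (h : Rs a S) (l : S ⊆ T)
    (p : ∀ l ∈ T, l.Prime) : Rs a T :=
  ⟨h.toR0, l h.pm, p, fun g ⟨q, m, k⟩ => h.unr g ⟨q, fun c => m (l c), k⟩⟩

theorem rs_tw [Pp] {a : GQ →* M2} {S : Finset ℕ} {d : ℤ} (h : Rs a S)
    (u : ∀ g ∈ In (S : Set ℕ), nu d g = 0) : Rs (tw d a) S := by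
  have e {g} (k : nu d g = 0) : tw d a g = a g := by
    show (if nu d g = 0 then 1 else -1 : F) • a g = _
    rw [if_pos k, one_smul]
  refine ⟨⟨Subgroup.isOpen_mono (H₁ := a.ker ⊓ P004S.kn d) (fun g m => (e m.2).trans m.1)
    (h.opn.inter (P004S.kn_open d)), h.det ▸ funext fun g => ?_⟩, h.pm, h.pr,
    fun g m => (e (u g m)).trans (h.unr g m)⟩
  show ((if nu d g = 0 then 1 else -1 : F) • a g).det = (a g).det
  split_ifs <;> simp [det_neg]

theorem rs_rb [Pp] (e : Crv) : Rs (rb e) e.S.toFinset :=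
  ⟨⟨Cp.ker_open _, Cp.dt_ab _⟩, List.mem_toFinset.2 e.pm, fun p m => (e.ov p (List.mem_toFinset.1 m)).1,
    fun g ⟨l, m, P, o, i⟩ => by
      show (e.r g).map PadicInt.toZMod = 1
      rw [e.r_inert o (mt List.mem_toFinset.2 m) i]
      exact Matrix.map_one _ (map_zero _) (map_one _)⟩

theorem sd_pr [Pp] {e : Crv} (b : Fld e) : ∀ l ∈ Sd b, l.Prime := fun l m =>
  (Finset.mem_union.1 m).elim ((rs_rb e).pr l) Nat.prime_of_mem_primeFactors

theorem in_le [Pp] {e : Crv} (b : Fld e) : In (Sd b : Set ℕ) ⊆ b.Γ := fun g ⟨l, m, P, o, i⟩ =>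
  b.inert_mem o (e.ne_two fun k => m (Finset.mem_union_left _ (List.mem_toFinset.2 k)))
    (fun d => m (Finset.mem_union_right _ (Nat.mem_primeFactors.2 ⟨o.1, d, b.pos.ne'⟩))) i

theorem sq_of [Pp] {e : Crv} (b : Fld e) {q : ℕ} {P : Ideal (𝓞 Qb)} {φ : GQ} (o : Ov q P)
    (n : q ∉ Sd b) (f : Fb q P φ) (m : φ ∈ b.Γ) : Sq b.Γ q := fun Q o' g k => by
  obtain ⟨t, -, h⟩ := P004S.ex_conj o o'
  obtain ⟨j, s, u, hs, hu, e⟩ := P022D.W.dec_gen o.1 o.2.1 o.2.2 f (h g k) b.Γ b.Γ_open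
  simpa [mul_assoc] using b.Γ_conj (e ▸ mul_mem (mul_mem hu (pow_mem m j))
    (in_le b ⟨q, n, P, o, hs⟩) : t⁻¹ * g * t ∈ b.Γ) t

theorem d1 : ∀ v : Fin 2 → ZMod 3, v ≠ 0 → ∃ M : G3, M.det = 1 ∧ ∀ s : ZMod 3, M *ᵥ v ≠ s • v := by
  decide +kernel

/-- the scalars -/
def sc (x y : ZMod 3) : Fin 4 → ZMod 3 := ![1, x, y, x * y]

theorem d2 : ∀ i j : Fin 4, i ≠ j → ∃ x : ZMod 3, (x = 1 ∨ x = -1) ∧ ∃ M : G3, M.det ≠ 0 ∧
    sc x M.det i * M.trace ≠ sc x M.det j * M.trace := by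
  decide +kernel

theorem d3 : ∀ i, sc 1 1 i = 1 := by decide

variable {e e' : Crv} (b : Fld e)

/-- the sign -/
def ep (g : GQ) : ZMod 3 := if nu (-b.δ') g = 0 then 1 else -1

theorem fr_cj (h : Pr (-3) e e') (i : Fin 4) : ∃ Y : G3, IsUnit Y.det ∧ ∀ g,
    fr e e' b.δ' i g * Y = Y * sc (ep b g) (rb e g).det i • rb e g := by
  obtain ⟨X, u, k⟩ := Tp.Ro.pr h
  fin_cases i
  · exact ⟨1, by simp, fun g => by simp [fr, sc]⟩
  · exact ⟨1, by simp, fun g => by rw [mul_one, one_mul]; rfl⟩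
  · exact ⟨X, u, k⟩
  · refine ⟨X, u, fun g => ?_⟩
    show (ep b g • Tp.rho e' g) * X = X * (ep b g * (rb e g).det) • rb e g
    rw [smul_mul_assoc, k, mul_smul, mul_smul_comm (ep b g)]
    rfl

theorem ex_im (su : Sur e.par.disc) {x : ZMod 3} (hx : x = 1 ∨ x = -1) {M : G3} (d : M.det ≠ 0) :
    ∃ g, ep b g = x ∧ rb e g = M := by
  obtain ⟨g, hg⟩ := su M d
  obtain ⟨y, m, k⟩ := b.onto g
  have q : rb e y = M := (congrArg (·.map PadicInt.toZMod) k).trans hg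
  rcases hx with rfl | rfl
  · exact ⟨y, if_pos ((b.kd.gk _).1 m), q⟩
  · obtain ⟨τ, t, l⟩ := b.ex_ker
    exact ⟨y * τ, if_neg fun c => t ((mul_mem_cancel_left m).1 ((b.kd.gk _).2 c)), by
      rw [map_mul, q, show rb e τ = 1 from Tp.Ro.of e l, mul_one]⟩

theorem ep_one {g : GQ} : ep b g = 1 ↔ g ∈ b.Γ :=
  ⟨fun h => (b.kd.gk _).2 (by_contra fun c => absurd ((if_neg c).symm.trans h) (by decide)),
    fun m => if_pos ((b.kd.gk _).1 m)⟩

theorem ex_cm (su : Sur e.par.disc) {A B C : G3} (a : A.det ≠ 0) (d : B.det ≠ 0)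
    (h : A * B = C * B * A) : ∃ g ∈ b.Γ, g ∈ P014T.Dr.Ha ∧ rb e g = C := by
  obtain ⟨x, x1, rfl⟩ := ex_im b su (.inl rfl) a
  obtain ⟨y, y1, rfl⟩ := ex_im b su (.inl rfl) d
  rw [ep_one] at x1 y1
  refine ⟨_, mul_mem (mul_mem (mul_mem x1 y1) (inv_mem x1)) (inv_mem y1), Pg.comm_Ha x y, ?_⟩
  rw [map_mul, map_mul, map_mul, h, mul_assoc _ (rb e x), ← map_mul, mul_inv_cancel, map_one,
    mul_one, mul_assoc, ← map_mul, mul_inv_cancel, map_one, mul_one]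

end Cv

open Cv in
/-- **row CHV** -/
theorem chv : CHV := fun e e' b pl pr su => by
  classical
  choose Y u hY using fr_cj b pr
  have one i {g} (m : g ∈ b.Γ) (d : (rb e g).det = 1) : fr e e' b.δ' i g * Y i = Y i * rb e g := by
    rw [hY, (ep_one b).2 m, d, d3, one_smul]
  have can i {A B : G3} (h : A * Y i = B * Y i) : A = B := by
    rw [← mul_nonsing_inv_cancel_right (Y i) A (u i), h, mul_nonsing_inv_cancel_right _ _ (u i)]
  have tr i g : (fr e e' b.δ' i g).trace = sc (ep b g) (rb e g).det i * (rb e g).trace := by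
    rw [← mul_nonsing_inv_cancel_right (Y i) (fr e e' b.δ' i g) (u i), hY, trace_mul_cycle,
      nonsing_inv_mul _ (u i), one_mul, trace_smul, smul_eq_mul]
  have nu0 : ∀ g ∈ In (Sd b : Set ℕ), nu (-b.δ') g = 0 := fun g m => (b.kd.gk _).1 (in_le b m)
  have r1 := rs_mono (rs_rb e) Finset.subset_union_left (sd_pr b)
  have r2 := rs_mono (pr.S ▸ rs_rb e') Finset.subset_union_left (sd_pr b)
  have rs i : Rs (fr e e' b.δ' i) (Sd b) := by
    fin_cases i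
    exacts [r1, rs_tw r1 nu0, r2, rs_tw r2 nu0]
  obtain ⟨k, k1, k2, k3⟩ := b.ex_big
  have k4 : rb e k = 1 := e.tr_one.1 (k2.tr.mono (by norm_num))
  obtain ⟨m, hm⟩ := supply pl rs (fun i v n => by
      obtain ⟨M, d, hM⟩ := d1 ((Y i)⁻¹ *ᵥ v) fun c => n (by
        rw [← one_mulVec v, ← mul_nonsing_inv _ (u i), ← mulVec_mulVec, c, mulVec_zero])
      obtain ⟨g, g1, rfl⟩ := ex_im b su (.inl rfl) (d ▸ one_ne_zero : M.det ≠ 0)
      refine ⟨g, fun s c => hM s ?_⟩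
      rw [← mulVec_smul, ← c, mulVec_mulVec, mulVec_mulVec,
        ← mul_nonsing_inv_cancel_right (Y i) (fr e e' b.δ' i g) (u i), one i ((ep_one b).1 g1) d,
        mul_assoc, nonsing_inv_mul_cancel_left _ _ (u i)])
    (fun i j n => by
      obtain ⟨x, hx, M, d, t⟩ := d2 i j n
      obtain ⟨g, rfl, rfl⟩ := ex_im b su hx d
      exact ⟨g, by rwa [tr, tr]⟩) e.rep (fun g m => by
      have := (PadicInt.norm_lt_one_iff_dvd _).2 ((dvd_pow_self _ one_ne_zero).trans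
        (Pg.Hm_two.1 (pow_one pp ▸ m : g ∈ Hm (pp ^ 1))))
      rw [← X4S.lt_one_iff, show X4S.ep e.rp g = ((e.r g).det : ℤ_[pp]) from
        (RingHom.map_det PadicInt.Coe.ringHom _).symm, Crv.r, X4M.TE.det_cyc]
      exact this) k2 fun i => can i (by rw [one i k1 (by rw [k4, det_one]), k4, mul_one, one_mul])
  obtain ⟨c, c1, c2, c3⟩ := ex_cm b su (A := !![0, 1; -1, 0]) (B := !![1, 1; 1, -1]) (C := -1)
    (by decide +kernel) (by decide +kernel) (by decide +kernel)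
  obtain ⟨w, w1, w2, w3⟩ := ex_cm b su (A := !![-1, 0; 0, 1]) (B := !![1, 1; 0, 1])
    (C := !![1, 1; 0, 1]) (by decide +kernel) (by decide +kernel) (by decide +kernel)
  have w4 i := one i w1 (by rw [w3]; decide +kernel)
  have w5 i : (fr e e' b.δ' i w - 1) ^ 2 = 0 := can i (by
    have q : (fr e e' b.δ' i w - 1) * Y i = Y i * (rb e w - 1) := by
      rw [sub_mul, w4, one_mul, mul_sub_one]
    rw [pow_two, mul_assoc, q, ← mul_assoc, q, mul_assoc, w3, zero_mul]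
    exact (congrArg _ (by decide +kernel)).trans (mul_zero _))
  have w6 i : fr e e' b.δ' i w ≠ 1 := fun c => by
    have := congrArg ((Y i)⁻¹ * ·) (w4 i)
    simp only [c, one_mul, nonsing_inv_mul _ (u i), nonsing_inv_mul_cancel_left _ _ (u i), w3] at this
    exact absurd this (by decide +kernel)
  refine ⟨2 * m + 1, fun n E z T hz => ?_⟩
  have p0 := pow_ne_zero (n + 1) pp_ne
  obtain ⟨q, qT, ⟨hq, qE, qS, q0, md, gq, s, v, v1, v2, ev⟩, h⟩ := hm n (b.Γ ⊓ Hm (pp ^ (n + 1)))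
    (E ∪ Sd b) ⟨fun g m t => ⟨b.Γ_conj m.1 t, (P014T.Dr.Hm_normal _).conj_mem g m.2 t⟩⟩
    (b.Γ_open.inter (Hm_open p0)) (fun g ⟨l, m, P, o, i⟩ =>
      have m' : l ∉ Sd b := fun c => m (Finset.mem_union_right _ c)
      ⟨in_le b ⟨l, m', P, o, i⟩, inert_Hm o (Dr.nd_two o (fun c => m' (c ▸ r1.pm)) _) i⟩)
    inf_le_right ⟨k1, fun y hy => k3 _ y (.inl hy)⟩
    ⟨c, ⟨c1, Ha_le p0 c2⟩, fun i => can i (by
      rw [one i c1 (by rw [c3]; decide +kernel), c3, mul_neg, neg_mul, mul_one, one_mul])⟩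
    w (Ha_le p0 w2) w5 z T hz
  have ov := pl.ov q hq
  have md' : q ≡ 1 [MOD pp ^ (n + 1)] :=
    md.trans (Nat.mod_eq_of_lt (Nat.one_lt_pow n.succ_ne_zero one_lt)).symm
  have cj i : fr e e' b.δ' i (pl.σ q) - 1 =
      fr e e' b.δ' i s * (fr e e' b.δ' i w - 1) * fr e e' b.δ' i s⁻¹ := by
    rw [ev, map_mul, map_mul, map_mul, v2, mul_one, mul_sub, sub_mul, mul_one, ← map_mul _ s s⁻¹,
      mul_inv_cancel, map_one]
  have si i : fr e e' b.δ' i s⁻¹ * fr e e' b.δ' i s = 1 := by rw [← map_mul, inv_mul_cancel, map_one]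
  refine ⟨q, qT, ⟨⟨hq, fun c => qE (Finset.mem_union_left _ c),
    md'.of_dvd (pow_dvd_pow 3 n.le_succ), sq_of b ov qS (pl.fb q hq)
      (ev ▸ b.Γ_conj (mul_mem w1 v1.1) s)⟩, fun i => ⟨hq, qS,
    md'.of_dvd (dvd_pow_self _ n.succ_ne_zero), fun c => w6 i ?_, ?_⟩,
    F.Pt.gq_nd ov (mt List.mem_toFinset.2 q0) (pl.fb q hq) gq (Nat.lt_succ_self _)⟩, h⟩
  · have := congrArg (fr e e' b.δ' i s⁻¹ * · * fr e e' b.δ' i s) (cj i)
    simp only [c, sub_self, mul_zero, zero_mul, ← mul_assoc, si, one_mul] at this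
    rwa [mul_assoc, si, mul_one, eq_comm, sub_eq_zero] at this
  · rw [cj, pow_two, mul_assoc, mul_assoc, ← mul_assoc (fr e e' b.δ' i s⁻¹),
      ← mul_assoc (fr e e' b.δ' i s⁻¹), si, one_mul, ← mul_assoc (_ - 1), ← pow_two, w5, zero_mul,
      mul_zero]

end Vale.Agent.P014Y.Mu
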