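import Vale.Agent.P014Y.Mu.Qs
import Vale.Agent.P014U.L2.Gp
import Vale.Agent.P014U.X4S.St

/-! # P014Y, block MU: residual Selmer groups over `ℚ` (words and rows) -/

set_option autoImplicit false
set_option linter.all false

noncomputable section

namespace Vale.Agent.P014Y.Mu

open NumberField Matrix Module
open scoped Classical
open Vale.Agent.P022 (Qb GQ)
open Vale.Agent.P022.H443 (inP)
open Vale.Agent.P027M.S (Inert)
open Vale.Agent.P022D.W (dec)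
open Vale.Agent.P022E.GW (Ov Fb)
open Vale.Agent.P022K.G2 (In Lv Z1 B1 Z2 B2 H0 ch om)
open Vale.Agent.P014U
open L2 (W M2 rh dt cu BB)
open X4S (Pl)
open P004S (wp nu)

variable [Pp]

abbrev F : Type := ZMod pp

abbrev X : Type := GQ → W

/-- a plane with cyclotomic determinant -/
structure R0 (a : GQ →* M2) : Prop where
  opn : IsOpen (a.ker : Set GQ)
  det : dt a = om pp F

/-- unramified outside `S` -/
structure Rs (a : GQ →* M2) (S : Finset ℕ) : Prop extends R0 a where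
  pm : pp ∈ S
  pr : ∀ l ∈ S, l.Prime
  unr : ∀ g ∈ In (S : Set ℕ), a g = 1

/-- no fixed vector -/
def Nf (a : GQ →* M2) (D : Subgroup GQ) : Prop := ∀ v : W, (∀ g ∈ D, a g *ᵥ v = v) → v = 0

/-- the twist by the character of `√d` -/
def tw (d : ℤ) (a : GQ →* M2) : GQ →* M2 where
  toFun g := (if nu d g = 0 then 1 else -1 : F) • a g
  map_one' := by rw [P004S.nu_one, if_pos rfl, one_smul, map_one]
  map_mul' g h := by
    rw [P004S.nu_mul, map_mul, smul_mul_smul_comm]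
    rcases P004S.z2 (nu d g) with p | p <;> rcases P004S.z2 (nu d h) with q | q <;> rw [p, q] <;>
      simp [CharTwo.add_self_eq_zero]

section

variable (a : GQ →* M2)

/-- the functions which are locally constant cocycles on `D` -/
def Cl (D : Subgroup GQ) : Submodule F X where
  carrier := {z | (∀ g ∈ D, ∀ h ∈ D, z (g * h) = z g + a g *ᵥ z h) ∧
    ∃ U, Lv ∅ U ∧ ∀ w ∈ D, w ∈ U → z w = 0}
  add_mem' := by
    rintro x y ⟨a1, U, o, a2⟩ ⟨b1, V, o', b2⟩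
    exact ⟨fun g m h n => by simp only [Pi.add_apply, a1 g m h n, b1 g m h n, mulVec_add]; abel,
      U ⊓ V, o.inf o', fun w m n => by rw [Pi.add_apply, a2 w m n.1, b2 w m n.2, add_zero]⟩
  zero_mem' := ⟨fun _ _ _ _ => by simp, ⊤, Lv.top _, fun _ _ _ => rfl⟩
  smul_mem' := by
    rintro c x ⟨a1, U, o, a2⟩
    exact ⟨fun g m h n => by simp only [Pi.smul_apply, a1 g m h n, mulVec_smul, smul_add],
      U, o, fun w m n => by rw [Pi.smul_apply, a2 w m n, smul_zero]⟩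

/-- the functions which are coboundaries on `D` -/
abbrev Bl (D : Subgroup GQ) : Submodule F X := B1 D (rh a)

/-- unramified classes -/
def Ur (P : Ideal (𝓞 Qb)) : Submodule F X := Cl a (dec P) ⊓ Bl a (inP P)

/-- the orthogonal for the cup product -/
def Ot (D : Subgroup GQ) (L : Submodule F X) : Submodule F X where
  carrier := {y | y ∈ Cl a D ∧ ∀ x ∈ L, cu a x y ∈ BB a D}
  add_mem' {y z} p q := ⟨add_mem p.1 q.1, fun x m => by
    convert add_mem (p.2 x m) (q.2 x m) using 1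
    funext g h
    simp only [cu, Pi.add_apply, mulVec_add, P004S.wp_add_right]⟩
  zero_mem' := ⟨zero_mem _, fun x _ => by
    convert zero_mem (BB a D) using 1
    funext g h
    simp only [cu, Pi.zero_apply, mulVec_zero, P004S.wp_zero_right]⟩
  smul_mem' c y p := ⟨Submodule.smul_mem _ c p.1, fun x m => by
    convert Submodule.smul_mem _ c (p.2 x m) using 1
    funext g h
    simp only [cu, Pi.smul_apply, mulVec_smul, P004S.wp_smul_right, smul_eq_mul]⟩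

/-- the value at `σ` is the value of a coboundary -/
def Vs (σ : GQ) : Submodule F X := (LinearMap.range (a σ - 1).mulVecLin).comap (LinearMap.proj σ)

/-- transverse classes -/
def Rq (P : Ideal (𝓞 Qb)) (σ : GQ) : Submodule F X := Cl a (dec P) ⊓ Vs a σ

/-- global cocycles, unramified outside `T` -/
abbrev Zg (T : Finset ℕ) : Submodule F X := Z1 (In (T : Set ℕ)) ⊤ (rh a)

/-- the dimension of the invariants -/
def hz (D : Subgroup GQ) : ℕ := finrank F (H0 D (rh a) fun _ => 1)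

/-- the local pairing -/
def bt (f : (GQ → GQ → F) →ₗ[F] F) : Bf F X := LinearMap.mk₂ F (fun x y => f (cu a x y))
  (fun x x' y => by
    rw [← map_add]; congr 1; funext g h; simp only [cu, Pi.add_apply, P004S.wp_add_left])
  (fun c x y => by
    rw [← map_smul]; congr 1; funext g h
    simp only [cu, Pi.smul_apply, P004S.wp_smul_left, smul_eq_mul])
  (fun x y y' => by
    rw [← map_add]; congr 1; funext g h
    simp only [cu, Pi.add_apply, mulVec_add, P004S.wp_add_right])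
  (fun c x y => by
    rw [← map_smul]; congr 1; funext g h
    simp only [cu, Pi.smul_apply, mulVec_smul, P004S.wp_smul_right, smul_eq_mul])

theorem bt_apply (f : (GQ → GQ → F) →ₗ[F] F) (x y : X) : bt a f x y = f (cu a x y) := rfl

theorem mem_Vs {σ : GQ} {z : X} : z ∈ Vs a σ ↔ ∃ v, a σ *ᵥ v - v = z σ :=
  exists_congr fun v => by rw [mulVecLin_apply, sub_mulVec, one_mulVec]; rfl

variable (pl : Pl)

/-- unramified, or transverse at `Q` -/
def Lc (Q : Finset ℕ) (l : ℕ) : Submodule F X :=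
  if l ∈ Q then Rq a (pl.P l) (pl.σ l) else Ur a (pl.P l)

/-- no condition at `pp` -/
def Sb (S Q : Finset ℕ) : Submodule F X := sl (Zg a (S ∪ Q)) ((S ∪ Q).erase pp) (Lc a pl Q)

/-- unramified at `pp` -/
def St (S Q : Finset ℕ) : Submodule F X := Sb a pl S Q ⊓ Ur a (pl.P pp)

/-- orthogonal to the unramified classes at `pp` -/
def Rl (S Q : Finset ℕ) : Submodule F X := Sb a pl S Q ⊓ Ot a (dec (pl.P pp)) (Ur a (pl.P pp))

/-- primes with a unipotent Frobenius element -/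
structure Up (S : Finset ℕ) (q : ℕ) : Prop where
  pr : q.Prime
  out : q ∉ S
  md : q % pp = 1
  ne : a (pl.σ q) ≠ 1
  un : (a (pl.σ q) - 1) ^ 2 = 0

/-- the conditions `L` at `S`, unramified at the other primes of `S'` -/
def Sf (S S' : Finset ℕ) (L : ℕ → Submodule F X) : Submodule F X :=
  sl (Zg a S') S' fun l => if l ∈ S then L l else Ur a (pl.P l)

end

/-- an invariant at one place -/
structure Iv1 (P : Ideal (𝓞 Qb)) (f : (GQ → GQ → F) →ₗ[F] F) : Prop where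
  b2 : ∀ z ∈ B2 ∅ (dec P) (ch (om pp F)), f z = 0
  nd : ∀ z ∈ Z2 ∅ (dec P) (ch (om pp F)), f z = 0 → z ∈ B2 ∅ (dec P) (ch (om pp F))

/-- invariants with the reciprocity law -/
structure Inv (pl : Pl) (f : ℕ → (GQ → GQ → F) →ₗ[F] F) : Prop where
  loc : ∀ l : ℕ, l.Prime → Iv1 (pl.P l) (f l)
  rc : ∀ T : Finset ℕ, (∀ l ∈ T, l.Prime) → ∀ z ∈ Z2 ∅ ⊤ (ch (om pp F)),
    (∀ l : ℕ, l.Prime → l ∉ T → z ∈ B2 ∅ (dec (pl.P l)) (ch (om pp F))) → ∑ l ∈ T, f l z = 0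

/-- enough primes with the property `G` -/
def Sp {ι : Type} (a : ι → GQ →* M2) (pl : Pl) (G : ℕ → Prop) : Prop :=
  ∀ (z : ι → X) (T : Finset ℕ), (∀ i, z i ∈ Zg (a i) T ∧ z i ∉ Bl (a i) ⊤) →
    ∃ q ∉ T, G q ∧ ∀ i, z i ∉ Vs (a i) (pl.σ q)

/-- **the parity input** -/
def Pa (a a' : GQ →* M2) (pl : Pl) (S S' : Finset ℕ) : Prop := ∃ L : ℕ → Submodule F X,
  (∀ l ∈ S, Ot a (dec (pl.P l)) (L l) = L l) ∧
    Odd (finrank F (Sf a pl S S' L) + finrank F (Sf a' pl S S' L))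

/-- **killed**, in words over `ℚ` -/
def Kl (a a' : GQ →* M2) (pl : Pl) (S Q : Finset ℕ) : Prop :=
  ∀ x ∈ Rl a pl S Q, ∀ y ∈ Rl a' pl S Q, x + y ∈ Ur a (pl.P pp) → x ∈ Bl a ⊤ ∧ y ∈ Bl a' ⊤

/-- **killed**, in words over the quadratic field -/
def Kk (a : GQ →* M2) (Γ : Subgroup GQ) (S Q : Finset ℕ) (P₀ : Ideal (𝓞 Qb)) : Prop :=
  ∀ y ∈ Cl a Γ, (∀ g ∈ Γ, g ∈ In ((S ∪ Q : Finset ℕ) : Set ℕ) → y g = 0) →
    (∀ l ∈ S, l ≠ pp → ∀ P, Ov l P → y ∈ Ur a P) →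
    (∀ q ∈ Q, ∀ P, Ov q P → ∃ φ, Fb q P φ ∧ y ∈ Vs a φ) → y ∈ Ur a P₀ →
    (∀ P, Ov pp P → y ∈ Ot a (dec P) (Ur a P)) → y ∈ Bl a Γ

/-- all places above `l` split in the field of `Γ` -/
def Sq (Γ : Subgroup GQ) (l : ℕ) : Prop := ∀ P, Ov l P → dec P ≤ Γ

/-! ### local rows -/

def LOCQ : Prop := ∀ a l P f, R0 a → Ov l P → Iv1 P f →
  Lq (Cl a (dec P)) (Bl a (dec P)) (bt a f) ∧
    ∀ L ≤ Cl a (dec P), ot (Cl a (dec P)) (bt a f) L = Ot a (dec P) L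

def DIM : Prop := ∀ a l P, R0 a → Ov l P →
  dq (Cl a (dec P)) (Bl a (dec P)) = 2 * hz a (dec P) + if l = pp then 2 else 0

def URL : Prop := ∀ a l P, R0 a → Ov l P → Bl a (dec P) ≤ Ur a P ∧
  Ur a P ≤ Ot a (dec P) (Ur a P) ∧ dq (Ur a P) (Bl a (dec P)) = hz a (dec P)

def TRL : Prop := ∀ a pl S q, Rs a S → Up a pl S q → hz a (dec (pl.P q)) = 1 ∧
  Bl a (dec (pl.P q)) ≤ Rq a (pl.P q) (pl.σ q) ∧
  Ot a (dec (pl.P q)) (Rq a (pl.P q) (pl.σ q)) = Rq a (pl.P q) (pl.σ q) ∧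
  Ur a (pl.P q) ⊓ Vs a (pl.σ q) ≤ Bl a (dec (pl.P q)) ∧
  ∀ z ∈ Cl a (dec (pl.P q)), ∀ φ, Fb q (pl.P q) φ → z ∈ Vs a φ → z ∈ Vs a (pl.σ q)

/-! ### global rows -/

def INV : Prop := ∀ pl, ∃ f, Inv pl f

def UNQ : Prop := ∀ a (pl : Pl) S T, Rs a S → S ⊆ T → (∀ l ∈ T, l.Prime) →
  sl (Zg a T) (T \ S) (fun l => Ur a (pl.P l)) = Zg a S

def RECQ : Prop := ∀ a pl T f, Rs a T → Inv pl f → Q0 T (fun l => Cl a (dec (pl.P l)))
  (fun l => Bl a (dec (pl.P l))) (fun l => bt a (f l)) (Zg a T)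

/-- the count for a large set -/
def BIG : Prop := ∀ a (pl : Pl) S, Rs a S → ∃ T, S ⊆ T ∧ Rs a T ∧
  ∑ l ∈ T, hz a (dec (pl.P l)) + 1 + finrank F (sl (Zg a T) T fun l => Bl a (dec (pl.P l))) ≤
    finrank F (Zg a T)

/-- **duality** -/
def QS : Prop := ∀ a pl T f, Rs a T → Inv pl f → Qs T (fun l => Cl a (dec (pl.P l)))
  (fun l => Bl a (dec (pl.P l))) (fun l => bt a (f l)) (Zg a T)

/-- the two groups differ by a line; the line is Lagrangian -/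
def GWL : Prop := ∀ a pl S Q, Rs a S → (∀ q ∈ Q, Up a pl S q) →
  Module.Finite F (Rl a pl S Q) ∧ Bl a ⊤ ≤ St a pl S Q ∧ St a pl S Q ≤ Rl a pl S Q ∧
  finrank F (Rl a pl S Q) = finrank F (St a pl S Q) + 1 ∧
  Ot a (dec (pl.P pp)) (Ur a (pl.P pp) ⊔ Rl a pl S Q) = Ur a (pl.P pp) ⊔ Rl a pl S Q

/-- one more prime -/
def STEP : Prop := ∀ a pl S Q q, Rs a S → (∀ x ∈ Q, Up a pl S x) → Up a pl S q → q ∉ Q →
  ∀ z ∈ Rl a pl S Q, z ∉ Vs a (pl.σ q) → St a pl S (insert q Q) ≤ St a pl S Q ⊓ Vs a (pl.σ q)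

/-- **killing** -/
def KIL : Prop := ∀ (ι : Type) [Fintype ι] (a : ι → GQ →* M2) pl S, (∀ i, Rs (a i) S) →
  ∃ k : ℕ, ∀ G : ℕ → Prop, (∀ q, G q → ∀ i, Up (a i) pl S q) → Sp a pl G →
    ∃ Q : Finset ℕ, Q.card ≤ k ∧ (∀ q ∈ Q, G q) ∧ ∀ i, St (a i) pl S Q ≤ Bl (a i) ⊤

/-- **the use of parity** -/
def FIN : Prop := ∀ a a' (pl : Pl) (S S' Q : Finset ℕ), Rs a S' → Rs a' S' → S ⊆ S' → pp ∈ S →
  Nf a ⊤ → Nf a' ⊤ → (∀ q ∈ Q, Up a pl S' q) → (∀ l ∈ S ∪ Q, ∀ g ∈ dec (pl.P l), a' g = a g) →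
  Pa a a' pl S S' → St a pl S' Q ≤ Bl a ⊤ → St a' pl S' Q ≤ Bl a' ⊤ → Kl a a' pl S' Q

/-- descent from the quadratic field -/
def DSC : Prop := ∀ a (pl : Pl) (d : ℤ) (Γ : Subgroup GQ) (c : GQ) (S S' Q : Finset ℕ), Rs a S →
  Rs (tw d a) S' → S ⊆ S' → (∀ g, g ∈ Γ ↔ nu d g = 0) → c ∉ Γ → c * c = 1 →
  (∀ q ∈ Q, Up a pl S' q) → (∀ l ∈ S ∪ Q, Sq Γ l) → Kl a (tw d a) pl S' Q → Kk a Γ S Q (pl.P pp)

end Vale.Agent.P014Y.Mu
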