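import Vale.Agent.P014Y.Mu.Inv
import Vale.Agent.P014Y.Mu.St0

/-! # P014Y, block MU: the rows INV, LOCQ, RECQ (helper52) -/

set_option autoImplicit false
set_option linter.all false

noncomputable section

namespace Vale.Agent.P014Y.Mu

open NumberField Matrix Module
open Vale.Agent.P022 (Qb GQ)
open Vale.Agent.P027M.S (Inert)
open Vale.Agent.P022D.W (dec inP_le_dec)
open Vale.Agent.P022E.GW (Ov)
open Vale.Agent.P022K Vale.Agent.P022K.G2 Vale.Agent.P014U Vale.Agent.P014U.L2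
open Vale.Agent.P004S (wp wp_add_left wp_add_right wp_sub_left)

variable [Pp] {l : ℕ} {P : Ideal (𝓞 Qb)} {a : GQ →* M2} {x y : X} {T : Finset ℕ}
  {D : Subgroup GQ} {I : Set GQ} {f : (GQ → GQ → F) →ₗ[F] F}

namespace Lo

theorem ind (h : x ∈ Cl a D) : (D : Set GQ).indicator x ∈ Z1 ∅ D (rh a) :=
  ⟨fun g hg j hj => by
    rw [Set.indicator_of_mem (mul_mem hg hj), Set.indicator_of_mem hg, Set.indicator_of_mem hj,
      h.1 g hg j hj, mulVecLin_apply], fun g hg => Set.indicator_of_notMem hg _,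
    h.2.imp fun W hW => ⟨hW.1, fun w hw m => by rw [Set.indicator_of_mem hw, hW.2 w hw m]⟩⟩

theorem of_z1 {Γ : Subgroup GQ} (h : x ∈ Z1 I Γ (rh a)) (le : D ≤ Γ) : x ∈ Cl a D :=
  ⟨fun g hg j hj => h.1 g (le hg) j (le hj),
    h.2.2.imp fun W hW => ⟨hW.1.mono (Set.empty_subset _), fun w hw => hW.2 w (le hw)⟩⟩

theorem rp (r : R0 a) (D : Subgroup GQ) : Rp ∅ D (rh a) :=
  rp_of ⟨a.ker, lv_of inferInstance r.opn, fun _ _ m => m⟩

theorem b_le (r : R0 a) : Bl a D ≤ Cl a D := fun x ⟨v, hv⟩ =>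
  ⟨fun g hg j hj => by
    simp only [hv g hg, hv j hj, hv _ (mul_mem hg hj), d0_apply, mulVecLin_apply, am, mulVec_sub]
    abel, a.ker, lv_of inferInstance r.opn, fun w hw m => by
    rw [hv w hw, d0_apply, rh_one.2 m, End.one_apply, sub_self]⟩

theorem cu_ind (x y : X) : ∀ g ∈ D, ∀ j ∈ D,
    cu a x y g j = cu a ((D : Set GQ).indicator x) ((D : Set GQ).indicator y) g j :=
  fun g hg j hj => by rw [cu, cu, Set.indicator_of_mem hg, Set.indicator_of_mem hj]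

theorem z2 (r : R0 a) (hx : x ∈ Cl a D) (hy : y ∈ Cl a D) : cu a x y ∈ Z2 ∅ D (ch (om pp F)) :=
  Z2.congr (cu_z2 (rp r D) (ind hx) (ind hy)) (cu_ind x y) fun g _ => by rw [r.det]

theorem bb (r : R0 a) : BB a D = B2 ∅ D (ch (om pp F)) := by rw [BB, r.det]

theorem skew (hx : x ∈ Cl a D) (hy : y ∈ Cl a D) : cu a y x - cu a x y ∈ BB a D := by
  obtain ⟨W₁, l1, w1⟩ := hx.2
  obtain ⟨W₂, l2, w2⟩ := hy.2
  refine ⟨fun g => wp (x g) (y g), ⟨W₁ ⊓ W₂, l1.inf l2, fun g hg w hw m => by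
    simp only [hx.1 g hg w hw, hy.1 g hg w hw, w1 w hw m.1, w2 w hw m.2, mulVec_zero, add_zero]⟩,
    fun g hg h hh => ?_⟩
  simp only [cu, d1_apply, ch_apply, Pi.sub_apply, hx.1 g hg h hh, hy.1 g hg h hh, wp_add_left,
    wp_add_right, aw g, wp_skew (y g)]
  ring

theorem b_cu (hx : x ∈ Bl a D) (hy : y ∈ Cl a D) : cu a x y ∈ BB a D := by
  obtain ⟨v, hv⟩ := hx
  obtain ⟨W₁, l1, w1⟩ := hy.2
  refine ⟨fun g => wp v (y g), ⟨W₁, l1, fun g hg w hw m => by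
    simp only [hy.1 g hg w hw, w1 w hw m, mulVec_zero, add_zero]⟩, fun g hg h hh => ?_⟩
  simp only [cu, d1_apply, ch_apply, hy.1 g hg h hh, hv g hg, d0_apply, mulVecLin_apply,
    wp_add_right, wp_sub_left, aw g]
  ring

theorem cu_b (hx : x ∈ Cl a D) (hy : y ∈ Bl a D) (r : R0 a) : cu a x y ∈ BB a D := by
  simpa using add_mem (skew (b_le r hy) hx) (b_cu hy hx)

theorem bt_iff (r : R0 a) (i : Iv1 P f) (hx : x ∈ Cl a (dec P)) (hy : y ∈ Cl a (dec P)) :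
    bt a f x y = 0 ↔ cu a x y ∈ BB a (dec P) := by
  rw [bb r]
  exact ⟨i.nd _ (z2 r hx hy), i.b2 _⟩

/-- **local duality** -/
theorem dual (r : R0 a) (o : Ov l P) (hy : y ∈ Cl a (dec P))
    (e : ∀ x ∈ Cl a (dec P), cu a x y ∈ BB a (dec P)) : y ∈ Bl a (dec P) :=
  (ld1' o r.det (rp r _) (ind hy) fun b hb => B2.congr (e b (of_z1 hb le_rfl))
    (fun g _ j hj => by rw [cu, cu, Set.indicator_of_mem hj]) fun _ _ => rfl).imp fun v hv g hg =>
      (Set.indicator_of_mem hg _).symm.trans (hv g hg)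

theorem fin (r : R0 a) (o : Ov l P) :
    Module.Finite F ((Cl a (dec P)).map (Bl a (dec P)).mkQ) := by
  have := (cnt o r.det (rp r _) r.opn).1
  refine Submodule.finiteDimensional_of_le (S₂ := (Z1 ∅ (dec P) (rh a)).map (Bl a (dec P)).mkQ) ?_
  rintro _ ⟨x, hx, rfl⟩
  exact ⟨_, ind hx, (Submodule.Quotient.eq _).2 ⟨0, fun g hg => by
    rw [Pi.sub_apply, Set.indicator_of_mem hg, sub_self, map_zero, Pi.zero_apply]⟩⟩

/-- cocycles which vanish on inertia are orthogonal -/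
theorem cu_unr (r : R0 a) (o : Ov l P) (hx : x ∈ Cl a (dec P)) (hy : y ∈ Cl a (dec P))
    (ux : ∀ i, Inert P i → x i = 0) (uy : ∀ i, Inert P i → y i = 0)
    (ua : ∀ i, Inert P i → a i = 1) : cu a x y ∈ B2 ∅ (dec P) (ch (om pp F)) := by
  refine B2.mono (P014U.G2.unt_two F ⊤ l P _ isOpen_univ o (Z2.mono (z2 r hx hy) subset_rfl
    inf_le_right) fun g hg h hh i _ n => ?_) subset_rfl (le_inf le_top le_rfl)
  have m := inP_le_dec n
  simp only [cu, hx.1 g hg.2 i m, hy.1 h hh.2 i m, ux i n, uy i n, map_mul, ua i n, mulVec_zero,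
    add_zero, mul_one, and_self]

theorem zg_in (hx : x ∈ Zg a T) {g : GQ} (m : g ∈ In (T : Set ℕ)) : x g = 0 :=
  hx.2.2.elim fun _ h => h.2 g trivial (h.1.sub m)

/-- finiteness of the global cocycles -/
theorem zg_fin (r : Rs a T) : Module.Finite F (Zg a T) := by
  obtain ⟨T', tt, -, L, -⟩ := lg pp ⊤ (a.ker ⊓ Gz pp) ⊤ T le_top inf_le_right
    (fun g _ u hu => Subgroup.Normal.conj_mem inferInstance u hu g) (r.opn.inter Gz_open)
    isOpen_univ fun l hl => .inr (r.pr l hl)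
  have s : In (T' : Set ℕ) ⊆ In (T : Set ℕ) := fun _ ⟨l, x, y⟩ => ⟨l, fun m => x (tt m), y⟩
  exact Module.rank_lt_aleph0_iff.1 ((Submodule.rank_mono fun c hc => Z1.mono hc s).trans_lt
    (Cx.fin_all P014U.G2.chi02 L le_top inferInstance (rp_of ⟨a.ker, lv_of' inferInstance r.opn
      fun g m => r.unr g (s m), fun _ _ m => m⟩) fun u hu => rh_one.2 hu.1).1)

end Lo

open Lo

/-- **INV** -/
theorem inv : INV := fun pl => ⟨fun l => Iz.iz (pl.P l), fun l hl =>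
  ⟨fun _ => Iz.iz_b2 (pl.ov l hl), fun _ h => (Iz.iz_iff (pl.ov l hl) h).1⟩, fun T pr z hz h =>
    Iz.iz_rec hz T pl.P (fun l m => pl.ov l (pr l m)) fun p hp m => ⟨_, pl.ov p hp, h p hp m⟩⟩

/-- **LOCQ** -/
theorem locq : LOCQ := fun a l P f r o i => by
  have e : ∀ L ≤ Cl a (dec P), ot (Cl a (dec P)) (bt a f) L = Ot a (dec P) L := fun L le =>
    Submodule.ext fun y => and_congr_right fun hy => forall₂_congr fun x m => bt_iff r i (le m) hy
  refine ⟨⟨fun x hx y hy => ?_, (e _ le_rfl).trans (le_antisymm (fun y h => dual r o h.1 h.2)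
    fun y h => ⟨b_le r h, fun x hx => cu_b hx h r⟩), fin r o⟩, e⟩
  rw [bt_apply, bt_apply, ← sub_eq_zero, ← map_sub]
  exact i.b2 _ (bb r ▸ skew hy hx)

/-- **RECQ** -/
theorem recq : RECQ := fun a pl T f r i =>
  ⟨fun l m => (locq a l _ _ r.toR0 (pl.ov l (r.pr l m)) (i.loc l (r.pr l m))).1, zg_fin r,
    fun l _ x hx => of_z1 hx le_top, fun x hx y hy => i.rc T r.pr _
      (z2 r.toR0 (of_z1 hx le_rfl) (of_z1 hy le_rfl)) fun l hl m =>
      cu_unr r.toR0 (pl.ov l hl) (of_z1 hx le_top) (of_z1 hy le_top)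
        (fun g n => zg_in hx ⟨l, m, _, pl.ov l hl, n⟩) (fun g n => zg_in hy ⟨l, m, _, pl.ov l hl, n⟩)
        fun g n => r.unr g ⟨l, m, _, pl.ov l hl, n⟩⟩

end Vale.Agent.P014Y.Mu
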