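import Vale.Agent.P014Y.Mu.Tw0

/-!
# P014Y, block MU: one more prime, prescribed values also at the primes of the tower (helper55)
-/

set_option autoImplicit false
set_option linter.all false

open NumberField IsDedekindDomain
open scoped NumberTheorySymbols nonZeroDivisors

noncomputable section

namespace Vale.Agent.P014Y.F.Pt

open Vale.Agent.P022 (Qb GQ GK below IsConj)
open P004K P004K.Rc P004R P004R.Xt
open Vale.Agent.P027M.S (Inert)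
open Vale.Agent.P022D.W (dec)
open Vale.Agent.P022E.GW (Ov Fb)
open Vale.Agent.P004S (nu ov_dvd UnS)
open Vale.Agent.P014U
open Vale.Agent.P004F.Pt (km_comp fx_mul fx_pow km_pow mod_one ex_dat cheb ex_q Dh)

variable [Pp]

variable {K : Type} [Field K] [NumberField K] {j : K →+* Qb} {ω θ : 𝓞 K} {s : 𝓞 K →+* 𝓞 K}
  {δ n : ℕ} {ζ : Qb} {r : ClassGroup (𝓞 K) → (Ideal (𝓞 K))⁰}

variable (r) in
/-- the numbers which measure the class group -/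
abbrev al (x y : ClassGroup (𝓞 K)) : 𝓞 K := gn (K := K) (r x * r y * r (x * y)⁻¹ : (Ideal (𝓞 K))⁰)

/-- the character attached to a symbol -/
theorem chi0 (h2 : RC2) (kd : Kd j δ) (q : Qd (JJ j) ω s) (r1 : r 1 = 1)
    (hr : ∀ x, ClassGroup.mk0 (r x) = x⁻¹) {N c : ℕ} (c0 : 0 < c) {lam : 𝓞 K → ZMod N}
    (hm : Lm s c lam) (hA : ∀ x y, lam (al r x y) = 0) :
    ∃ e : GQ → ZMod N, Dh j c e ∧ ∀ p P' ψ β y, Ov p P' → ¬ p ∣ c → ψ ∈ GK j → Fb p P' ψ → β ≠ 0 →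
      below j P' * (r y : Ideal (𝓞 K)) = Ideal.span {β} → e ψ = lam β := by
  obtain ⟨F, f1, f2, f3⟩ := ex_f kd.upm hm r1 hr hA
  obtain ⟨e, add, ker, he⟩ := ex_e (j := j) h2 kd.iq c0 f1 fun x a h => by
    have a0 := mt Ideal.span_singleton_eq_bot.2 h.1
    rw [f2 _ a0]
    exact hm.rc x a a0 (q.cop_int h)
  refine ⟨e, ⟨add, ker⟩, fun p Q' ψ β y op pl m fp β0 e1 => ?_⟩
  have lm : (p : 𝓞 K) ∈ below j Q' := by rw [mem_below, map_natCast]; exact op.2.2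
  have nb := norm_below kd.iq op fp m
  have ar := (h2 K j kd.iq c c0).2.2.2.2.2.2 Q' op.2.1
    (fun a => op.1.ne_zero (by simpa [a] using op.2.2))
    (fun a => pl (Int.natCast_dvd_natCast.1 (ov_dvd op (by simpa using a)))) _ m 1
    (by simpa only [nb, pow_one, Fb] using fp)
  obtain ⟨u, w, uv⟩ := Nat.isCoprime_iff_coprime.2 ((Nat.Prime.coprime_iff_not_dvd op.1).2 pl)
  rw [pow_one] at ar
  have I0 : below j Q' ≠ ⊥ := fun a => op.1.ne_zero (by simpa [a] using lm)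
  rw [he _ _ (cop_of I0 (Ideal.mul_mem_left _ (u : 𝓞 K) lm) (b := w)
    (by rw [mul_comm (c : 𝓞 K)]; exact_mod_cast congrArg (Int.cast : ℤ → 𝓞 K) uv)) ar]
  obtain ⟨y', γ, γ0, a1, a2⟩ := f3 _ I0
  have cl {y γ} (a : below j Q' * (r y : Ideal (𝓞 K)) = Ideal.span {γ}) :
      ClassGroup.mk0 ⟨_, mem_nonZeroDivisors_of_ne_zero I0⟩ = y := by
    have a3 : ClassGroup.mk0 (⟨_, mem_nonZeroDivisors_of_ne_zero I0⟩ * r y) = 1 :=
      (ClassGroup.mk0_eq_one_iff _).2 ⟨γ, a⟩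
    rwa [map_mul, hr, mul_inv_eq_one] at a3
  rw [a2, ← f2 _ γ0, ← a1, ← cl a1, cl e1, e1, f2 _ β0]

/-- a prime with the symbols of a given element -/
theorem hlp (kd : Kd j δ) (q : Qd (JJ j) ω s) (hζ : IsPrimitiveRoot ζ (pp ^ (n + 1)))
    {U : Subgroup GQ} (hU : IsOpen (U : Set GQ)) {G : GQ → Prop}
    (stb : ∀ g, ∀ u ∈ U, G g → G (g * u))
    (ex : ∀ h ∈ GK j, Fx {1} (pp ^ (n + 1)) h →
      ∃ k ∈ GK j, Fx (N1 j) (pp ^ (n + 1)) k ∧ G (h * k)) {h : GQ} (m1 : h ∈ GK j)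
    (f2 : Fx {1} (pp ^ (n + 1)) h) (A : Finset (𝓞 K)) (T : Finset ℕ) :
    ∃ (l : ℕ) (P : Ideal (𝓞 Qb)) (ψ : GQ) (μ : 𝓞 K → ZMod (pp ^ (n + 1))), l ∉ T ∧ ¬ l ∣ δ ∧
      Ov l P ∧ ψ ∈ GK j ∧ Fb l P ψ ∧ l % pp ^ (n + 1) = 1 ∧ G ψ ∧ Lm s l μ ∧
      (∀ a ≠ 0, Km ζ ψ (j (qu s a)) (μ a)) ∧
      ∀ a ∈ A, a ≠ 0 → ∀ v, Km ζ h (j (qu s a)) v → μ a = v := by
  classical
  obtain ⟨k, t1, t2, t3⟩ := ex _ m1 f2
  have key (a : 𝓞 K) (a0 : a ≠ 0) (v : ZMod (pp ^ (n + 1))) (e : Km ζ h (j (qu s a)) v) :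
      Km ζ (h * k) (j (qu s a)) v := by
    have := km_comp hζ f2 e (km_zero (ζ := ζ) (g := k) fun z hz => t2 z (hz ▸ qu_mem q a0))
    rwa [add_zero] at this
  have u1 := mul_mem m1 t1
  have u2 := fx_mul f2 (fx_of t2)
  generalize h * k = u at key u1 u2 t3
  choose rt hrt using fun u : Qb => Xt.rt (pp ^ (n + 1)) u
  have hG : GK j = P004S.kn (-(δ : ℤ)) := Subgroup.ext kd.gk
  obtain ⟨l, ψ, P₀, hT, o, f, ⟨m2, m3⟩, m4⟩ := cheb u (W := U ⊓ P004S.kn (-(δ : ℤ)))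
    (hU.inter (P004S.kn_open _)) (insert ζ (A.image fun a => rt (j (qu s a))))
    (insert pp T ∪ δ.primeFactors)
  simp only [Finset.mem_union, Finset.mem_insert, not_or] at hT
  obtain ⟨⟨lp, lT⟩, lδ⟩ := hT
  have hψ : ψ ∈ GK j := mul_inv_cancel_left u ψ ▸ mul_mem u1 (hG ▸ m3 : u⁻¹ * ψ ∈ GK j)
  have md : l % pp ^ (n + 1) = 1 := mod_one o f (nd_pp o lp _) (one_lt_pow' _) hζ
    ((m4 ζ (Finset.mem_insert_self _ _)).trans (u2 ζ hζ.pow_eq_one))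
  obtain ⟨μ, c1, c2⟩ := lam1 q hζ o hψ f md
  exact ⟨l, P₀, ψ, μ, lT, fun a => lδ (Nat.mem_primeFactors.2 ⟨o.1, a, kd.sq.ne_zero⟩), o, hψ, f, md,
    mul_inv_cancel_left u ψ ▸ stb _ _ m2 t3, c1, c2, fun a m a0 v e =>
      km_uq hζ (qu_ne q a0) (c2 a a0) (km_of (fx_one o f md) (qu_ne q a0) (hrt _)
        ((m4 _ (Finset.mem_insert_of_mem (Finset.mem_image.2 ⟨a, m, rfl⟩))).trans
          (key a a0 v e _ (hrt _))))⟩

/-- prescribed symbols -/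
theorem sym (kd : Kd j δ) (q : Qd (JJ j) ω s) (hθ : θ ^ 2 = -(δ : 𝓞 K))
    (hζ : IsPrimitiveRoot ζ (pp ^ (n + 1))) {S : Finset ℕ} {P : ℕ → Ideal (𝓞 Qb)} {φ : ℕ → GQ}
    (hS : ∀ p ∈ S, Ov p (P p) ∧ dec (P p) ≤ GK j ∧ Fb p (P p) (φ p)) (S2 : pp ∈ S)
    {β : ℕ → 𝓞 K} {x : ℕ → ℤ} (hβ : ∀ p ∈ S, φ p ∈ GK j ∧ β p ≠ 0 ∧
      (∃ y, below j (P p) * (r y : Ideal (𝓞 K)) = Ideal.span {β p}) ∧
      β p * s (β p) = (p * x p : ℤ) ∧ ∀ l : ℕ, l.Prime → l ∣ 1 ∨ l ∈ S → ¬ (l : ℤ) ∣ x p)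
    (hα : ∀ x y, al r x y ≠ 0 ∧ ∃ w : ℤ, al r x y * s (al r x y) = w ∧
      ∀ l : ℕ, l.Prime → l ∣ 1 ∨ l ∈ S → ¬ (l : ℤ) ∣ w) (b : ℕ → ZMod (pp ^ (n + 1))) :
    ∃ g ∈ GK j, Fx {1} (pp ^ (n + 1)) g ∧ (∀ p ∈ S, Km ζ g (j (qu s (β p))) (b p)) ∧
      ∀ x y, Km ζ g (j (qu s (al r x y))) (0 : ZMod (pp ^ (n + 1))) := by
  classical
  have oS (p) (m : p ∈ S) := (hS p m).1
  have dS (p) (m : p ∈ S) := (hS p m).2.1
  have nd (l : ℕ) (d : l ∈ S) (p) (m : p ∈ S) (ne : l ≠ p) : ¬ (l : ℤ) ∣ p * x p := fun a =>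
    ((Nat.prime_iff_prime_int.1 (oS l d).1).dvd_or_dvd a).elim
      (fun a => ne ((Nat.prime_dvd_prime_iff_eq (oS l d).1 (oS p m).1).1 (Int.natCast_dvd_natCast.1 a)))
      ((hβ p m).2.2.2.2 l (oS l d).1 (.inr d))
  obtain ⟨A, A1, A2⟩ : ∃ A : Finset (𝓞 K), (∀ a ∈ A, ∃ x y, al r x y = a) ∧ ∀ x y, al r x y ∈ A :=
    ⟨Finset.univ.image fun t : ClassGroup (𝓞 K) × ClassGroup (𝓞 K) => al r t.1 t.2,
      fun a m => let ⟨t, _, e⟩ := Finset.mem_image.1 m; ⟨_, _, e⟩,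
      fun x y => Finset.mem_image.2 ⟨(x, y), Finset.mem_univ _, rfl⟩⟩
  have mβ : β pp ∈ below j (P pp) := by
    obtain ⟨y, e⟩ := (hβ _ S2).2.2.1
    refine Ideal.mul_le_left (J := (r y : Ideal (𝓞 K))) ?_
    rw [e]
    exact Ideal.mem_span_singleton_self _
  have hA (a) (m : a ∈ A ∪ (S.erase pp).image β) : ∃ w : ℤ, a * s a = w ∧ ¬ (pp : ℤ) ∣ w := by
    rcases Finset.mem_union.1 m with m | m
    · obtain ⟨x, y, rfl⟩ := A1 a m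
      exact (hα x y).2.imp fun w e => ⟨e.1, e.2 _ pp_prime (.inr S2)⟩
    · obtain ⟨p, t, rfl⟩ := Finset.mem_image.1 m
      have m' := Finset.mem_of_mem_erase t
      exact ⟨_, (hβ p m').2.2.2.1, nd _ S2 p m' (Finset.ne_of_mem_erase t).symm⟩
  obtain ⟨g₀, a1, a2, a3, a4⟩ := kum kd q hθ hζ (oS _ S2) (dS _ S2)
    (norm_below kd.iq (oS _ S2) (hS _ S2).2.2 (hβ _ S2).1) mβ (hβ _ S2).2.2.2.1
    ((hβ _ S2).2.2.2.2 _ pp_prime (.inr S2)) _ hA (b pp)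
  obtain ⟨g₁, g1, g2, g3, g4⟩ := ex_g kd q hθ hζ (P := P) (β := β) (x := x) b (S.erase pp)
    fun p m =>
      have m' := Finset.mem_of_mem_erase m
      ⟨oS p m', Finset.ne_of_mem_erase m, dS p m', (hβ p m').2.2.2.1, fun l a =>
        (hβ p m').2.2.2.2 l (oS l (Finset.mem_of_mem_erase a)).1 (.inr (Finset.mem_of_mem_erase a))⟩
  refine ⟨g₀ * g₁, mul_mem a1 g1, fx_mul a2 (g2 (n + 1)), fun p m => ?_, fun x y => ?_⟩
  · by_cases p2 : p = pp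
    · subst p2
      simpa using km_comp hζ a2 a3 (g3 _ _ (hβ pp m).2.2.2.1 fun l a =>
        nd l (Finset.mem_of_mem_erase a) pp m (Finset.ne_of_mem_erase a))
    · have m' := Finset.mem_erase.2 ⟨p2, m⟩
      simpa using km_comp hζ a2 (a4 _ (Finset.mem_union_right _ (Finset.mem_image_of_mem β m')))
        (g4 p m')
  · obtain ⟨a0, w, e1, e2⟩ := hα x y
    simpa using km_comp hζ a2 (a4 _ (Finset.mem_union_left _ (A2 x y))) (g3 _ w e1 fun l a =>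
      e2 l (oS l (Finset.mem_of_mem_erase a)).1 (.inr (Finset.mem_of_mem_erase a)))

/-- an element with the opposite symbols -/
theorem opp (hζ : IsPrimitiveRoot ζ (pp ^ (n + 1))) {lam : ℕ → 𝓞 K → ZMod (pp ^ (n + 1))}
    (T : Finset ℕ) (hl : ∀ l ∈ T, l % pp ^ (n + 1) = 1 ∧ Lm s l (lam l) ∧ ¬ (l : ℤ) ∣ -δ ∧
      ∃ P φ, Ov l P ∧ φ ∈ GK j ∧ Fb l P φ ∧ ∀ a ≠ 0, Km ζ φ (j (qu s a)) (lam l a)) :
    ∃ h ∈ GK j, Fx {1} (pp ^ (n + 1)) h ∧ ∀ a ≠ 0, Km ζ h (j (qu s a)) (-∑ l ∈ T, lam l a) := by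
  classical
  induction T using Finset.induction_on with
  | empty => exact ⟨1, one_mem _, fun _ _ => rfl, fun a _ => by
      simpa using km_zero (N := pp ^ (n + 1)) (ζ := ζ) (g := 1) fun _ _ => rfl⟩
  | insert l T hT ih =>
    obtain ⟨h, a1, a2, a3⟩ := ih fun l m => hl l (Finset.mem_insert_of_mem m)
    obtain ⟨md, -, -, P, φ, o, m, f, k⟩ := hl l (Finset.mem_insert_self _ _)
    have f := fx_one o f md
    refine ⟨h * φ ^ (-1 : ZMod (pp ^ (n + 1))).val, mul_mem a1 (pow_mem m _),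
      fx_mul a2 (fx_pow f _), fun a a0 => ?_⟩
    have := km_comp hζ a2 (a3 a a0) (km_pow hζ f (k a a0) (-1 : ZMod (pp ^ (n + 1))).val)
    rw [Finset.sum_insert hT, neg_add_rev]
    rwa [ZMod.natCast_zmod_val, neg_one_mul] at this

/-- **the tower**: one more prime, prescribed values also at the primes of the tower -/
theorem twr1 (h1 : RC1) (h2 : RC2) (h3 : RC3) (kd : Kd j δ) {S Q : Finset ℕ}
    {P : ℕ → Ideal (𝓞 Qb)} {φ : ℕ → GQ}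
    (hS : ∀ p ∈ S ∪ Q, Ov p (P p) ∧ dec (P p) ≤ GK j ∧ Fb p (P p) (φ p)) (S2 : pp ∈ S)
    (b : ℕ → ZMod (pp ^ (n + 1))) (hQ : ∀ l ∈ Q, l % pp ^ (n + 1) = 1)
    {U : Subgroup GQ} (hU : IsOpen (U : Set GQ)) {G : GQ → Prop}
    (stb : ∀ g, ∀ u ∈ U, G g → G (g * u))
    (ex : ∀ h ∈ GK j, Fx {1} (pp ^ (n + 1)) h →
      ∃ k ∈ GK j, Fx (N1 j) (pp ^ (n + 1)) k ∧ G (h * k)) (T : Finset ℕ) :
    ∃ (q : ℕ) (P : Ideal (𝓞 Qb)) (ψ : GQ) (e : GQ → ZMod (pp ^ (n + 1))), q ∉ T ∧ q ∉ S ∧ q ∉ Q ∧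
      ¬ q ∣ δ ∧ Ov q P ∧ ψ ∈ GK j ∧ Fb q P ψ ∧ q % pp ^ (n + 1) = 1 ∧ G ψ ∧
      Dh j (∏ l ∈ insert q Q, l) e ∧
      (∀ l ∈ insert q Q, ∀ P', Ov l P' → ∃ τ ∈ GK j, Inert P' τ ∧ e τ = 1) ∧
      ∀ p ∈ S ∪ Q, e (φ p) = b p := by
  classical
  obtain ⟨ω, s, q⟩ := ex_q j kd.iq
  obtain ⟨θ, hθ⟩ : ∃ θ : 𝓞 K, θ ^ 2 = -(δ : 𝓞 K) := by
    obtain ⟨θ, e⟩ := kd.rt
    refine ⟨⟨θ, IsIntegral.of_pow two_pos (e ▸ (isIntegral_natCast δ).neg)⟩, RingOfIntegers.ext ?_⟩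
    exact (map_pow (algebraMap (𝓞 K) K) _ 2).trans (e.trans (by simp))
  obtain ⟨r, β, x, r1, hr, hβ, hα⟩ := ex_dat kd q hS one_pos
  obtain ⟨ζ, hζ⟩ := HasEnoughRootsOfUnity.exists_primitiveRoot Qb (pp ^ (n + 1))
  have exl (l : ℕ) : ∃ lam : 𝓞 K → ZMod (pp ^ (n + 1)), l ∈ Q → l % pp ^ (n + 1) = 1 ∧
      Lm s l lam ∧ ¬ (l : ℤ) ∣ -δ ∧ ∃ P φ, Ov l P ∧ φ ∈ GK j ∧ Fb l P φ ∧
        ∀ a ≠ 0, Km ζ φ (j (qu s a)) (lam a) := by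
    by_cases m : l ∈ Q
    · have m' := Finset.mem_union_right S m
      obtain ⟨o, d, f⟩ := hS l m'
      exact (lam1 q hζ o (hβ l m').1 f (hQ l m)).imp fun _ a _ =>
        ⟨hQ l m, a.1, fun a => nd_del kd o d (dvd_neg.1 a), _, _, o, (hβ l m').1, f, a.2⟩
    · exact ⟨0, fun a => absurd a m⟩
  choose lam hl using exl
  obtain ⟨h, k1, k2, k3⟩ := opp hζ Q hl
  obtain ⟨A, A1, A2⟩ : ∃ A : Finset (𝓞 K), (∀ p ∈ S ∪ Q, β p ∈ A) ∧ ∀ x y, al r x y ∈ A :=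
    ⟨(S ∪ Q).image β ∪ Finset.univ.image fun t : ClassGroup (𝓞 K) × ClassGroup (𝓞 K) => al r t.1 t.2,
      fun p m => Finset.mem_union_left _ (Finset.mem_image_of_mem _ m),
      fun x y => Finset.mem_union_right _ (Finset.mem_image.2 ⟨(x, y), Finset.mem_univ _, rfl⟩)⟩
  have mk {l P ψ} {μ : 𝓞 K → ZMod (pp ^ (n + 1))} (lQ : l ∉ Q) (nδ : ¬ l ∣ δ) (o : Ov l P)
      (m : ψ ∈ GK j) (f : Fb l P ψ) (md : l % pp ^ (n + 1) = 1) (c1 : Lm s l μ)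
      (c2 : ∀ a ≠ 0, Km ζ ψ (j (qu s a)) (μ a))
      (c3 : ∀ x y, μ (al r x y) = -∑ l ∈ Q, lam l (al r x y)) :
      ∃ e : GQ → ZMod (pp ^ (n + 1)), Dh j (∏ l ∈ insert l Q, l) e ∧
        (∀ i ∈ insert l Q, ∀ P', Ov i P' → ∃ τ ∈ GK j, Inert P' τ ∧ e τ = 1) ∧
        ∀ p P' ψ β y, Ov p P' → p ∉ insert l Q → ψ ∈ GK j → Fb p P' ψ → β ≠ 0 →
          below j P' * (r y : Ideal (𝓞 K)) = Ideal.span {β} → e ψ = μ β + ∑ l ∈ Q, lam l β := by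
    have sm (a) : ∑ i ∈ insert l Q, Function.update lam l μ i a = μ a + ∑ l ∈ Q, lam l a := by
      rw [Finset.sum_insert lQ, Function.update_self, Finset.sum_congr rfl fun i m => by
        rw [Function.update_of_ne fun e : i = l => lQ (e ▸ m)]]
    simp only [← sm]
    exact chi h2 h3 kd q hθ r1 hr hζ (fun i a => by
      rcases Finset.mem_insert.1 a with rfl | a
      · rw [Function.update_self]
        exact ⟨md, c1, fun a => nδ (Int.natCast_dvd_natCast.1 (dvd_neg.1 a)), _, _, o, m, f, c2⟩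
      · rw [Function.update_of_ne fun e : i = l => lQ (e ▸ a)]
        exact hl i a) fun x y => by rw [sm, c3, neg_add_cancel]
  obtain ⟨l₀, P₀, ψ₀, μ₀, t0, n0, o0, m0, f0, d0, -, c0, z0, v0⟩ :=
    hlp kd q hζ hU stb ex k1 k2 A (S ∪ Q)
  have a0 (x y) := v0 _ (A2 x y) (hα x y).1 _ (k3 _ (hα x y).1)
  obtain ⟨e₀, D₀, -, he₀⟩ := mk (fun a => t0 (Finset.mem_union_right _ a)) n0 o0 m0 f0 d0 c0 z0 a0
  obtain ⟨g, g1, g2, g3, g4⟩ := sym kd q hθ hζ hS (Finset.mem_union_left _ S2) hβ hα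
    fun p => b p - e₀ (φ p)
  have x0 := fx_one o0 f0 d0
  obtain ⟨l, P₁, ψ, μ, t1, n1, o, m, f, d1, G1, c1, z1, v1⟩ := hlp kd q hζ hU stb ex
    (mul_mem m0 g1) (fx_mul x0 g2) A (insert l₀ (T ∪ (S ∪ Q)))
  simp only [Finset.mem_union, Finset.mem_insert, not_or] at t1
  obtain ⟨ne, lT, lS, lQ⟩ := t1
  have a1 (x y) : μ (al r x y) = μ₀ (al r x y) := (v1 _ (A2 x y) (hα x y).1 _
    (km_comp hζ x0 (z0 _ (hα x y).1) (g4 x y))).trans (add_zero _)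
  obtain ⟨e, D, rm, he⟩ := mk lQ n1 o m f d1 c1 z1 fun x y => (a1 x y).trans (a0 x y)
  have p2 := Nat.mul_pos o.1.pos o0.1.pos
  obtain ⟨e', D', he'⟩ := chi0 h2 kd q r1 hr p2 (lam := fun a => μ a - μ₀ a)
    ⟨fun a b a0 b0 => by simp only [c1.add a b a0 b0, c0.add a b a0 b0]; abel,
      fun a a0 => by simp only [c1.neg a a0, c0.neg a a0], fun k a a0 e => by
        simp only [c1.of_dvd (dvd_mul_right _ _) k a a0 e, c0.of_dvd (dvd_mul_left _ _) k a a0 e,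
          sub_self]⟩ fun x y => sub_eq_zero.2 (a1 x y)
  have nd {p : ℕ} (hp : p.Prime) (a : p ≠ l) (a' : p ≠ l₀) : ¬ p ∣ l * l₀ := fun d =>
    (hp.dvd_mul.1 d).elim (fun d => a ((Nat.prime_dvd_prime_iff_eq hp o.1).1 d))
      fun d => a' ((Nat.prime_dvd_prime_iff_eq hp o0.1).1 d)
  have ps {l P} (o : Ov l P) : 0 < ∏ i ∈ insert l Q, i := Finset.prod_pos fun i a =>
    (Finset.mem_insert.1 a).elim (· ▸ o.1.pos) fun a => (hS i (Finset.mem_union_right _ a)).1.1.pos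
  have sum (x) (mx : x ∈ GK j) : e x = e₀ x + e' x := by
    obtain ⟨p, y, P', hT, op, fp, ⟨⟨w1, w2⟩, w3⟩, -⟩ := cheb x
      (W := Hc j (∏ i ∈ insert l Q, i) ⊓ Hc j (∏ i ∈ insert l₀ Q, i) ⊓ Hc j (l * l₀))
      (((h1 K j kd.iq _ (ps o)).2.1.inter (h1 K j kd.iq _ (ps o0)).2.1).inter
        (h1 K j kd.iq _ p2).2.1) ∅ (insert l (insert l₀ Q))
    simp only [Finset.mem_insert, not_or] at hT
    have my : y ∈ GK j := mul_inv_cancel_left x y ▸ mul_mem mx w1.1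
    have I0 : below j P' ∈ (Ideal (𝓞 K))⁰ := mem_nonZeroDivisors_of_ne_zero fun a =>
      op.1.ne_zero (by rw [← norm_below kd.iq op fp my, a]; simp)
    have cl : ClassGroup.mk0 (⟨_, I0⟩ * r (ClassGroup.mk0 ⟨_, I0⟩)) = 1 := by
      rw [map_mul, hr, mul_inv_cancel]
    rw [← D.of_mem mx w1, ← D₀.of_mem mx w2, ← D'.of_mem mx w3,
      he p _ _ _ _ op (by simp [hT]) my fp (gn_ne cl) (gn_sp cl),
      he₀ p _ _ _ _ op (by simp [hT]) my fp (gn_ne cl) (gn_sp cl),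
      he' p _ _ _ _ op (nd op.1 hT.1 hT.2.1) my fp (gn_ne cl) (gn_sp cl)]
    abel
  refine ⟨l, P₁, ψ, e, lT, lS, lQ, n1, o, m, f, d1, G1, D, rm, fun p a => ?_⟩
  obtain ⟨c3, b0, ⟨y, c4⟩, -⟩ := hβ p a
  rw [sum _ c3, he' p _ _ _ y (hS p a).1 (nd (hS p a).1.1 (by
    rintro rfl; exact (Finset.mem_union.1 a).elim lS lQ) (by rintro rfl; exact t0 a)) c3
    (hS p a).2.2 b0 c4, v1 _ (A1 p a) b0 _ (km_comp hζ x0 (z0 _ b0) (g3 p a))]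
  abel

end Vale.Agent.P014Y.F.Pt
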