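import Vale.Agent.P014Y.Mu.Twv
import Vale.Agent.P014Y.Mu.Tw3

/-! # P014Y, block MU: a layer with one more prime and prescribed values (helper55) -/

set_option autoImplicit false
set_option linter.all false

noncomputable section

namespace Vale.Agent.P014Y.Mu.Tv

open NumberField
open Vale.Agent.P022 (Qb GQ)
open Vale.Agent.P027M.S (Inert)
open Vale.Agent.P022E.GW (Ov Fb)
open Vale.Agent.P014U
open P004K P004R
open P004F.Pt (Dh)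
open P014Y.F (Crv Fld)
open P014Y.F.Pt (N1 twr1)
open Tp (Lz)

variable {e : Crv} (b : Fld e)

/-- the primes to avoid -/
abbrev Ev : Finset ℕ := e.S.toFinset ∪ b.δ'.primeFactors ∪ Finset.range 18

/-- **the layer** -/
theorem twl (r1 : RC1) (r2 : RC2) (r3 : RC3) (k : ℕ) (Q : Finset ℕ) (P : ℕ → Ideal (𝓞 Qb))
    (σ : ℕ → GQ) (v : ℕ → ZMod (3 * 3 ^ k))
    (hQ : ∀ q ∈ Q, Gt b (k + 1) (Ev b) q ∧ Ov q (P q) ∧ Fb q (P q) (σ q))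
    {U : Subgroup GQ} (hU : IsOpen (U : Set GQ)) {G : GQ → Prop}
    (stb : ∀ g, ∀ u ∈ U, G g → G (g * u))
    (ex : ∀ h ∈ b.Γ, Fx {1} (pp ^ (k + 1)) h →
      ∃ x ∈ b.Γ, Fx (N1 b.j) (pp ^ (k + 1)) x ∧ G (h * x)) (T : Finset ℕ) :
    ∃ (q : ℕ) (P₀ : Ideal (𝓞 Qb)) (ψ : GQ) (χ : GQ → ZMod (3 * 3 ^ k)), q ∉ T ∧ q ∉ Q ∧
      Gt b (k + 1) (Ev b) q ∧ Ov q P₀ ∧ Fb q P₀ ψ ∧ G ψ ∧ Lz b k (∏ l ∈ insert q Q, l) χ ∧
      Dh b.j (∏ l ∈ insert q Q, l) χ ∧ ∀ l ∈ Q, χ (σ l) = v l := by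
  classical
  have out {q} (h : Gt b (k + 1) (Ev b) q) : q.Prime ∧ q ∉ e.S ∧ ¬ q ∣ b.δ' ∧ 17 < q ∧ Sq b.Γ q := by
    have := h.nE
    simp only [Finset.mem_union, not_or, List.mem_toFinset, Finset.mem_range] at this
    exact ⟨h.pr, this.1.1, fun d => this.1.2 (Nat.mem_primeFactors.2 ⟨h.pr, d, b.pos.ne'⟩),
      by omega, h.sq⟩
  obtain ⟨q, P₀, ψ, χ, qT, qS, qQ, qδ, o, m, f, md, t, D, rm, un⟩ : ∃ (q : ℕ) (P : Ideal (𝓞 Qb))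
      (ψ : GQ) (χ : GQ → ZMod (3 * 3 ^ k)), q ∉ T ∪ Ev b ∧ q ∉ e.S.toFinset ∧ q ∉ Q ∧
      ¬ q ∣ b.δ' ∧ Ov q P ∧ ψ ∈ b.Γ ∧ Fb q P ψ ∧ q % pp ^ (k + 1) = 1 ∧ G ψ ∧
      Dh b.j (∏ l ∈ insert q Q, l) χ ∧
      (∀ l ∈ insert q Q, ∀ P', Ov l P' → ∃ τ ∈ b.Γ, Inert P' τ ∧ χ τ = 1) ∧
      ∀ p ∈ e.S.toFinset ∪ Q, χ (if p ∈ e.S then b.φ p else σ p) = if p ∈ e.S then 1 else v p := by
    revert v
    rw [← pow_succ' 3 k]
    exact fun v => twr1 (n := k) r1 r2 r3 b.kd (P := fun p => if p ∈ e.S then e.P p else P p)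
      (fun p m => by
        split_ifs with a
        · exact ⟨e.ov p a, b.le p a, b.ch.frb p a⟩
        · have m := (Finset.mem_union.1 m).resolve_left (mt List.mem_toFinset.1 a)
          exact ⟨(hQ p m).2.1, (hQ p m).1.sq _ (hQ p m).2.1, (hQ p m).2.2⟩)
      (List.mem_toFinset.2 e.pm) _
      (fun l m => Eq.trans (hQ l m).1.md (Nat.mod_eq_of_lt (F.Pt.one_lt_pow' k))) hU stb ex _
  rw [Finset.mem_union, not_or] at qT
  have gt : Gt b (k + 1) (Ev b) q := ⟨o.1, qT.2,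
    md.trans (Nat.mod_eq_of_lt (F.Pt.one_lt_pow' k)).symm, fun P' o' =>
      Wr.dec_gk b.kd o (e.ne_two (mt List.mem_toFinset.2 qS)) qδ f m o'⟩
  refine ⟨q, P₀, ψ, χ, qT.1, qQ, gt, o, f, t, lz b r1 r2 (Finset.insert_nonempty _ _)
    (fun l a => out ((Finset.mem_insert.1 a).elim (· ▸ gt) fun a => (hQ l a).1)) D rm fun p m => ?_,
    D, fun l a => ?_⟩
  · have := un p (Finset.mem_union_left _ (List.mem_toFinset.2 m))
    rw [if_pos m, if_pos m] at this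
    exact this ▸ isUnit_one
  · have := un l (Finset.mem_union_right _ a)
    rwa [if_neg (out (hQ l a).1).2.1, if_neg (out (hQ l a).1).2.1] at this

end Vale.Agent.P014Y.Mu.Tv
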