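import Vale.Agent.P014Y.Mu.Ds0

/-! # P014Y, block MU, row DSC: descent from the quadratic field (helper24) -/

set_option autoImplicit false
set_option linter.all false

noncomputable section

namespace Vale.Agent.P014Y.Mu

open NumberField Matrix
open scoped Classical Pointwise
open Vale.Agent.P022 (Qb GQ)
open Vale.Agent.P022.H443 (inP)
open Vale.Agent.P027M.S (Inert)
open Vale.Agent.P022D.W (dec inP_le_dec phi_mem)
open Vale.Agent.P022E.GW (Ov Fb)
open Vale.Agent.P022K.G2 (In Lv ex_lv')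
open Vale.Agent.P014U
open L2 (W M2 am a1)
open X4S (Pl)
open P004S (nu nu_mul z2 kn kn_open nu_conj)

namespace Ds

variable [Pp] {a b : GQ →* M2} {x y : X} {P : Ideal (𝓞 Qb)} {c g h : GQ} {d : ℤ} {l : ℕ}

theorem out_mul (p : g ∉ kn d) (q : h ∉ kn d) : g * h ∈ kn d := by
  show nu d _ = 0
  rw [nu_mul, (z2 _).resolve_left p, (z2 _).resolve_left q]; rfl

theorem kcj (p : g ∈ kn d) (t : GQ) : t⁻¹ * g * t ∈ kn d := by
  have := nu_conj d t⁻¹ g
  rw [inv_inv] at this
  exact this.trans p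

/-- the retraction -/
def pj (d : ℤ) (c g : GQ) : GQ := if g ∈ kn d then g else g * c

theorem pj_mem (n : c ∉ kn d) (g : GQ) : pj d c g ∈ kn d := by
  unfold pj
  split_ifs with m
  exacts [m, out_mul m n]

/-- the extension -/
def ex (b : GQ →* M2) (d : ℤ) (c : GQ) (y : X) : X := fun g => (y + cj b c y) (pj d c g)

theorem ex_of (m : g ∈ kn d) : ex b d c y g = y g + cj b c y g := by rw [ex, pj, if_pos m]; rfl

theorem ex_cl (n : c ∉ kn d) (k : c * c = 1) (hy : y ∈ Cl b (kn d)) : ex b d c y ∈ Cl b ⊤ := by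
  have hw : y + cj b c y ∈ Cl b (kn d) := add_mem hy (cl_cj hy fun _ m => kcj m c)
  have ci : c⁻¹ = c := inv_eq_of_mul_eq_one_right k
  have cc : ∀ v, b c *ᵥ (b c *ᵥ v) = v := fun v => by rw [← am, k, a1]
  have e : ∀ g, b c *ᵥ (y + cj b c y) (c⁻¹ * g * c) = (y + cj b c y) g := fun g => by
    simp only [Pi.add_apply, cj, mulVec_add, cc]
    rw [show c⁻¹ * (c⁻¹ * g * c) * c = (c * c)⁻¹ * g * (c * c) by group, k, inv_one, one_mul,
      mul_one, add_comm]
  unfold ex
  generalize y + cj b c y = w at hw e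
  refine ⟨fun g _ h _ => ?_, ?_⟩
  · have q := pj_mem n h
    by_cases m : g ∈ kn d
    · have : pj d c (g * h) = g * pj d c h := by
        simp only [pj, mul_mem_cancel_left m]
        split_ifs
        exacts [rfl, mul_assoc _ _ _]
      beta_reduce
      rw [this, hw.1 g m _ q, show pj d c g = g from if_pos m]
    · have : pj d c (g * h) = g * c * (c⁻¹ * pj d c h * c) := by
        unfold pj
        by_cases r : h ∈ kn d
        · rw [if_pos r, if_neg (mt (mul_mem_cancel_right r).1 m)]; group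
        · rw [if_neg r, if_pos (out_mul m r), mul_assoc c⁻¹, mul_assoc h, k]; group
      beta_reduce
      rw [this, hw.1 _ (out_mul m n) _ (kcj q c), am, e, show pj d c g = g * c from if_neg m]
  · obtain ⟨U, o, p⟩ := hw.2
    obtain ⟨V, o', q⟩ := ex_lv' (kn_open d)
    exact ⟨U ⊓ V, o.inf o', fun g _ m => by
      beta_reduce
      rw [pj, if_pos (q m.2), p g (q m.2) m.1]⟩

/-- a cocycle which vanishes on a subgroup of index two -/
theorem bl_two {A : Subgroup GQ} (hx : x ∈ Cl b A) (e : ∀ g ∈ A, g ∈ kn d → b g = 1 ∧ x g = 0) :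
    x ∈ Bl b A := by
  by_cases k : ∀ g ∈ A, g ∈ kn d
  · exact mem_bl.2 ⟨0, fun g m => by rw [(e g m (k g m)).2, mulVec_zero, sub_self]⟩
  push Not at k
  obtain ⟨t, m, n⟩ := k
  have e1 := hx.1 t m t m
  rw [(e _ (mul_mem m m) (out_mul n n)).2, eq_comm, add_eq_zero_iff_neg_eq] at e1
  refine mem_bl.2 ⟨-(2 : F)⁻¹ • x t, fun g p => ?_⟩
  by_cases q : g ∈ kn d
  · rw [(e g p q).1, (e g p q).2, one_mulVec, sub_self]
  have r := mul_mem p (inv_mem m)
  obtain ⟨r1, r2⟩ := e _ r (out_mul q (mt inv_mem_iff.1 n))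
  have e2 := hx.1 _ r t m
  have e3 := am (a := b) (g * t⁻¹) t (x t)
  rw [inv_mul_cancel_right, r1, one_mulVec] at e2 e3
  rw [e2, r2, zero_add, mulVec_smul, e3, ← e1, ← smul_sub]
  have := inv_mul_cancel₀ two_ne
  calc x t = ((2 : F)⁻¹ * 2) • x t := by rw [this, one_smul]
    _ = _ := by module

end Ds

open Ds in
/-- **row DSC** -/
theorem dsc [Pp] (trl : TRL) : DSC := by
  intro a pl d Γ c S S' Q r r' le hΓ n k up sq kl y hy un ur vs u0 ot
  obtain rfl : Γ = kn d := Subgroup.ext hΓ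
  have ci : c⁻¹ = c := inv_eq_of_mul_eq_one_right k
  have cc : ∀ P : Ideal (𝓞 Qb), c • c • P = P := fun P => by rw [smul_smul, k, one_smul]
  have t1 : ∀ g ∈ kn d, tw d a g = a g := fun g m => by
    show (if nu d g = 0 then 1 else -1 : F) • a g = _
    rw [if_pos (show nu d g = 0 from m), one_smul]
  have ik : ∀ g ∈ In (S' : Set ℕ), g ∈ kn d := fun g m => by
    by_contra e
    have := congrFun (congrFun (r'.unr g m) 0) 0
    change ((if nu d g = 0 then 1 else -1 : F) • a g) 0 0 = _ at this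
    rw [if_neg (show ¬ nu d g = 0 from e), r.unr g (in_mono le m)] at this
    simp only [Matrix.smul_apply, one_apply_eq, smul_eq_mul, mul_one] at this
    exact two_ne (by linear_combination -this)
  have key : ∀ b : GQ →* M2, Rs b S' → (∀ g ∈ kn d, b g = a g) → (∃ s : F, b c = s • a c) →
      ex b d c y ∈ Rl b pl S' Q := fun b rb e ⟨s, es⟩ => by
    have cl := ex_cl n k (cl_congr e (fun _ _ => rfl) hy)
    have ev : ∀ g ∈ kn d, ex b d c y g = (y + s • cj a c y) g := fun g m => by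
      rw [ex_of m, Pi.add_apply, Pi.smul_apply, cj, cj, es, smul_mulVec]
    have z0 : ∀ g ∈ kn d, g ∈ In ((S ∪ Q : Finset ℕ) : Set ℕ) → ex b d c y g = 0 := fun g m i => by
      rw [ex_of m, cj, un g m i, un _ (kcj m c) (in_cj i c), mulVec_zero, add_zero]
    have op := pl.ov pp pp_prime
    have dp := sq pp (Finset.mem_union_left _ r.pm) _ op
    refine ⟨⟨zg_of rb.opn (fun g m => rb.unr g (in_mono Finset.subset_union_left m)) cl
      fun g m => z0 g (ik g (in_mono Finset.subset_union_left m))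
        (in_mono (Finset.union_subset_union_left le) m), ?_⟩,
      ot_congr (fun g m => e g (dp m)) (fun g m => ev g (dp m)) (add_mem (ot _ op)
        (Submodule.smul_mem _ s (cc (pl.P pp) ▸ ot_cj (ot _ (ov_sm op c)) c)))⟩
    simp only [SetLike.mem_coe, Submodule.mem_iInf, Lc]
    intro l m
    obtain ⟨ne, m⟩ := Finset.mem_erase.1 m
    split_ifs with q
    · have u := up l q
      have o := pl.ov l u.pr
      have dl := sq l (Finset.mem_union_right _ q) _ o
      have tr := (trl a pl S l r ⟨u.pr, mt (@le l) u.out, u.md, u.ne, u.un⟩).2.2.2.2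
      obtain ⟨φ, f, v⟩ := vs l q _ o
      obtain ⟨φ', f', v'⟩ := vs l q _ (ov_sm o c)
      have sm := dl (phi_mem o.1 o.2.1 (pl.fb l u.pr))
      obtain ⟨w, hw⟩ := (mem_Vs a).1 (add_mem (tr y (cl_mono hy dl) φ f v) (Submodule.smul_mem _ s
        (tr _ (cl_cj hy fun g m => kcj (dl m) c) _ (cc (pl.P l) ▸ fb_sm f' c) (vs_cj v' c))))
      exact ⟨cl_mono cl le_top, (mem_Vs b).2 ⟨w, by rw [e _ sm, ev _ sm, hw]⟩⟩
    have o := pl.ov l (rb.pr l ((Finset.mem_union.1 m).resolve_right q))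
    by_cases s : l ∈ S
    · have dl := sq l (Finset.mem_union_left _ s) _ o
      exact ur_congr (fun g m => e g (dl m)) (fun g m => ev g (dl m)) (add_mem (ur l s ne _ o)
        (Submodule.smul_mem _ _ (cc (pl.P l) ▸ ur_cj (ur l s ne _ (ov_sm o c)) c)))
    · exact ⟨cl_mono cl le_top, bl_two (d := d) (cl_mono cl le_top) fun g i m =>
        ⟨(e g m).trans (r.unr g ⟨l, s, _, o, i⟩), z0 g m ⟨l, by simp [s, q], _, o, i⟩⟩⟩
  have tc : tw d a c = (-1 : F) • a c := by
    show (if nu d c = 0 then 1 else -1 : F) • a c = _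
    rw [if_neg (show ¬ nu d c = 0 from n)]
  have e2 : ∀ g ∈ kn d, (ex a d c y + ex (tw d a) d c y) g = ((2 : F) • y) g := fun g m => by
    rw [Pi.add_apply, ex_of m, ex_of m, cj, cj, tc, smul_mulVec, Pi.smul_apply]
    module
  have dp := sq pp (Finset.mem_union_left _ r.pm) _ (pl.ov pp pp_prime)
  obtain ⟨p, q⟩ := kl _ (key a ⟨r.toR0, r'.pm, r'.pr, fun g m => r.unr g (in_mono le m)⟩
    (fun _ _ => rfl) ⟨1, (one_smul _ _).symm⟩) _ (key _ r' t1 ⟨_, tc⟩)
    (ur_congr (fun _ _ => rfl) (fun g m => e2 g (dp m)) (Submodule.smul_mem _ _ u0))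
  obtain ⟨v, hv⟩ := mem_bl.1 p
  obtain ⟨w, hw⟩ := mem_bl.1 q
  refine mem_bl.2 ⟨(2 : F)⁻¹ • (v + w), fun g m => ?_⟩
  have := e2 g m
  rw [Pi.add_apply, hv g trivial, hw g trivial, t1 g m, Pi.smul_apply] at this
  rw [mulVec_smul, mulVec_add, ← smul_sub, add_sub_add_comm, this, smul_smul,
    inv_mul_cancel₀ two_ne, one_smul]

end Vale.Agent.P014Y.Mu
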