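import Vale.Agent.P014Y.Mu.St

/-! # P014Y, block MU at three: the glue with the residual parity input -/

set_option autoImplicit false
set_option linter.all false

noncomputable section

namespace Vale.Agent.P014Y.Mu

open Vale.Agent.P022 (GQ)
open Vale.Agent.P014U
open X4S (Pl)
open P014Y.F (Crv Fld)
open Top (Sur Pr)
open Tp (Lz Ad2)

/-- from killed layers to the tower -/
theorem ad2_of (hC : CNT) (hW : TWR) {e e' : Crv} {b : Fld e} {b' : Fld e'} (pr : Pr (-3) e e')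
    (sm : b.Same b') (k m i : ℕ) (H : ∀ n, ∃ (c : ℕ) (χ : GQ → ZMod (3 * 3 ^ (n + 1))),
      Lz b (n + 1) c χ ∧ c.primeFactors.card ≤ k ∧
      (∀ q : ℕ, q.Prime → q ∣ c → Gt b (n + 2) ∅ q ∧ (Gq e m q ∨ Tz (rb e) q)) ∧
      ∀ J ≤ 3 * 3 ^ (n + 1), (∀ x ∈ b.Z0 J c fun g => (χ g).val, ∀ g, tb J ^ i • x g = 0) ∧
        ∀ x ∈ b'.Z0 J c fun g => (χ g).val, ∀ g, tb J ^ i • x g = 0) : Ad2 b b' := by
  obtain ⟨B, hb⟩ := hC e b k i
  obtain ⟨B', hb'⟩ := hC e' b' k i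
  refine ⟨m + k + 1, B + B', i, fun n => ?_⟩
  obtain ⟨c, χ, lz, c2, c3, z⟩ := H n
  obtain ⟨u, v⟩ := hb c (fun g => (χ g).val) c2
  obtain ⟨u', v'⟩ := hb' c (fun g => (χ g).val) c2
  have w := fun J l => v J (z J l).1
  have w' := fun J l => v' J (z J l).2
  exact ⟨c, χ, lz, fun _ => hW e e' b b' pr sm _ n c χ (Nat.succ_pos _) lz (by omega)
    fun q h s => ⟨(c3 q h s).1, (c3 q h s).2.imp_left fun a => a.mono (by omega)⟩,
    fun J l => ⟨(w J l).1, ((w J l).2.trans u).trans (Nat.pow_le_pow_right three_pos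
      (B.le_add_right B')), (w' J l).1, ((w' J l).2.trans u').trans
      (Nat.pow_le_pow_right three_pos (B'.le_add_left B))⟩,
    fun _ => ⟨(w _ le_rfl).2, (w' _ le_rfl).2⟩⟩

/-- one curve -/
theorem one' (hF : FIN) (hD : DSC) (hR : RSE) {e : Crv} (b : Fld e) (pl : Pl)
    (hp : ∀ p ∈ e.S, pl.P p = e.P p) (nf : Nf (rb e) b.Γ)
    (pa : Pa (rb e) (tw (-b.δ') (rb e)) pl e.S.toFinset (Sd b)) (Q : Finset ℕ)
    (up : ∀ q ∈ Q, Up (rb e) pl (Sd b) q ∧ Sq b.Γ q) (k : St (rb e) pl (Sd b) Q ≤ Bl (rb e) ⊤)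
    (k' : St (tw (-b.δ') (rb e)) pl (Sd b) Q ≤ Bl (tw (-b.δ') (rb e)) ⊤) :
    Kk (rb e) b.Γ e.S.toFinset Q (e.P pp) := by
  obtain ⟨r0, -, h⟩ := hR e
  obtain ⟨r1, r2, mem, out, cc, sq, -, -⟩ := h b
  have s : ∀ l ∈ e.S.toFinset ∪ Q, Sq b.Γ l := fun l m => (Finset.mem_union.1 m).elim
    (fun m => sq l (List.mem_toFinset.1 m)) fun m => (up l m).2
  have pr : ∀ l ∈ e.S.toFinset ∪ Q, l.Prime := fun l m => (Finset.mem_union.1 m).elim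
    (r0.pr l) fun m => (up l m).1.pr
  rw [← hp pp e.pm]
  exact hD _ pl _ _ _ _ _ Q r0 r2 Finset.subset_union_left mem out cc (fun q m => (up q m).1) s
    (hF _ _ pl _ _ Q r1 r2 Finset.subset_union_left r0.pm
      (fun v h => nf v fun g _ => h g trivial)
      (fun v h => nf v fun g m => tw_eq (a := rb e) ((mem g).1 m) ▸ h g trivial)
      (fun q m => (up q m).1)
      (fun l m g i => tw_eq ((mem g).1 (s l m _ (pl.ov l (pr l m)) i))) pa k k')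

/-- **the export with the residual parity input** -/
theorem ads (hK : KIL) (hF : FIN) (hD : DSC) (hL : LEV) (hC : CNT) (hR : RSE)
    (hS : SUT) (hV : CHV) (hT : TWV) (hY : LZY) (hW : TWR) {e e' : Crv} (b : Fld e) (b' : Fld e')
    (pr : Pr (-3) e e') (sm : b.Same b') (su : Sur e.par.disc)
    (p : ∀ pl : Pl, (∀ p ∈ e.S, pl.P p = e.P p) →
      Pa (rb e) (tw (-b.δ') (rb e)) pl e.S.toFinset (Sd b))
    (p' : ∀ pl : Pl, (∀ p ∈ e'.S, pl.P p = e'.P p) →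
      Pa (rb e') (tw (-b'.δ') (rb e')) pl e'.S.toFinset (Sd b')) : Ad2 b b' := by
  obtain ⟨r0, ⟨pl, hp⟩, h⟩ := hR e
  obtain ⟨r1, r2, mem, -, -, -, -, nf⟩ := h b
  obtain ⟨r0', -, h'⟩ := hR e'
  obtain ⟨r1', r2', mem', -, -, -, -, nf'⟩ := h' b'
  obtain ⟨su', tz⟩ := hS e e' pr su
  have sd : Sd b' = Sd b := by rw [Sd, Sd, pr.S, sm.δ']
  have hp' : ∀ p ∈ e'.S, pl.P p = e'.P p := pr.S ▸ pr.P ▸ hp
  obtain ⟨k, hk⟩ := hK (Fin 4) (fr e e' b.δ') pl (Sd b) fun i => by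
    fin_cases i
    exacts [r1, r2, sd ▸ r1', sd ▸ sm.δ' ▸ r2']
  obtain ⟨m, hm⟩ := hV e e' b pl pr su
  obtain ⟨E, d, hd⟩ := hT e b su
  obtain ⟨i, hi⟩ := hL _ _ _ _ r0 mem (nf su)
  obtain ⟨i', hi'⟩ := hL _ _ _ _ r0' mem' (nf' su')
  refine ad2_of hC hW pr sm (k + d) m (i + i') fun n => ?_
  obtain ⟨Q, q1, q2, q3⟩ := hk _ (fun q g => g.up) (hm (n + 1 + d) E)
  obtain ⟨c, χ, lz, c1, c2, c3⟩ := hd (n + 1) Q fun q h => (q2 q h).toGt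
  have ly := hY e b _ c χ lz fun q h s => (c3 q h s).1
  have qc : ∀ q ∈ Q, q.Prime ∧ q ∣ c := fun q h => ⟨(q2 q h).pr, c1 q h⟩
  have k1 := hi _ c _ Q _ (Nat.succ_pos _) ly (e.ov _ e.pm) qc (fun q h s => (c3 q h s).2)
    (one' hF hD hR b pl hp (nf su) (p pl hp) Q (fun q h => ⟨(q2 q h).up 0, (q2 q h).sq⟩) (q3 0) (q3 1))
  have k2 := hi' _ c _ Q _ (Nat.succ_pos _) (pr.S ▸ sm.Γ ▸ ly) (e'.ov _ e'.pm) qc
    (fun q h s => (c3 q h s).2.imp_right fun t P φ o f => tz _ (t P φ o f))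
    (one' hF hD hR b' pl hp' (nf' su') (p' pl hp') Q
      (fun q h => ⟨sd ▸ (q2 q h).up 2, sm.Γ ▸ (q2 q h).sq⟩) (sd ▸ q3 2) (sd ▸ sm.δ' ▸ q3 3))
  exact ⟨c, χ, lz, by omega, fun q h s => ⟨(c3 q h s).1, (c3 q h s).2.imp_left fun a => (q2 q a).gq⟩,
    fun J l => ⟨fun x a g => pw_up (k1 J (l.trans_eq (pow_succ' _ _).symm) x a g)
      (i.le_add_right i'), fun x a g =>
      pw_up (k2 J (l.trans_eq (pow_succ' _ _).symm) x a g) (i'.le_add_left i)⟩⟩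

end Vale.Agent.P014Y.Mu
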