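import Vale.Agent.P014Y.Mu.St1
import Vale.Agent.P014Y.Mu.Lin
import Vale.Agent.P014Y.Mu.Loc
import Vale.Agent.P014Y.Mu.Big
import Vale.Agent.P014Y.Mu.Url
import Vale.Agent.P014Y.Mu.Ds0
import Vale.Agent.P014T.Kx.Cvt
import Vale.Agent.P022E.GW.TauG

/-! # P014Y, block MU: the parity input in the residual words (row BRG) -/

set_option autoImplicit false
set_option linter.all false

noncomputable section

namespace Vale.Agent.P014Y.Mu

open NumberField Matrix Module
open scoped Classical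
open Vale.Agent.P022 (Qb GQ IsConj)
open Vale.Agent.P022D.W (dec inP_le_dec)
open Vale.Agent.P022E.GW (Ov)
open Vale.Agent.P022K Vale.Agent.P022K.G2 Vale.Agent.P014U Vale.Agent.P014U.L2
open P004S (nu wp)
open P004M.TE (Pt ga)
open P004F (hq sd)

variable [Pp] {A B d : ℤ} {a : GQ →* M2} {S : Finset ℕ} {c g : GQ} {l : ℕ} {P : Ideal (𝓞 Qb)}

namespace Bq

theorem rk1 (cc : c * c = 1) (h : dt a c = -1) :
    finrank F (LinearMap.range (a c - 1).mulVecLin) = 1 := by
  have k := aw (a := a) c ![1, 0] ![0, 1]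
  have ap : ∀ v, (a c - 1).mulVecLin v = a c *ᵥ v - v := fun v => by
    rw [mulVecLin_apply, sub_mulVec, one_mulVec]
  have le := Submodule.finrank_le (LinearMap.range (a c - 1).mulVecLin)
  have n0 : finrank F (LinearMap.range (a c - 1).mulVecLin) ≠ 0 := fun e => two_ne (by
    have z : ∀ v, a c *ᵥ v = v := fun v => sub_eq_zero.1 ((ap v).symm.trans
      ((Submodule.eq_bot_iff _).1 (Submodule.finrank_eq_zero.1 e) _ ⟨v, rfl⟩))
    rw [z, z, h] at k
    simp only [P004S.wp, cons_val_zero, cons_val_one] at k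
    linear_combination k)
  have n2 : finrank F (LinearMap.range (a c - 1).mulVecLin) ≠ finrank F W := fun e => two_ne (by
    have z : ∀ v, a c *ᵥ v = -v := fun v => by
      obtain ⟨u, rfl⟩ := LinearMap.range_eq_top.1 (Submodule.eq_top_of_finrank_eq e) v
      rw [ap, mulVec_sub, ← am, cc, a1, neg_sub]
    rw [z, z, h] at k
    simp only [P004S.wp, Pi.neg_apply, cons_val_zero, cons_val_one] at k
    linear_combination k)
  rw [show finrank F W = 2 from finrank_fin_fun F] at n2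
  have le' : finrank F (LinearMap.range (a c - 1).mulVecLin) ≤ 2 := le.trans_eq (finrank_fin_fun F)
  omega

theorem pw (v : W) : pp • v = 0 := by
  rw [← Nat.cast_smul_eq_nsmul F, ZMod.natCast_self, zero_smul]

/-- the framed Selmer group in the residual words -/
theorem cnt (r : Rs a S) (hc : IsConj c) (Q : ℕ → Ideal (𝓞 Qb)) (j : W →+ Pt A B)
    (ji : Function.Injective j) (jr : ∀ y, pp • y = 0 → ∃ v, j v = y)
    (jg : ∀ g v, ga g (j v) = j (a g *ᵥ v)) (M : Submodule F X) (hM : ∀ z, z ∈ M ↔ z ∈ Zg a S ∧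
      ∀ p ∈ S, (fun g => j (z g)) ∈ Bt.Km A B (dec (Q p))) :
    pp ^ finrank F M = pp * Top.sel A B S c Q := by
  have cc : c * c = 1 := hc.elim fun φ e => AlgEquiv.ext fun y => φ.injective (by simp [e])
  have dc : dt a c = -1 := hc.elim fun φ e => by rw [r.det, om, oz_cc e, map_neg, map_one]
  have := Lo.zg_fin r
  have : Module.Finite F M := Submodule.finiteDimensional_of_le (S₂ := Zg a S) fun z m => ((hM z).1 m).1
  let ev : X →ₗ[F] W := LinearMap.proj c
  have e1 := Li.fr_add ev M (M ⊓ LinearMap.ker ev) fun _ => Iff.rfl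
  have e2 : M.map ev = LinearMap.range (a c - 1).mulVecLin := by
    ext w
    constructor
    · rintro ⟨z, m, rfl⟩
      have hz := ((hM z).1 m).1
      have e := zc hz (g := c) (h := c) trivial trivial
      rw [cc, Ds.cl_one (zg_cl ⊤ hz)] at e
      refine ⟨-(2 : F)⁻¹ • z c, ?_⟩
      rw [mulVecLin_apply, sub_mulVec, one_mulVec, mulVec_smul, eq_neg_of_add_eq_zero_right e.symm,
        ← smul_sub, ← neg_add', ← two_smul F, smul_neg, smul_smul, neg_mul, inv_mul_cancel₀ two_ne,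
        neg_smul, neg_neg, one_smul]
      rfl
    · rintro ⟨v, rfl⟩
      refine ⟨d0 (rh a) v, (hM _).2 ⟨Ds.zg_of r.opn r.unr (Lo.b_le r.toR0 (Ul.d0_bl ⊤ v)) fun g m => by
        rw [Ul.d0_ap, r.unr g m, one_mulVec, sub_self], fun p _ => ⟨j v, fun g _ => ?_⟩⟩, ?_⟩
      · rw [jg, ← map_sub]; rfl
      · rw [mulVecLin_apply, sub_mulVec, one_mulVec]; rfl
  have : Module.Finite F ↥(M ⊓ LinearMap.ker ev) := Submodule.finiteDimensional_of_le inf_le_left
  have e3 := Module.natCard_eq_pow_finrank (K := F) (V := ↥(M ⊓ LinearMap.ker ev))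
  rw [Nat.card_zmod] at e3
  rw [e1, e2, rk1 cc dc, pow_add, pow_one, ← e3, Top.sel]
  refine congrArg _ (Nat.card_congr (Equiv.ofBijective (fun z => ⟨fun g => j (z.1 g),
    Bt.mem_Zs.2 ⟨⟨?_, fun g h => ?_, ⟨1, fun g => ?_⟩, fun g m => ?_, ?_⟩, ((hM _).1 z.2.1).2⟩,
    funext fun g => ?_⟩) ⟨fun x y e => Subtype.ext (funext fun g => ji (congrFun (congrArg Subtype.val e) g)),
    fun ⟨x, m, t⟩ => ?_⟩))
  · exact ((C1.lc (Z1.c1 ((hM _).1 z.2.1).1)).comp_continuous
      (f := fun g : GQ => (⟨g, trivial⟩ : (⊤ : Subgroup GQ))) (by fun_prop)).comp j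
  · simp only [zc ((hM _).1 z.2.1).1 (g := g) (h := h) trivial trivial, map_add, jg]
  · simp only [pow_one, ← map_nsmul, pw, map_zero]
  · simp only [Lo.zg_in ((hM _).1 z.2.1).1 m, map_zero]
  · exact (congrArg j z.2.2).trans (map_zero j)
  · rw [Pi.smul_apply, ← map_nsmul, pw, map_zero, Pi.zero_apply]
  · choose z hz using fun g => jr (x g) (congrFun t g)
    obtain ⟨⟨x1, x2, -, x4, x5⟩, x6⟩ := Bt.mem_Zs.1 m
    have z0 : ∀ g, x g = 0 → z g = 0 := fun g e => ji (by rw [hz, e, map_zero])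
    have o1 : x 1 = 0 := by simpa [P004M.TE.ga_one] using x2 1 1
    obtain ⟨U, u1, u2⟩ := ex_lv (x1 {0}) o1
    obtain rfl : (fun g => j (z g)) = x := funext hz
    exact ⟨⟨z, (hM z).2 ⟨Ds.zg_of r.opn r.unr ⟨fun g _ h _ => ji (by rw [map_add, ← jg]; exact x2 g h),
      U, u1, fun w _ m => z0 w (u2 m)⟩ fun g m => z0 g (x4 g m), x6⟩, z0 c x5⟩, rfl⟩

theorem tw0 (h : nu d g = 0) : tw d a g = a g := by
  change (if nu d g = 0 then 1 else -1 : F) • a g = _
  rw [if_pos h, one_smul]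

theorem tw1 (h : nu d g ≠ 0) : tw d a g = -a g := by
  change (if nu d g = 0 then 1 else -1 : F) • a g = _
  rw [if_neg h, neg_smul, one_smul]

/-- no cohomology at the ramified primes -/
theorem ram (r : Rs a S) (r' : R0 (tw d a)) (o : Ov l P) (n : l ∉ S) (h2 : l ≠ 2)
    (sq : Squarefree d) (dv : (l : ℤ) ∣ d) : Cl (tw d a) (dec P) ≤ Bl (tw d a) (dec P) := by
  obtain ⟨τ, t⟩ := P022E.GW.Tg.ex_gn' o
  have e : hz (tw d a) (dec P) = 0 := Submodule.finrank_eq_zero.2 ((Submodule.eq_bot_iff _).2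
    fun v hv => by
      have := Ul.mem_h0.1 hv τ (inP_le_dec t.1)
      rw [tw1 (by rw [P004S.nu_tau o h2 sq dv t]; exact one_ne_zero), r.unr τ ⟨l, n, P, o, t.1⟩,
        neg_mulVec, one_mulVec, neg_eq_iff_add_eq_zero, ← two_smul F] at this
      exact (smul_eq_zero.1 this).resolve_left two_ne)
  have k := dim _ l P r' o
  have := Lo.fin r' o
  rw [e, if_neg fun p : l = pp => n (p ▸ r.pm)] at k
  intro z m
  exact (Submodule.Quotient.mk_eq_zero _).1
    ((Submodule.eq_bot_iff _).1 (Submodule.finrank_eq_zero.1 k) _ ⟨z, m, rfl⟩)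

end Bq

open Bq

/-- the bridge, for any image -/
theorem brgA (kml : KML) (rse : RSE) (e : P014Y.F.Crv) (b : P014Y.F.Fld e) (pl : X4S.Pl)
    (hp : ∀ p ∈ e.S, pl.P p = e.P p) (par : Top.Par b) :
    Pa (rb e) (tw (-b.δ') (rb e)) pl e.S.toFinset (Sd b) := by
  obtain ⟨r, -, k⟩ := rse e
  obtain ⟨r1, r', hΓ, -, -, sq, -⟩ := k b
  have hD := hq e.par.disc
  have d0 : (-b.δ' : ℤ) ≠ 0 := neg_ne_zero.2 (Int.natCast_ne_zero.2 b.adm.sq.ne_zero)
  choose L hL using fun l : ℕ => show ∃ L : Submodule F X, l.Prime →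
      (L : Set X) = Km hD (dec (pl.P l)) ∧ Ot (rb e) (dec (pl.P l)) L = L from
    if p : l.Prime then (kml _ _ hD l _ (pl.ov l p)).imp fun _ h _ => h else ⟨⊥, fun q => absurd q p⟩
  have mL : ∀ l ∈ e.S.toFinset, ∀ z, z ∈ L l ↔ z ∈ Cl (rb e) (dec (pl.P l)) ∧
      (fun g => Cp.vv hD (z g)) ∈ Bt.Km e.A e.B (dec (pl.P l)) := fun l m z =>
    Set.ext_iff.1 (hL l (r.pr l m)).1 z
  have le : e.S.toFinset ⊆ Sd b := Finset.subset_union_left
  have bd : ∀ l : ℕ, l.Prime → l ∉ e.S.toFinset →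
      ¬ (l : ℤ) ∣ 2 * pp * (4 * e.A ^ 3 + 27 * e.B ^ 2) := fun l p n h => by
    have q := Nat.prime_iff_prime_int.1 p
    rw [List.mem_toFinset] at n
    rcases q.dvd_or_dvd h with h | h
    · rcases q.dvd_or_dvd h with h | h
      · exact n ((Nat.prime_dvd_prime_iff_eq p Nat.prime_two).1 (by exact_mod_cast h) ▸ e.two)
      · exact n ((Nat.prime_dvd_prime_iff_eq p pp_prime).1 (by exact_mod_cast h) ▸ e.pm)
    · exact (e.bad l p n).2.1 h
  have dd : 4 * (e.A * (-b.δ') ^ 2) ^ 3 + 27 * (e.B * (-b.δ') ^ 3) ^ 2 =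
      (4 * e.A ^ 3 + 27 * e.B ^ 2) * (-b.δ') ^ 6 := by ring
  obtain ⟨n, hn⟩ := par pl.P hp ⟨e.par.disc, fun p m => pl.ov p (r.pr p m), bd⟩
    ⟨dd ▸ mul_ne_zero e.par.disc (pow_ne_zero _ d0), fun p m => pl.ov p (r'.pr p m), fun l p n h => by
      have q := Nat.prime_iff_prime_int.1 p
      rw [dd, ← mul_assoc] at h
      exact (q.dvd_or_dvd h).elim (bd l p fun m => n (le m)) fun h => n (Finset.mem_union_right _
        (Nat.mem_primeFactors.2 ⟨p, Int.natCast_dvd_natCast.1 (dvd_neg.1 (q.dvd_of_dvd_pow h)),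
          b.adm.sq.ne_zero⟩))⟩
  refine ⟨L, fun l m => (hL l (r.pr l m)).2, ?_⟩
  have c1 := cnt r b.cc pl.P (Cp.vv hD) (Cp.vv_inj hD) (fun y h => ⟨_, Cp.vv_uv' hD h⟩) (Cp.ga_vv hD)
    (Sf (rb e) pl e.S.toFinset (Sd b) L) fun z => by
      rw [Sf, Li.mem_sl, ← unq _ pl _ _ r le r1.pr, Li.mem_sl, and_assoc]
      refine and_congr_right fun m => ⟨fun h => ⟨fun l p => ?_, fun l p => ?_⟩, fun h l p => ?_⟩
      · simpa only [if_neg (Finset.mem_sdiff.1 p).2] using h l (Finset.mem_sdiff.1 p).1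
      · exact ((mL l p z).1 (by simpa only [if_pos p] using h l (le p))).2
      · split_ifs with q
        exacts [(mL l q z).2 ⟨zg_cl _ m, h.2 l q⟩, h.1 l (Finset.mem_sdiff.2 ⟨p, q⟩)]
  obtain ⟨t, ht, -⟩ := P014T.Kx.twx d0 e.A e.B
  have jg : ∀ g v, ga g (t (Cp.vv hD v)) = t (Cp.vv hD (tw (-b.δ') (rb e) g *ᵥ v)) := fun g v => by
    rw [ht, Cp.ga_vv, sd]
    split_ifs with q
    · rw [tw0 q, one_smul]; rfl
    · rw [tw1 q, neg_mulVec, map_neg, neg_one_zsmul]; rfl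
  have c2 := cnt r' b.cc pl.P (t.toAddMonoidHom.comp (Cp.vv hD)) (t.injective.comp (Cp.vv_inj hD))
    (fun y h => ⟨Cp.uv hD (t.symm y), by
      show t _ = y
      rw [Cp.vv_uv' hD (by rw [← map_nsmul, h, map_zero]), t.apply_symm_apply]⟩) jg
    (Sf (tw (-b.δ') (rb e)) pl e.S.toFinset (Sd b) L) fun z => by
      rw [Sf, Li.mem_sl]
      refine and_congr_right fun m => forall₂_congr fun l p => ?_
      have o := pl.ov l (r'.pr l p)
      split_ifs with q
      · have s : ∀ g ∈ dec (pl.P l), nu (-b.δ') g = 0 := fun g x =>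
          (hΓ g).1 (sq l (List.mem_toFinset.1 q) _ o x)
        have u : ∀ g ∈ dec (pl.P l), ∀ y, ga g (t y) = t (ga g y) := fun g x y => by
          rw [ht, sd, if_pos (s g x), one_smul]
        rw [mL l q]
        refine ⟨fun ⟨_, y, h⟩ => ⟨t y, fun g x => ?_⟩, fun ⟨y, h⟩ => ⟨Ds.cl_congr
          (fun g x => (tw0 (s g x)).symm) (fun _ _ => rfl) (zg_cl _ m), t.symm y, fun g x =>
            t.injective ?_⟩⟩
        · rw [u g x, ← map_sub, ← h g x]; rfl
        · rw [map_sub, ← u g x, t.apply_symm_apply]; exact h g x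
      · have x := ram r r'.toR0 o q (fun h => q (h ▸ List.mem_toFinset.2 e.two))
          (fun x h => Int.squarefree_natCast.2 b.adm.sq x (dvd_neg.1 h)) (dvd_neg.2 (Int.natCast_dvd_natCast.2
            (Nat.dvd_of_mem_primeFactors ((Finset.mem_union.1 p).resolve_left q)))) (zg_cl _ m)
        refine iff_of_true (Ul.bl_ur r'.toR0 _ x) (x.elim fun v h => ⟨t (Cp.vv hD v), fun g y => ?_⟩)
        rw [jg, ← map_sub, ← map_sub]
        exact congrArg _ (h g y)
  have k : pp ^ (finrank F (Sf (rb e) pl e.S.toFinset (Sd b) L) +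
      finrank F (Sf (tw (-b.δ') (rb e)) pl e.S.toFinset (Sd b) L)) = pp ^ (2 * (n + 1) + 1) := by
    rw [pow_add, c1, c2, mul_mul_mul_comm, Sd, hn]; ring
  exact ⟨n + 1, Nat.pow_right_injective pp_prime.two_le k⟩

/-- **BRG** -/
theorem brg (kml : KML) (rse : RSE) : BRG := fun e b pl hp _ => brgA kml rse e b pl hp

end Vale.Agent.P014Y.Mu
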