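import Vale.Agent.P014Y.Mu.St1
import Vale.Agent.P014U.Cp.Nn

/-! # P014Y, block MU: the Kummer condition is Lagrangian (helper34) -/

set_option autoImplicit false
set_option linter.all false

noncomputable section

namespace Vale.Agent.P014Y.Mu

open NumberField Matrix
open scoped Classical
open Vale.Agent.P022 (Qb GQ)
open Vale.Agent.P022D.W (dec)
open Vale.Agent.P022E.GW (Ov)
open Vale.Agent.P022K Vale.Agent.P014U
open P004M.TE (Pt ga)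
open P014T.Wm (Fx)
open Cp (vv uv ab Zn pr ivP)
open Bt (dd dd_apply)

variable [Pp] {A B : ℤ} (h : 4 * (A : ℚ) ^ 3 + 27 * (B : ℚ) ^ 2 ≠ 0) {D : Subgroup GQ} {l : ℕ}
  {P : Ideal (𝓞 Qb)} {x y : X} {Q : Pt A B}

namespace Kl0

/-- the Kummer condition as a subspace -/
def KL (D : Subgroup GQ) : Submodule F X := AddSubgroup.toZModSubmodule pp
  ((Cl (ab h) D).toAddSubgroup ⊓ (Bt.Km A B D).comap ((vv h).compLeft GQ))

theorem mem_KL : x ∈ KL h D ↔ x ∈ Km h D := Iff.rfl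

theorem zn (m : y ∈ Cl (ab h) D) : Zn D 1 fun g => vv h (y g) :=
  ⟨(G2.C1.lc (F := F) (c := y) (m.2.imp fun U e => ⟨e.1, fun g p w q n => by
      rw [m.1 g p w q, e.2 w q n, mulVec_zero, add_zero]⟩)).comp (vv h),
    fun g p j q => by rw [m.1 g p j q, map_add, Cp.ga_vv], fun g _ => Cp.vv_two h _⟩

theorem fx (e : ∀ g ∈ D, vv h (x g) = ga g Q - Q) : pp ^ 1 • Q ∈ Fx A B D := fun g m => by
  rw [map_nsmul, ← sub_eq_zero, ← nsmul_sub, ← e g m, Cp.vv_two]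

/-- the cup product with a Kummer class is the pairing with the point -/
theorem key (o : Ov l P) (e : ∀ g ∈ dec P, vv h (x g) = ga g Q - Q) (m : y ∈ Cl (ab h) (dec P)) :
    L2.cu (ab h) x y ∈ L2.BB (ab h) (dec P) ↔
      pr (Ki.pr h) (ivP o) ⟨_, fx h e⟩ ⟨_, (zn h m).mem⟩ = 0 := by
  rw [Cp.pr_iff _ (ivP o) ⟨_, fx h e⟩ ⟨_, (zn h m).mem⟩ rfl (zn h m), L2.BB, Cp.dt_ab]
  exact (Cp.b2_iff h (G2.dec_closed P) (x := fun g _ => x g) (y := fun g j => ab h g *ᵥ y j)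
    fun g p j _ => by rw [Cp.cp, dd_apply, e g p, Cp.ga_vv]).symm

/-- the Kummer class of a rational point -/
theorem ex (cl : IsClosed (D : Set GQ)) (m : pp ^ 1 • Q ∈ Fx A B D) :
    ∃ x ∈ KL h D, ∀ g ∈ D, vv h (x g) = ga g Q - Q :=
  have z := Cp.to_z1 h cl (Cp.zn_dd m)
  ⟨_, ⟨⟨z.1, z.2.2⟩, Q, fun _ p => Cp.vv_ind h (Cp.zn_dd m) p⟩,
    fun _ p => Cp.vv_ind h (Cp.zn_dd m) p⟩

theorem lag (o : Ov l P) : Ot (ab h) (dec P) (KL h (dec P)) = KL h (dec P) := by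
  refine le_antisymm (fun y m => ⟨m.1, (Cp.nn h o (ivP o) ⟨_, (zn h m.1).mem⟩).1 fun t => ?_⟩)
    fun y m => ⟨m.1, fun x ⟨_, Q, e⟩ => (key h o e m.1).2 (Cp.pr_km h o _ _ _ m.2)⟩
  obtain ⟨t, f⟩ := t
  obtain ⟨Q, rfl⟩ := (Ki.pr h).dvp 1 t
  obtain ⟨x, n, e⟩ := ex h (G2.dec_closed P) f
  exact (key h o e m.1).1 (m.2 x n)

end Kl0

theorem kml : KML := fun _ _ h _ _ o => ⟨Kl0.KL h _, rfl, Kl0.lag h o⟩

end Vale.Agent.P014Y.Mu
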