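import Vale.Agent.P014Y.F.Pt.Pert
import Vale.Agent.P004F.Pt.Dh
import Vale.Agent.P004C.Al.Kin

/-!
# P014Y, block MU: ring class characters with prescribed ramification and unit values (helper55)
-/

set_option autoImplicit false
set_option linter.all false

open NumberField IsDedekindDomain
open scoped NumberTheorySymbols nonZeroDivisors

noncomputable section

namespace Vale.Agent.P014Y.F.Pt

open Vale.Agent.P022 (Qb GQ GK below IsConj)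
open P004K P004K.Rc P004R P004R.Xt
open Vale.Agent.P027M.S (Inert)
open Vale.Agent.P022D.W (dec)
open Vale.Agent.P022E.GW (Ov Fb)
open Vale.Agent.P004S (nu ov_dvd UnS)
open Vale.Agent.P014U
open Vale.Agent.P004F.Pt (km_comp fx_mul fx_pow km_pow fix_in fx_in mod_one fx_inv fx_cj km_cj km_in
  ex_dat cheb typ' ex_q cj_out cj_root Dh)
open Vale.Agent.P004C.Al.Kn (dual Gz ku ku_law kin)

variable [Pp]

variable {K : Type} [Field K] [NumberField K] {j : K →+* Qb} {ω θ : 𝓞 K} {s : 𝓞 K →+* 𝓞 K}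
  {δ l n : ℕ} {P : Ideal (𝓞 Qb)} {g : GQ} {ζ : Qb}

theorem Lm.of_dvd {N c : ℕ} {lam : 𝓞 K → ZMod N} (h : Lm s l lam) (d : l ∣ c) (k : ℤ) (a : 𝓞 K)
    (h0 : (k : 𝓞 K) + c * a ≠ 0) (e : IsCoprime k (c : ℤ)) : lam (k + c * a) = 0 := by
  obtain ⟨m, rfl⟩ := d
  rw [Nat.cast_mul, mul_assoc] at h0 ⊢
  exact h.rc k _ h0 (IsCoprime.of_mul_right_left (Nat.cast_mul (α := ℤ) l m ▸ e))

/-- the character attached to several primes -/
theorem chi (h2 : RC2) (h3 : RC3) (kd : Kd j δ) (q : Qd (JJ j) ω s)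
    (hθ : θ ^ 2 = -(δ : 𝓞 K)) {r : ClassGroup (𝓞 K) → (Ideal (𝓞 K))⁰} (r1 : r 1 = 1)
    (hr : ∀ x, ClassGroup.mk0 (r x) = x⁻¹) (hζ : IsPrimitiveRoot ζ (pp ^ (n + 1))) {Q : Finset ℕ}
    {lam : ℕ → 𝓞 K → ZMod (pp ^ (n + 1))}
    (hQ : ∀ l ∈ Q, l % pp ^ (n + 1) = 1 ∧ Lm s l (lam l) ∧ ¬ (l : ℤ) ∣ -δ ∧ ∃ P φ, Ov l P ∧
      φ ∈ GK j ∧ Fb l P φ ∧ ∀ a ≠ 0, Km ζ φ (j (qu s a)) (lam l a))
    (hA : ∀ x y, ∑ l ∈ Q, lam l (gn (K := K) (r x * r y * r (x * y)⁻¹ : (Ideal (𝓞 K))⁰)) = 0) :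
    ∃ e : GQ → ZMod (pp ^ (n + 1)), Dh j (∏ l ∈ Q, l) e ∧
      (∀ l ∈ Q, ∀ P', Ov l P' → ∃ τ ∈ GK j, Inert P' τ ∧ e τ = 1) ∧
      ∀ p P' ψ β y, Ov p P' → p ∉ Q → ψ ∈ GK j → Fb p P' ψ → β ≠ 0 →
        below j P' * (r y : Ideal (𝓞 K)) = Ideal.span {β} → e ψ = ∑ l ∈ Q, lam l β := by
  classical
  have pr (l) (m : l ∈ Q) : l.Prime := let ⟨_, _, _, _, _, o, _⟩ := hQ l m; o.1
  have lm (l) (m : l ∈ Q) := (hQ l m).2.1
  have c0 : 0 < ∏ l ∈ Q, l := Finset.prod_pos fun l m => (pr l m).pos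
  have nd {T : Finset ℕ} (t : T ⊆ Q) {p : ℕ} (hp : p.Prime) (ne : p ∉ T) : ¬ p ∣ ∏ l ∈ T, l :=
    fun a => by
      obtain ⟨l, a1, a2⟩ := (hp.prime.dvd_finset_prod_iff _).1 a
      exact ne ((Nat.prime_dvd_prime_iff_eq hp (pr l (t a1))).1 a2 ▸ a1)
  have hm : Lm s (∏ l ∈ Q, l) fun a => ∑ l ∈ Q, lam l a :=
    ⟨fun a b a0 b0 => by
      rw [← Finset.sum_add_distrib]; exact Finset.sum_congr rfl fun l m => (lm l m).add a b a0 b0,
    fun a a0 => Finset.sum_congr rfl fun l m => (lm l m).neg a a0,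
    fun k a a0 e => Finset.sum_eq_zero fun l m =>
      (lm l m).of_dvd (Finset.dvd_prod_of_mem _ m) k a a0 e⟩
  obtain ⟨F, f1, f2, f3⟩ := ex_f kd.upm hm r1 hr hA
  obtain ⟨e, add, ker, he⟩ := ex_e (j := j) h2 kd.iq c0 f1 fun x a h => by
    have a0 := mt Ideal.span_singleton_eq_bot.2 h.1
    rw [f2 _ a0]
    exact hm.rc x a a0 (q.cop_int h)
  have D : Dh j _ e := ⟨add, ker⟩
  refine ⟨e, D, fun l ml Q' o' => ?_, fun p Q' ψ β y op ne m fp β0 e1 => ?_⟩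
  · obtain ⟨md, hl, nδ, P, φ, o, hg, f, z⟩ := hQ l ml
    have l2 := ne_two_of md
    have hδ : J(-δ | l) = 1 := (ch_fb o f l2 nδ).symm.trans (if_pos ((kd.gk _).1 hg))
    obtain ⟨β, m, b0, b1, m5, un⟩ := ex_beta kd q hθ hζ o hδ hg f md
    obtain ⟨τ, i1, i2⟩ := (h3 K j kd.iq kd.upm).2 l _ (typ' kd q hθ o.1 l2 hδ) Q' o'.2.1 o'.2.2
    have ec := Finset.prod_erase_mul Q (fun l => l) ml
    have sub := Finset.erase_subset l Q
    have n1 := nd sub o.1 (Finset.notMem_erase l Q)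
    have s1 (a) := Finset.add_sum_erase Q (fun l => lam l a) ml
    have s2 (k : ℤ) (a : 𝓞 K) a0 e := Finset.sum_eq_zero (s := Q.erase l) fun l' m' =>
      (lm l' (sub m')).of_dvd (Finset.dvd_prod_of_mem (fun l => l) m') k a a0 e
    generalize ∏ l ∈ Q.erase l, l = c at ec n1 s2
    rw [← ec] at D he c0
    have c1 : 0 < c := Nat.pos_of_mul_pos_right c0
    obtain ⟨g1, -, g3⟩ := i2 c c1 n1
    obtain ⟨u, v, uv⟩ := Nat.isCoprime_iff_coprime.2 ((Nat.Prime.coprime_iff_not_dvd o.1).2 n1)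
    obtain ⟨u', v', uv'⟩ := m5
    have k1 := congrArg (Int.cast : ℤ → 𝓞 K) uv
    have k2 := congrArg (Int.cast : ℤ → 𝓞 K) uv'
    push_cast at k1 k2
    obtain ⟨γ, hγ⟩ : ∃ γ : 𝓞 K, γ = ((1 : ℤ) : 𝓞 K) + c * (v * (β - 1)) := ⟨_, rfl⟩
    have k3 : γ * s β = m + l * (-u * (β - 1) * s β) := by
      rw [hγ]; push_cast; linear_combination b1 + (β - 1) * s β * k1
    have k4 : IsCoprime γ (l : 𝓞 K) :=
      ⟨u' * s β, v' + u' * u * (β - 1) * s β, by linear_combination u' * k3 + k2⟩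
    have k5 : IsCoprime γ (c : 𝓞 K) := ⟨1, -(v * (β - 1)), by rw [hγ]; push_cast; ring⟩
    have γ0 : γ ≠ 0 := fun a => by
      obtain ⟨x, y, k⟩ := k4
      rw [a, mul_zero, zero_add] at k
      have := congrArg (iz j) k
      rw [map_mul, map_natCast, map_one] at this
      exact Mu.one_nm o (this ▸ P.mul_mem_left _ o.2.2)
    have s0 : s β ≠ 0 := fun a => s_ne q b0 (by rw [a]; rfl)
    have cp : Cop (c * l) (Ideal.span {γ}) := by
      obtain ⟨x, y, k⟩ := k5.mul_right k4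
      exact cop_of (mt Ideal.span_singleton_eq_bot.1 γ0) (u := x * γ) (b := y)
        (Ideal.mul_mem_left _ _ (Ideal.mem_span_singleton_self _)) (by
          push_cast; linear_combination k)
    have k6 : lam l γ = lam l β := by
      refine add_right_cancel (b := lam l (s β)) ?_
      have a1 := hl.rc m _ (k3 ▸ mul_ne_zero γ0 s0) ⟨u', v', uv'⟩
      have k7 : β * s β = m + l * 0 := by rw [b1, mul_zero, add_zero]
      have a2 := hl.rc m _ (k7 ▸ mul_ne_zero b0 s0) ⟨u', v', uv'⟩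
      rw [← hl.add _ _ γ0 s0, ← hl.add _ _ b0 s0, k3, k7, a1, a2]
    obtain ⟨x, hx⟩ := (h2 K j kd.iq _ c0).1 _ cp
    obtain ⟨-, -, -, -, r5, r6, -⟩ := h2 K j kd.iq c c1
    obtain ⟨i, hi⟩ := g3 x ((r5 _ x (cop_dvd cp) (r6 l _ x o.1.pos cp hx)).2 ⟨_, _, by rw [hγ]⟩)
    have e1 := D.of_mem hx.1 hi
    rw [D.pow g1.1, nsmul_eq_mul, he _ _ cp hx, f2 _ γ0, ← s1, hγ,
      s2 _ _ (hγ ▸ γ0) isCoprime_one_left, ← hγ, add_zero, k6] at e1
    obtain ⟨w, hw⟩ := (isUnit_of_mul_isUnit_right (e1 ▸ un _ (z β b0))).exists_left_inv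
    exact ⟨τ ^ w.val, pow_mem g1.1 _, (P022.H443.inP Q').pow_mem i1 _, by
      rw [D.pow g1.1, nsmul_eq_mul, ZMod.natCast_zmod_val, hw]⟩
  · have pl := nd subset_rfl op.1 ne
    have lm : (p : 𝓞 K) ∈ below j Q' := by rw [mem_below, map_natCast]; exact op.2.2
    have nb := norm_below kd.iq op fp m
    generalize ∏ l ∈ Q, l = c at pl he c0
    have ar := (h2 K j kd.iq c c0).2.2.2.2.2.2 Q' op.2.1
      (fun a => op.1.ne_zero (by simpa [a] using op.2.2))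
      (fun a => pl (Int.natCast_dvd_natCast.1 (ov_dvd op (by simpa using a)))) _ m 1
      (by simpa only [nb, pow_one, Fb] using fp)
    obtain ⟨u, w, uv⟩ := Nat.isCoprime_iff_coprime.2 ((Nat.Prime.coprime_iff_not_dvd op.1).2 pl)
    rw [pow_one] at ar
    have I0 : below j Q' ≠ ⊥ := fun a => op.1.ne_zero (by simpa [a] using lm)
    rw [he _ _ (cop_of I0 (Ideal.mul_mem_left _ (u : 𝓞 K) lm) (b := w)
      (by rw [mul_comm (c : 𝓞 K)]; exact_mod_cast congrArg (Int.cast : ℤ → 𝓞 K) uv)) ar]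
    obtain ⟨y', γ, γ0, a1, a2⟩ := f3 _ I0
    have cl {y γ} (a : below j Q' * (r y : Ideal (𝓞 K)) = Ideal.span {γ}) :
        ClassGroup.mk0 ⟨_, mem_nonZeroDivisors_of_ne_zero I0⟩ = y := by
      have a3 : ClassGroup.mk0 (⟨_, mem_nonZeroDivisors_of_ne_zero I0⟩ * r y) = 1 :=
        (ClassGroup.mk0_eq_one_iff _).2 ⟨γ, a⟩
      rwa [map_mul, hr, mul_inv_eq_one] at a3
    rw [a2, ← f2 _ γ0, ← a1, ← cl a1, cl e1, e1, f2 _ β0]

omit [Pp] in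
/-- inertia at a ramified prime -/
theorem ex_t (kd : Kd j δ) : ∃ l P τ, Ov l P ∧ l ∣ δ ∧ Inert P τ ∧ τ ∉ GK j := by
  obtain ⟨l, hl, d⟩ := Nat.exists_prime_and_dvd (n := δ) (by have := kd.m8; omega)
  obtain ⟨P, o⟩ := Mu.ex_pl hl
  obtain ⟨τ, t⟩ := P022E.GW.Tg.ex_gn' o
  exact ⟨l, P, τ, o, d, t.1, fun m => one_ne_zero ((P004S.nu_tau o
    (by have := kd.m8; rintro rfl; omega) (Int.squarefree_natAbs.1 (by simpa using kd.sq))
      (dvd_neg.2 (Int.natCast_dvd_natCast.2 d)) t).symm.trans ((kd.gk τ).1 m))⟩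

omit [Pp] in
theorem mul_out (kd : Kd j δ) {h : GQ} (hg : g ∉ GK j) (hh : h ∉ GK j) : g * h ∈ GK j := by
  rw [kd.gk] at *
  rw [P004S.nu_mul, (P004S.z2 _).resolve_left hg, (P004S.z2 _).resolve_left hh]; rfl

/-- an element of the group of `K` which inverts the roots of unity -/
theorem ex_sg (kd : Kd j δ) (hp : ¬ pp ∣ δ) (hζ : ζ ^ pp ^ (n + 1) = 1) :
    ∃ σ ∈ GK j, σ ζ = ζ ^ (pp ^ (n + 1) - 2 + 1) := by
  obtain ⟨l, P, τ, o, d, i, t⟩ := ex_t kd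
  obtain ⟨c, cc⟩ := Mu.ex_k
  refine ⟨c * τ, mul_out kd (fun a => one_ne_zero ((P004S.nu_neg_conj (neg_neg_of_pos
    (Int.natCast_pos.2 (Nat.pos_of_ne_zero kd.sq.ne_zero))) cc).symm.trans ((kd.gk _).1 a))) t, ?_⟩
  have := one_lt_pow' n
  rw [AlgEquiv.mul_apply, inert_mu o (fun a => hp (a ▸ d)) i _ ζ hζ, cj_root cc (by omega) hζ]
  refine inv_eq_of_mul_eq_one_left ?_
  rw [← pow_succ, show pp ^ (n + 1) - 2 + 1 + 1 = pp ^ (n + 1) by omega, hζ]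

/-- **Kummer duality**: a prescribed symbol at the prime above `pp` -/
theorem kum (kd : Kd j δ) (q : Qd (JJ j) ω s) (hθ : θ ^ 2 = -(δ : 𝓞 K))
    (hζ : IsPrimitiveRoot ζ (pp ^ (n + 1))) (o : Ov pp P) (hd : dec P ≤ GK j)
    (nb : Ideal.absNorm (below j P) = pp) {β : 𝓞 K} {x : ℤ} (mβ : β ∈ below j P)
    (e : β * s β = (pp * x : ℤ)) (hx : ¬ (pp : ℤ) ∣ x) (A : Finset (𝓞 K))
    (hA : ∀ a ∈ A, ∃ w : ℤ, a * s a = w ∧ ¬ (pp : ℤ) ∣ w) (b : ZMod (pp ^ (n + 1))) :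
    ∃ g ∈ GK j, Fx {1} (pp ^ (n + 1)) g ∧ Km ζ g (j (qu s β)) b ∧
      ∀ a ∈ A, Km ζ g (j (qu s a)) (0 : ZMod (pp ^ (n + 1))) := by
  classical
  have x0 : x ≠ 0 := fun k => hx (k ▸ dvd_zero _)
  have b0 : β ≠ 0 := fun k => mul_ne_zero (Int.natCast_ne_zero.2 pp_ne) x0
    (by rw [k, zero_mul] at e; exact_mod_cast e.symm)
  have a0 (a : A) : (a : 𝓞 K) ≠ 0 := fun k => by
    obtain ⟨w, e1, e2⟩ := hA a a.2
    rw [k, zero_mul, eq_comm, Int.cast_eq_zero] at e1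
    exact e2 (e1 ▸ dvd_zero _)
  obtain ⟨u, u0, u1⟩ : ∃ u : Option A → Kˣ, (u none : K) = qu s β ∧
      ∀ a : A, (u (some a) : K) = qu s a :=
    ⟨fun i => i.elim (Units.mk0 _ ((map_ne_zero j).1 (qu_ne q b0)))
      fun a => Units.mk0 _ ((map_ne_zero j).1 (qu_ne q (a0 a))), rfl, fun _ => rfl⟩
  let v : HeightOneSpectrum (𝓞 K) := ⟨below j P, Ideal.IsPrime.comap _ (hK := o.2.1),
    fun k => pp_ne (by rw [← nb, k]; simp)⟩
  have v1 (a : A) : v.valuation K (u (some a)) = 1 := by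
    obtain ⟨w, e1, e2⟩ := hA a a.2
    rw [u1]
    exact qu_val v fun k => e2 (ov_dvd o (by rwa [e1, mem_below, map_intCast] at k))
  have v0 : WithZero.log (v.valuation K (u none)) = -1 := by
    rw [u0, qu, map_div₀, RingOfIntegers.coe_eq_algebraMap, RingOfIntegers.coe_eq_algebraMap,
      (v.valuation_eq_one_iff_notMem).2 (not_both kd q hθ o hd e hx mβ), div_one,
      v.valuation_of_algebraMap]
    have n0 := v.intValuation_ne_zero β b0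
    have k1 := (WithZero.log_le_iff_le_exp n0).2 ((v.intValuation_le_pow_iff_mem β 1).2
      (by rwa [pow_one]))
    have k2 := mt (fun k => (v.intValuation_le_pow_iff_mem β 2).1
      ((WithZero.log_le_iff_le_exp n0).1 k)) fun k => by
        have := Ideal.absNorm_dvd_absNorm_of_le ((Ideal.span_singleton_le_iff_mem _).2 k)
        rw [nm_eq kd.iq q e, map_pow, nb, Int.natAbs_mul, Int.natAbs_natCast, pow_two,
          Nat.mul_dvd_mul_iff_left pp_pos] at this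
        exact hx (Int.natCast_dvd.2 this)
    push_cast at k1 k2
    omega
  obtain ⟨σ, s1, s2⟩ := ex_sg kd (fun k => nd_del kd o hd (Int.natCast_dvd_natCast.2 k))
    hζ.pow_eq_one
  let B : AddSubgroup (Option A → ZMod (pp ^ (n + 1))) :=
    { carrier := {w | ∃ g : Gz ζ j, ∀ i, w i = (ku j hζ (u i) g).toAdd}
      zero_mem' := ⟨1, fun i => by rw [map_one]; rfl⟩
      add_mem' := fun ⟨g, a⟩ ⟨h, b⟩ => ⟨g * h, fun i => by
        rw [map_mul, toAdd_mul, ← a, ← b]; rfl⟩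
      neg_mem' := fun ⟨g, a⟩ => ⟨g⁻¹, fun i => by rw [map_inv, toAdd_inv, ← a]; rfl⟩ }
  obtain ⟨g, hg⟩ := dual B (fun i => i.elim b fun _ => 0) fun a h => by
    obtain ⟨-, z, hz⟩ := kin hζ (σ := ⟨σ, s1⟩) s2 1 (∏ i, u i ^ (a i).val) fun g => by
      rw [MonoidHom.one_apply, one_mul, map_prod, MonoidHom.finset_prod_apply]
      refine Multiplicative.toAdd.injective ?_
      rw [toAdd_prod, toAdd_one, ← h _ ⟨g, fun _ => rfl⟩]
      exact Finset.sum_congr rfl fun i _ => by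
        rw [map_pow, MonoidHom.pow_apply, toAdd_pow, nsmul_eq_mul, ZMod.natCast_zmod_val]
    have k := congrArg (fun y : Kˣ => WithZero.log (v.valuation K y)) hz
    simp only [Units.val_pow_eq_pow_val, map_pow, Fintype.prod_option, Units.val_mul, map_mul,
      Units.coe_prod, map_prod, v1, one_pow, Finset.prod_const_one, mul_one, WithZero.log_pow, v0,
      nsmul_eq_mul] at k
    have c : (pp ^ (n + 1)).Coprime (pp ^ (n + 1) - 2) := by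
      rw [Nat.coprime_self_sub_right (one_lt_pow' n)]
      exact ((Nat.coprime_primes pp_prime Nat.prime_two).2 two_lt.ne').pow_left _
    have d : pp ^ (n + 1) ∣ (a none).val := (c.mul_right c).dvd_of_dvd_mul_left
      (Int.natCast_dvd_natCast.1 ⟨-WithZero.log (v.valuation K z), by
        push_cast at k ⊢; linear_combination -k⟩)
    simp [Fintype.sum_option,
      (ZMod.natCast_zmod_val (a none)).symm.trans ((ZMod.natCast_eq_zero_iff _ _).2 d)]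
  refine ⟨g.1.1, g.1.2, fun y hy => ?_, fun y hy => ?_, fun a m y hy => ?_⟩
  · obtain ⟨i, -, rfl⟩ := hζ.eq_pow_of_pow_eq_one hy
    rw [map_pow, show g.1.1 ζ = ζ from g.2]
  · rw [ku_law hζ (u none) g (hy.trans (congrArg j u0.symm)), ← hg none]; rfl
  · rw [ku_law hζ (u (some ⟨a, m⟩)) g (hy.trans (congrArg j (u1 ⟨a, m⟩).symm)), ← hg]; rfl

variable (j) in
/-- the numbers of `K` which are inverted by the conjugation -/
def N1 : Set Qb := {x | x ≠ 0 ∧ (∀ g ∈ GK j, g x = x) ∧ ∀ g ∉ GK j, g x = x⁻¹}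

omit [Pp] in
theorem qu_mem (q : Qd (JJ j) ω s) {a : 𝓞 K} (a0 : a ≠ 0) : j (qu s a) ∈ N1 j :=
  ⟨qu_ne q a0, fun g hg => hg _, fun g hg => by
    rw [qu, map_div₀, map_div₀, cj_out q hg, cj_out q hg, q.ss, inv_div]⟩

omit [Pp] in
theorem fx_of {N : ℕ} (h : Fx (N1 j) N g) : Fx {1} N g := fun y hy =>
  h y (by rw [Set.mem_singleton_iff.1 hy]; exact ⟨one_ne_zero, by simp, by simp⟩)

omit [Pp] in
/-- elements which fix all the roots -/
theorem fx_n1 {N : ℕ} (N0 : N ≠ 0) {τ : GQ} (hg : g ∈ GK j) (hτ : τ ∉ GK j) (f : Fx {1} N g)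
    (f' : Fx {1} N τ) : Fx (N1 j) N (g * (τ * g * τ⁻¹)) := fun y ⟨u0, u1, u2⟩ => by
  have y0 : y ≠ 0 := fun k => u0 (by rw [k, zero_pow N0])
  have g0 : g y ≠ 0 := (map_ne_zero g).2 y0
  have e0 : (g y / y) ^ N ∈ ({1} : Set Qb) := by
    rw [div_pow, ← map_pow, u1 g hg, div_self u0]; rfl
  have e1 := f (τ⁻¹ y * y) (by
    rw [mul_pow, ← map_pow, u2 _ (mt inv_mem_iff.1 hτ), inv_mul_cancel₀ u0]; rfl)
  have e2 : g (τ⁻¹ y) = τ⁻¹ y / (g y / y) := by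
    rw [map_mul] at e1
    rw [div_div_eq_mul_div, ← e1, mul_div_cancel_right₀ _ g0]
  rw [AlgEquiv.mul_apply, AlgEquiv.mul_apply, AlgEquiv.mul_apply, e2, map_div₀, f' _ e0,
    show τ (τ⁻¹ y) = y from τ.apply_symm_apply y, map_div₀, f _ e0, div_div_cancel₀ g0]

omit [Pp] in
theorem ex_pw {N : ℕ} (N0 : N ≠ 0) {y : Qb} (h : y ^ N = 1) (g : GQ) : ∃ i, g y = y ^ i := by
  have := NeZero.mk (isOfFinOrder_iff_pow_eq_one.2 ⟨N, Nat.pos_of_ne_zero N0, h⟩).orderOf_pos.ne'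
  obtain ⟨i, -, e⟩ := (IsPrimitiveRoot.orderOf y).eq_pow_of_pow_eq_one (ξ := g y)
    (by rw [← map_pow, pow_orderOf_eq_one, map_one])
  exact ⟨i, e.symm⟩

omit [Pp] in
/-- commutators fix the roots of unity -/
theorem fx_cm {N : ℕ} (N0 : N ≠ 0) (g h : GQ) : Fx {1} N (g * h * g⁻¹ * h⁻¹) := fun y hy => by
  have e : (g⁻¹ (h⁻¹ y)) ^ N = 1 := by
    rw [← map_pow, ← map_pow, Set.mem_singleton_iff.1 hy, map_one, map_one]
  obtain ⟨i, hi⟩ := ex_pw N0 e g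
  obtain ⟨k, hk⟩ := ex_pw N0 e h
  have : g (h (g⁻¹ (h⁻¹ y))) = h (g (g⁻¹ (h⁻¹ y))) := by
    rw [hi, hk, map_pow, map_pow, hi, hk, ← pow_mul, ← pow_mul, mul_comm]
  rw [AlgEquiv.mul_apply, AlgEquiv.mul_apply, AlgEquiv.mul_apply, this,
    show g (g⁻¹ (h⁻¹ y)) = h⁻¹ y from g.apply_symm_apply _]
  exact h.apply_symm_apply y

omit [Pp] in
/-- all Frobenius elements above a split prime have the same value up to sign -/
theorem fb_pm (h1 : RC1) (h2 : RC2) (iq : Iq K) {A : Type} [AddCommGroup A] {c : ℕ} {e : GQ → A}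
    (D : Dh j c e) (o : Ov l P) (hc : ¬ l ∣ c) (hd : dec P ≤ GK j) (f : Fb l P g)
    {P' : Ideal (𝓞 Qb)} {g' : GQ} (o' : Ov l P') (f' : Fb l P' g') : e g' = e g ∨ e g' = -e g := by
  obtain ⟨t, i, hi, rfl⟩ := Wr.fb_cj o f ⟨P', o'.2.1, o'.2.2, f'⟩
  have mi := hd (P004S.inert_dec hi)
  have m := hd (P022D.W.phi_mem o.1 o.2.1 f)
  have := D.cj h1 iq (Nat.pos_of_ne_zero fun e => hc (e ▸ dvd_zero l)) t (mul_mem mi m)
  rwa [D.add _ mi _ m, D.ker _ (Wr.inert_hc h2 iq o hc mi hi), zero_add] at this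

/-- **the tower**: one more prime, total ramification, prescribed values -/
theorem twr (h2 : RC2) (h3 : RC3) (kd : Kd j δ) {S Q : Finset ℕ} {P : ℕ → Ideal (𝓞 Qb)}
    {φ : ℕ → GQ} (hS : ∀ p ∈ S, Ov p (P p) ∧ dec (P p) ≤ GK j ∧ Fb p (P p) (φ p)) (S2 : pp ∈ S)
    (b : ℕ → ZMod (pp ^ (n + 1)))
    (hQ : ∀ l ∈ Q, l.Prime ∧ l ∉ S ∧ l % pp ^ (n + 1) = 1 ∧ ∀ P, Ov l P → dec P ≤ GK j)
    {U : Subgroup GQ} (hU : IsOpen (U : Set GQ)) {G : GQ → Prop}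
    (stb : ∀ g, ∀ u ∈ U, G g → G (g * u))
    (ex : ∀ h ∈ GK j, Fx {1} (pp ^ (n + 1)) h →
      ∃ k ∈ GK j, Fx (N1 j) (pp ^ (n + 1)) k ∧ G (h * k)) (T : Finset ℕ) :
    ∃ (q : ℕ) (P : Ideal (𝓞 Qb)) (ψ : GQ) (e : GQ → ZMod (pp ^ (n + 1))), q ∉ T ∧ q ∉ S ∧ q ∉ Q ∧
      ¬ q ∣ δ ∧ Ov q P ∧ ψ ∈ GK j ∧ Fb q P ψ ∧ q % pp ^ (n + 1) = 1 ∧ G ψ ∧
      Dh j (∏ l ∈ insert q Q, l) e ∧
      (∀ l ∈ insert q Q, ∀ P', Ov l P' → ∃ τ ∈ GK j, Inert P' τ ∧ e τ = 1) ∧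
      ∀ p ∈ S, e (φ p) = b p := by
  classical
  obtain ⟨ω, s, q⟩ := ex_q j kd.iq
  obtain ⟨θ, hθ⟩ : ∃ θ : 𝓞 K, θ ^ 2 = -(δ : 𝓞 K) := by
    obtain ⟨θ, e⟩ := kd.rt
    refine ⟨⟨θ, IsIntegral.of_pow two_pos (e ▸ (isIntegral_natCast δ).neg)⟩, RingOfIntegers.ext ?_⟩
    exact (map_pow (algebraMap (𝓞 K) K) _ 2).trans (e.trans (by simp))
  have oS (p) (m : p ∈ S) := (hS p m).1
  have dS (p) (m : p ∈ S) := (hS p m).2.1
  obtain ⟨r, β, x, r1, hr, hβ, hα⟩ := ex_dat kd q hS one_pos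
  obtain ⟨ζ, hζ⟩ := HasEnoughRootsOfUnity.exists_primitiveRoot Qb (pp ^ (n + 1))
  have exl (l : ℕ) : ∃ lam : 𝓞 K → ZMod (pp ^ (n + 1)), l ∈ Q → l % pp ^ (n + 1) = 1 ∧
      Lm s l lam ∧ ¬ (l : ℤ) ∣ -δ ∧ ∃ P φ, Ov l P ∧ φ ∈ GK j ∧ Fb l P φ ∧
        ∀ a ≠ 0, Km ζ φ (j (qu s a)) (lam a) := by
    by_cases m : l ∈ Q
    · obtain ⟨hl, -, md, d⟩ := hQ l m
      obtain ⟨P, o⟩ := Mu.ex_pl hl
      obtain ⟨φ, f⟩ := P022D.W.exists_phi o.1 o.2.1 o.2.2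
      have k := d _ o (P022D.W.phi_mem hl o.2.1 f)
      exact (lam1 q hζ o k f md).imp fun _ a _ =>
        ⟨md, a.1, fun a => nd_del kd o (d _ o) (dvd_neg.1 a), P, φ, o, k, f, a.2⟩
    · exact ⟨0, fun a => absurd a m⟩
  choose lam hl using exl
  obtain ⟨h, k1, k2, k3⟩ : ∃ h ∈ GK j, Fx {1} (pp ^ (n + 1)) h ∧
      ∀ a ≠ 0, Km ζ h (j (qu s a)) (-∑ l ∈ Q, lam l a) := by
    have : ∀ T ⊆ Q, ∃ h ∈ GK j, Fx {1} (pp ^ (n + 1)) h ∧
        ∀ a ≠ 0, Km ζ h (j (qu s a)) (-∑ l ∈ T, lam l a) := fun T => by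
      induction T using Finset.induction_on with
      | empty => exact fun _ => ⟨1, one_mem _, fun _ _ => rfl, fun a _ => by
          simpa using km_zero (N := pp ^ (n + 1)) (ζ := ζ) (g := 1) fun _ _ => rfl⟩
      | insert l T hT ih =>
        intro t
        obtain ⟨h, a1, a2, a3⟩ := ih ((Finset.subset_insert _ _).trans t)
        obtain ⟨md, -, -, P, φ, o, m, f, k⟩ := hl l (t (Finset.mem_insert_self _ _))
        have f := fx_one o f md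
        refine ⟨h * φ ^ (-1 : ZMod (pp ^ (n + 1))).val, mul_mem a1 (pow_mem m _),
          fx_mul a2 (fx_pow f _), fun a a0 => ?_⟩
        have := km_comp hζ a2 (a3 a a0) (km_pow hζ f (k a a0) (-1 : ZMod (pp ^ (n + 1))).val)
        rw [Finset.sum_insert hT, neg_add_rev]
        rwa [ZMod.natCast_zmod_val, neg_one_mul] at this
    exact this Q subset_rfl
  have nd (l : ℕ) (d : l ∈ S) (p) (m : p ∈ S) (ne : l ≠ p) : ¬ (l : ℤ) ∣ p * x p := fun a =>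
    ((Nat.prime_iff_prime_int.1 (oS l d).1).dvd_or_dvd a).elim
      (fun a => ne ((Nat.prime_dvd_prime_iff_eq (oS l d).1 (oS p m).1).1 (Int.natCast_dvd_natCast.1 a)))
      ((hβ p m).2.2.2.2 l (oS l d).1 (.inr d))
  obtain ⟨A, A1, A2⟩ : ∃ A : Finset (𝓞 K), (∀ a ∈ A, ∃ x y,
      gn (K := K) (r x * r y * r (x * y)⁻¹ : (Ideal (𝓞 K))⁰) = a) ∧ ∀ x y,
      gn (K := K) (r x * r y * r (x * y)⁻¹ : (Ideal (𝓞 K))⁰) ∈ A :=
    ⟨Finset.univ.image fun t : ClassGroup (𝓞 K) × ClassGroup (𝓞 K) =>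
      gn (K := K) (r t.1 * r t.2 * r (t.1 * t.2)⁻¹ : (Ideal (𝓞 K))⁰),
      fun a m => let ⟨t, _, e⟩ := Finset.mem_image.1 m; ⟨_, _, e⟩,
      fun x y => Finset.mem_image.2 ⟨(x, y), Finset.mem_univ _, rfl⟩⟩
  have mβ : β pp ∈ below j (P pp) := by
    obtain ⟨y, e⟩ := (hβ _ S2).2.2.1
    refine Ideal.mul_le_left (J := (r y : Ideal (𝓞 K))) ?_
    rw [e]
    exact Ideal.mem_span_singleton_self _
  have hA (a) (m : a ∈ A ∪ (S.erase pp).image β) : ∃ w : ℤ, a * s a = w ∧ ¬ (pp : ℤ) ∣ w := by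
    rcases Finset.mem_union.1 m with m | m
    · obtain ⟨x, y, rfl⟩ := A1 a m
      exact (hα x y).2.imp fun w e => ⟨e.1, e.2 _ pp_prime (.inr S2)⟩
    · obtain ⟨p, t, rfl⟩ := Finset.mem_image.1 m
      have m' := Finset.mem_of_mem_erase t
      exact ⟨_, (hβ p m').2.2.2.1, nd _ S2 p m' (Finset.ne_of_mem_erase t).symm⟩
  obtain ⟨g₀, a1, a2, a3, a4⟩ := kum kd q hθ hζ (oS _ S2) (dS _ S2)
    (norm_below kd.iq (oS _ S2) (hS _ S2).2.2 (hβ _ S2).1) mβ (hβ _ S2).2.2.2.1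
    ((hβ _ S2).2.2.2.2 _ pp_prime (.inr S2)) _ hA (b pp)
  obtain ⟨g₁, g1, g2, g3, g4⟩ := ex_g kd q hθ hζ (P := P) (β := β) (x := x) b (S.erase pp)
    fun p m =>
      have m' := Finset.mem_of_mem_erase m
      ⟨oS p m', Finset.ne_of_mem_erase m, dS p m', (hβ p m').2.2.2.1, fun l a =>
        (hβ p m').2.2.2.2 l (oS l (Finset.mem_of_mem_erase a)).1 (.inr (Finset.mem_of_mem_erase a))⟩
  have f1 := fx_mul a2 (g2 (n + 1))
  have b1 (p) (m : p ∈ S) : Km ζ (g₀ * g₁) (j (qu s (β p))) (b p) := by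
    by_cases p2 : p = pp
    · subst p2
      simpa using km_comp hζ a2 a3 (g3 _ _ (hβ pp m).2.2.2.1 fun l a =>
        nd l (Finset.mem_of_mem_erase a) pp m (Finset.ne_of_mem_erase a))
    · have m' := Finset.mem_erase.2 ⟨p2, m⟩
      simpa using km_comp hζ a2 (a4 _ (Finset.mem_union_right _ (Finset.mem_image_of_mem β m')))
        (g4 p m')
  have b2 (a) (m : a ∈ A) : a ≠ 0 ∧ Km ζ (g₀ * g₁) (j (qu s a)) (0 : ZMod (pp ^ (n + 1))) := by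
    have := a4 a (Finset.mem_union_left _ m)
    obtain ⟨x, y, rfl⟩ := A1 a m
    obtain ⟨a0, w, e1, e2⟩ := hα x y
    exact ⟨a0, by simpa using km_comp hζ a2 this (g3 _ w e1 fun l a =>
      e2 l (oS l (Finset.mem_of_mem_erase a)).1 (.inr (Finset.mem_of_mem_erase a)))⟩
  have m1 := mul_mem (mul_mem a1 g1) k1
  have f2 := fx_mul f1 k2
  obtain ⟨k, t1, t2, t3⟩ := ex _ m1 f2
  have key (a : 𝓞 K) (a0 : a ≠ 0) (v : ZMod (pp ^ (n + 1))) (e : Km ζ (g₀ * g₁) (j (qu s a)) v) :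
      Km ζ (g₀ * g₁ * h * k) (j (qu s a)) (v + -∑ l ∈ Q, lam l a) := by
    have := km_comp hζ f2 (km_comp hζ f1 e (k3 a a0))
      (km_zero (ζ := ζ) (g := k) fun z hz => t2 z (hz ▸ qu_mem q a0))
    rwa [add_zero] at this
  have u1 := mul_mem m1 t1
  have u2 := fx_mul f2 (fx_of t2)
  generalize g₀ * g₁ * h * k = u at key u1 u2 t3
  choose rt hrt using fun u : Qb => Xt.rt (pp ^ (n + 1)) u
  have hG : GK j = P004S.kn (-(δ : ℤ)) := Subgroup.ext kd.gk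
  obtain ⟨l, ψ, P₀, hT, o, f, ⟨m2, m3⟩, m4⟩ := cheb u (W := U ⊓ P004S.kn (-(δ : ℤ)))
    (hU.inter (P004S.kn_open _)) (insert ζ ((A ∪ S.image β).image fun a => rt (j (qu s a))))
    (T ∪ S ∪ Q ∪ δ.primeFactors)
  simp only [Finset.mem_union, not_or] at hT
  obtain ⟨⟨⟨lT, lS⟩, lQ⟩, lδ⟩ := hT
  have hψ : ψ ∈ GK j := mul_inv_cancel_left u ψ ▸ mul_mem u1 (hG ▸ m3 : u⁻¹ * ψ ∈ GK j)
  have nδ : ¬ l ∣ δ := fun a => lδ (Nat.mem_primeFactors.2 ⟨o.1, a, kd.sq.ne_zero⟩)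
  have md : l % pp ^ (n + 1) = 1 := mod_one o f (nd_pp o (fun e => lS (e ▸ S2)) _) (one_lt_pow' _) hζ
    ((m4 ζ (Finset.mem_insert_self _ _)).trans (u2 ζ hζ.pow_eq_one))
  obtain ⟨μ, c1, c2⟩ := lam1 q hζ o hψ f md
  have val (a : 𝓞 K) (a0 : a ≠ 0) (v : ZMod (pp ^ (n + 1))) (m : a ∈ A ∪ S.image β)
      (e : Km ζ (g₀ * g₁) (j (qu s a)) v) :
      ∑ i ∈ insert l Q, Function.update lam l μ i a = v := by
    rw [Finset.sum_insert lQ, Function.update_self, Finset.sum_congr rfl fun i m => by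
      rw [Function.update_of_ne fun e : i = l => lQ (e ▸ m)], km_uq hζ (qu_ne q a0) (c2 a a0)
        (km_of (fx_one o f md) (qu_ne q a0) (hrt _) ((m4 _ (Finset.mem_insert_of_mem
          (Finset.mem_image.2 ⟨a, m, rfl⟩))).trans (key a a0 v e _ (hrt _)))), neg_add_cancel_right]
  obtain ⟨e, D, rm, he⟩ := chi h2 h3 kd q hθ r1 hr hζ (Q := insert l Q)
    (lam := Function.update lam l μ) (fun i m => by
      rcases Finset.mem_insert.1 m with rfl | m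
      · rw [Function.update_self]
        exact ⟨md, c1, fun a => nδ (Int.natCast_dvd_natCast.1 (dvd_neg.1 a)), _, _, o, hψ, f, c2⟩
      · rw [Function.update_of_ne fun e : i = l => lQ (e ▸ m)]
        exact hl i m)
    fun x y => val _ (b2 _ (A2 x y)).1 _ (Finset.mem_union_left _ (A2 x y)) (b2 _ (A2 x y)).2
  refine ⟨l, P₀, ψ, e, lT, lS, lQ, nδ, o, hψ, f, md, mul_inv_cancel_left u ψ ▸ stb _ _ m2 t3, D, rm,
    fun p m => ?_⟩
  obtain ⟨c3, b0, ⟨y, c4⟩, -⟩ := hβ p m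
  exact (he p _ _ _ y (oS p m) (fun a => (Finset.mem_insert.1 a).elim (fun a => lS (a ▸ m))
    fun a => (hQ p a).2.1 m) c3 (hS p m).2.2 b0 c4).trans
    (val _ b0 _ (Finset.mem_union_right _ (Finset.mem_image_of_mem β m)) (b1 p m))

end Vale.Agent.P014Y.F.Pt
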