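import Vale.Agent.P014Y.Mu.St
import Vale.Agent.P014Y.Mu.Tw0
import Vale.Agent.P014Y.F.Pt.Kd
import Vale.Agent.P004F.Fd.Fld
import Vale.Agent.P004F.Qx.Dep

/-! # P014Y, block MU, row TWV: the tower (helper55) -/

set_option autoImplicit false
set_option linter.all false

noncomputable section

namespace Vale.Agent.P014Y.Mu

open NumberField Matrix
open scoped NumberTheorySymbols
open Vale.Agent.P022 (Qb GQ GK)
open Vale.Agent.P027M.S (Inert)
open Vale.Agent.P022D.W (dec)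
open Vale.Agent.P022E.GW (Ov Fb)
open Vale.Agent.P014U
open P004K P004R
open L2 (M2)
open P004F.Pt (Dh fx_mul fx_pow)
open P014Y.F (Crv Fld)
open P014Y.F.Pt (N1 fx_n1 fx_cm ex_t twr fb_pm inert_mu ne_two_of)
open Top (Sur)
open Tp (Lz)

namespace Tv

section

variable [Pp] {e : Crv} (b : Fld e)

theorem dec_le {l : ℕ} {P Q : Ideal (𝓞 Qb)} (o : Ov l P) (h : dec P ≤ b.Γ) (o' : Ov l Q) :
    dec Q ≤ b.Γ := fun g m => by
  obtain ⟨t, -, k⟩ := P004S.ex_conj o o'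
  simpa [mul_assoc] using b.Γ_conj (h (k g m)) t

/-- a product of split primes is a norm -/
theorem spl {c : ℕ} (sq : Squarefree c) (h : ∀ q : ℕ, q.Prime → q ∣ c → ¬ q ∣ b.δ' ∧ Sq b.Γ q) :
    ∃ w w' : Ideal (𝓞 b.K), P004C.Wa.Sp c w w' := by
  obtain ⟨pl⟩ := P004S.pl_ex
  obtain ⟨η, s, β, n, g, -, -, d, k⟩ := P004F.Fd.ex_ge b.iq b.adm.sq b.adm.m8 b.th b.im
    c.primeFactors pl.P (fun p m => pl.ov p (Nat.prime_of_mem_primeFactors m))
    (fun p m p2 => by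
      have hp := Nat.prime_of_mem_primeFactors m
      obtain ⟨a, a'⟩ := h p hp (Nat.dvd_of_mem_primeFactors m)
      exact (Xt.ch_fb (pl.ov p hp) (pl.fb p hp) p2 fun k =>
        a (Int.natCast_dvd_natCast.1 (dvd_neg.1 k))).symm.trans (if_pos ((b.kd.gk _).1
          (a' _ (pl.ov p hp) (P022D.W.phi_mem hp (pl.ov p hp).2.1 (pl.fb p hp)))))) 0
  rw [Nat.prod_primeFactors_of_squarefree sq, zero_add, pow_one] at d
  have z := g.sp (M := c) (by
    rw [← Nat.prod_primeFactors_of_squarefree sq, Nat.cast_prod]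
    exact IsCoprime.prod_right fun p m => ((Nat.prime_iff_prime_int.1
      (Nat.prime_of_mem_primeFactors m)).irreducible.coprime_iff_not_dvd.2 (k p m).2).symm) d
  refine ⟨_, _, Nat.pos_of_ne_zero sq.ne_zero, z.cop, z.mul, z.cn.2, fun x => ?_,
    P004F.Qx.De.cn_norm z.cn⟩
  obtain ⟨u, v, rfl⟩ := g.q.sp x
  refine ⟨u - v * β, ?_⟩
  rw [show (u : 𝓞 b.K) + v * η - (u - v * β : ℤ) = -v * s η by
    push_cast; linear_combination v * g.tr]
  exact Ideal.mul_mem_left _ _ (P004F.Fd.m2 _ _)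

theorem sq_prod {T : Finset ℕ} (h : ∀ p ∈ T, p.Prime) : Squarefree (∏ p ∈ T, p) :=
  Finset.squarefree_prod_of_pairwise_isCoprime
    (fun p a q a' ne => Nat.coprime_iff_isRelPrime.1 ((Nat.coprime_primes (h p a) (h q a')).2 ne))
    fun p a => (h p a).prime.squarefree

theorem rb_in {l : ℕ} {P : Ideal (𝓞 Qb)} {g : GQ} (o : Ov l P) (h : l ∉ e.S) (i : Inert P g) :
    rb e g = 1 := by
  show (e.r g).map PadicInt.toZMod = 1
  rw [e.r_inert o h i, Matrix.map_one _ (map_zero _) (map_one _)]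

/-- the trace at one Frobenius element decides -/
theorem tz {l : ℕ} {P : Ideal (𝓞 Qb)} {g : GQ} (o : Ov l P) (h : l ∉ e.S) (f : Fb l P g)
    (t : (rb e g).trace = 0) : Tz (rb e) l := fun P' φ o' f' => by
  obtain ⟨x, s, i, rfl⟩ := Wr.fb_cj o f ⟨P', o'.2.1, o'.2.2, f'⟩
  rw [map_mul, trace_mul_comm, ← map_mul, inv_mul_cancel_left, map_mul, rb_in o h i, one_mul, t]

/-- squares of commutators come from elements which fix all the roots -/
theorem sq_cm {N : ℕ} (g h : GQ) : ∃ k ∈ b.Γ, Fx (N1 b.j) (pp ^ N) k ∧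
    rb e k = rb e (g * h * g⁻¹ * h⁻¹) ^ 2 := by
  obtain ⟨l, P, τ, o, d, i, t⟩ := ex_t b.kd
  have m : g * h * g⁻¹ * h⁻¹ ∈ b.Γ := by
    rw [b.kd.gk, P004S.nu_mul, P004S.nu_conj, ← P004S.nu_mul, mul_inv_cancel, P004S.nu_one]
  have lS := b.out_S o.1 d
  have n0 := pow_ne_zero N pp_ne
  refine ⟨_, mul_mem m (b.Γ_conj m τ),
    fx_n1 n0 m t (fx_cm n0 g h) (inert_mu o (e.ne_pp lS) i N), ?_⟩
  generalize g * h * g⁻¹ * h⁻¹ = x
  rw [map_mul, map_mul, map_mul, rb_in o lS i, rb_in o lS ((P022.H443.inP P).inv_mem i), one_mul,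
    mul_one, pow_two]

end

theorem m3 : ∀ a b c d : ZMod 3, a * d - b * c ≠ 0 → ∃ x y : Fin 3,
    (!![a, b; c, d] * (!![1, 1; 0, 1] ^ x.val * !![1, 0; 1, 1] ^ y.val)).trace = 0 := by
  decide +kernel

variable {e : Crv} (b : Fld e)

theorem inv_of {g : GQ} {A B : M2} (h : rb e g = A) (k : A * B = 1) : rb e g⁻¹ = B := by
  rw [← mul_one (rb e g⁻¹), ← k, ← h, ← mul_assoc, ← map_mul, inv_mul_cancel, map_one, one_mul]

/-- trace zero in every coset -/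
theorem ex_k (su : Sur e.par.disc) (N : ℕ) (h : GQ) :
    ∃ k ∈ b.Γ, Fx (N1 b.j) (pp ^ N) k ∧ (rb e (h * k)).trace = 0 := by
  obtain ⟨d, hd⟩ := su !![1, 0; 0, 2] (by decide +kernel)
  obtain ⟨u, hu⟩ := su !![1, 2; 0, 1] (by decide +kernel)
  obtain ⟨v, hv⟩ := su !![1, 0; 2, 1] (by decide +kernel)
  obtain ⟨k, k1, k2, k3⟩ := sq_cm b (N := N) d u
  obtain ⟨k', l1, l2, l3⟩ := sq_cm b (N := N) d v
  have d' := inv_of (g := d) (B := !![1, 0; 0, 2]) hd (by decide +kernel)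
  rw [map_mul, map_mul, map_mul, d', inv_of (g := u) (B := !![1, 1; 0, 1]) hu (by decide +kernel),
    show rb e d = _ from hd, show rb e u = _ from hu] at k3
  rw [map_mul, map_mul, map_mul, d', inv_of (g := v) (B := !![1, 0; 1, 1]) hv (by decide +kernel),
    show rb e d = _ from hd, show rb e v = _ from hv] at l3
  have k4 : rb e k = !![1, 1; 0, 1] := k3.trans (by decide +kernel)
  have l4 : rb e k' = !![1, 0; 1, 1] := l3.trans (by decide +kernel)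
  obtain ⟨x, y, t⟩ := m3 (rb e h 0 0) (rb e h 0 1) (rb e h 1 0) (rb e h 1 1) (by
    have := congrArg det (map_mul (rb e) h h⁻¹)
    rw [mul_inv_cancel, map_one, det_one, det_mul, det_fin_two] at this
    exact left_ne_zero_of_mul_eq_one this.symm)
  refine ⟨k ^ x.val * k' ^ y.val, mul_mem (pow_mem k1 _) (pow_mem l1 _),
    fx_mul (fx_pow k2 _) (fx_pow l2 _), ?_⟩
  rw [map_mul, map_mul, map_pow, map_pow, k4, l4, eta_fin_two (rb e h)]
  exact t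

/-- a character with the three properties is a layer -/
theorem lz (r1 : RC1) (r2 : RC2) {k : ℕ} {T : Finset ℕ} {χ : GQ → ZMod (3 * 3 ^ k)}
    (ne : T.Nonempty) (hT : ∀ q ∈ T, q.Prime ∧ q ∉ e.S ∧ ¬ q ∣ b.δ' ∧ 17 < q ∧ Sq b.Γ q)
    (D : Dh b.j (∏ l ∈ T, l) χ) (rm : ∀ l ∈ T, ∀ P, Ov l P → ∃ τ ∈ b.Γ, Inert P τ ∧ χ τ = 1)
    (un : ∀ p ∈ e.S, IsUnit (χ (b.φ p))) : Lz b k (∏ l ∈ T, l) χ := by
  have pr (q) (m : q ∈ T) := (hT q m).1
  have sq := sq_prod pr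
  have mem (q : ℕ) (hq : q.Prime) (d : q ∣ ∏ l ∈ T, l) : q ∈ T :=
    Nat.primeFactors_prod pr ▸ Nat.mem_primeFactors.2 ⟨hq, d, sq.ne_zero⟩
  refine ⟨⟨fun g m h n => ?_, fun g m => by simp [D.ker g m]⟩, sq, ?_, fun q hq d =>
    let ⟨_, a, a', a'', _⟩ := hT q (mem q hq d); ⟨a, a', a''⟩, spl b sq fun q hq d =>
    let ⟨_, _, a, _, a'⟩ := hT q (mem q hq d); ⟨a, a'⟩, fun q P o d => rm q (mem q o.1 d) P o,
    fun p m P o => ⟨dec_le b (e.ov p m) (b.le p m) o, fun g f => ?_⟩⟩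
  · rw [D.add g m h n, ZMod.val_add, pow_succ' pp k]
    exact Nat.mod_modEq _ _
  · obtain ⟨q, m⟩ := ne
    exact (pr q m).one_lt.trans_le (Nat.le_of_dvd (Nat.pos_of_ne_zero sq.ne_zero)
      (Finset.dvd_prod_of_mem _ m))
  · rcases fb_pm r1 r2 b.iq D (e.ov p m) (fun d => (hT p (mem p o.1 d)).2.1 m) (b.le p m)
      (b.ch.frb p m) o f with a | a <;> rw [a]
    exacts [un p m, (un p m).neg]

end Tv

open Tv in
/-- **row TWV** -/
theorem twv (r1 : RC1) (r2 : RC2) (r3 : RC3) : TWV := fun e b su => by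
  classical
  refine ⟨e.S.toFinset ∪ b.δ'.primeFactors ∪ Finset.range 18, 1, fun k Q hQ => ?_⟩
  have out (q) (m : q ∈ Q) : q ∉ e.S ∧ ¬ q ∣ b.δ' ∧ 17 < q := by
    have := (hQ q m).nE
    simp only [Finset.mem_union, not_or, List.mem_toFinset, Finset.mem_range] at this
    exact ⟨this.1.1, fun d => this.1.2 (Nat.mem_primeFactors.2 ⟨(hQ q m).pr, d, b.pos.ne'⟩), by omega⟩
  obtain ⟨q, P, ψ, χ, qT, qS, qQ, qδ, o, m, f, md, t, D, rm, un⟩ : ∃ (q : ℕ) (P : Ideal (𝓞 Qb))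
      (ψ : GQ) (χ : GQ → ZMod (3 * 3 ^ k)), q ∉ Finset.range 18 ∧ q ∉ e.S.toFinset ∧ q ∉ Q ∧
      ¬ q ∣ b.δ' ∧ Ov q P ∧ ψ ∈ b.Γ ∧ Fb q P ψ ∧ q % pp ^ (k + 1) = 1 ∧ (rb e ψ).trace = 0 ∧
      Dh b.j (∏ l ∈ insert q Q, l) χ ∧
      (∀ l ∈ insert q Q, ∀ P', Ov l P' → ∃ τ ∈ b.Γ, Inert P' τ ∧ χ τ = 1) ∧
      ∀ p ∈ e.S.toFinset, χ (b.φ p) = 1 := by
    rw [← pow_succ' 3 k]
    exact twr (n := k) r2 r3 b.kd (P := e.P) (fun p m =>
      have m := List.mem_toFinset.1 m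
      ⟨e.ov p m, b.le p m, b.ch.frb p m⟩) (List.mem_toFinset.2 e.pm) (fun _ => 1)
      (fun l m => ⟨(hQ l m).pr, mt List.mem_toFinset.1 (out l m).1,
        Eq.trans (hQ l m).md (Nat.mod_eq_of_lt (F.Pt.one_lt_pow' k)), (hQ l m).sq⟩)
      (U := (rb e).ker) (Cp.ker_open _) (G := fun g => (rb e g).trace = 0)
      (fun g u m t => by rwa [map_mul, show rb e u = 1 from m, mul_one])
      (fun h _ _ => ex_k b su _ h) _
  have qS := mt List.mem_toFinset.2 qS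
  have sq : Sq b.Γ q := fun P' o' => Wr.dec_gk b.kd o (e.ne_two qS) qδ f m o'
  have hT : ∀ l ∈ insert q Q, l.Prime ∧ l ∉ e.S ∧ ¬ l ∣ b.δ' ∧ 17 < l ∧ Sq b.Γ l := fun l a => by
    rcases Finset.mem_insert.1 a with rfl | a
    · exact ⟨o.1, qS, qδ, by rw [Finset.mem_range] at qT; omega, sq⟩
    · exact ⟨(hQ l a).pr, (out l a).1, (out l a).2.1, (out l a).2.2, (hQ l a).sq⟩
  have L := lz b r1 r2 (Finset.insert_nonempty _ _) hT D rm fun p m =>
    un p (List.mem_toFinset.2 m) ▸ isUnit_one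
  have pf := Nat.primeFactors_prod fun l a => (hT l a).1
  refine ⟨_, χ, L, fun l a => Finset.dvd_prod_of_mem _ (Finset.mem_insert_of_mem a),
    pf.symm ▸ Finset.card_insert_le _ _, fun l hl d => ?_⟩
  rcases Finset.mem_insert.1 (pf ▸ Nat.mem_primeFactors.2 ⟨hl, d, L.sq.ne_zero⟩) with rfl | a
  · exact ⟨⟨hl, Finset.notMem_empty _, md.trans (Nat.mod_eq_of_lt (F.Pt.one_lt_pow' k)).symm, sq⟩,
      .inr (tz o qS f t)⟩
  · exact ⟨⟨hl, Finset.notMem_empty _, (hQ l a).md, (hQ l a).sq⟩, .inl a⟩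

end Vale.Agent.P014Y.Mu
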