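import Vale.Agent.P014Y.Mu.All0
import Vale.Agent.P014Y.Mu.Ads
import Vale.Agent.P014Y.Mu.Lzy
import Vale.Agent.P014Y.Mu.Cnt
import Vale.Agent.P014Y.Mu.Rse
import Vale.Agent.P014Y.Mu.Twv
import Vale.Agent.P014Y.Mu.Chv
import Vale.Agent.P014Y.Mu.Kml
import Vale.Agent.P014Y.Mu.Brg
import Vale.Agent.P014Y.Mu.Lev
import Vale.Agent.P004K.Rc.All

/-! # P014Y, block MU: the exports -/

set_option linter.all false

namespace Vale.Agent.P014Y.Mu

open P004K P014U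
open P014Y.F (Crv Fld)

theorem lev0 [Pp] : LEV := lev dim url

theorem brg1 [Pp] : BRG := brg kml rse

theorem lzy0 : LZY := lzy x_rc1 x_rc2

theorem twv0 : TWV := twv x_rc1 x_rc2 x_rc3

/-- **the tower for the two curves** -/
theorem adp0 : Tp.ADP := adp kil0 fin0 dsc0 lev0 cnt rse brg1 sut chv twv0 lzy0 twr

/-- the same with the residual parity input -/
theorem ads0 {e e' : Crv} (b : Fld e) (b' : Fld e') (pr : Top.Pr (-3) e e') (sm : b.Same b')
    (su : Top.Sur e.par.disc) (p : ∀ pl : X4S.Pl, (∀ p ∈ e.S, pl.P p = e.P p) →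
      Pa (rb e) (tw (-b.δ') (rb e)) pl e.S.toFinset (Sd b))
    (p' : ∀ pl : X4S.Pl, (∀ p ∈ e'.S, pl.P p = e'.P p) →
      Pa (rb e') (tw (-b'.δ') (rb e')) pl e'.S.toFinset (Sd b')) : Tp.Ad2 b b' :=
  ads kil0 fin0 dsc0 lev0 cnt rse sut chv twv0 lzy0 twr b b' pr sm su p p'

end Vale.Agent.P014Y.Mu
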