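import Vale.Agent.P014Y.Mu.St0

/-! # P014Y, block MU: killing (helper70) -/

set_option autoImplicit false
set_option linter.all false

noncomputable section

namespace Vale.Agent.P014Y.Mu

open NumberField Matrix Module
open scoped Classical
open Vale.Agent.P022 (Qb GQ)
open Vale.Agent.P014U
open L2 (W M2 rh)
open X4S (Pl)

variable [Pp]

namespace Kil

theorem bl_vs (a : GQ →* M2) (σ : GQ) : Bl a ⊤ ≤ Vs a σ := by
  rintro z ⟨v, h⟩
  exact (mem_Vs a).2 ⟨v, (h σ trivial).symm⟩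

theorem rl_zg (a : GQ →* M2) (pl : Pl) (S Q : Finset ℕ) : Rl a pl S Q ≤ Zg a (S ∪ Q) :=
  inf_le_left.trans inf_le_left

/-- one more prime lowers the sum of the dimensions -/
theorem one (gwl : GWL) (step : STEP) {ι : Type} [Fintype ι] {a : ι → GQ →* M2} {pl : Pl}
    {S : Finset ℕ} (r : ∀ i, Rs (a i) S) {G : ℕ → Prop} (hG : ∀ q, G q → ∀ i, Up (a i) pl S q)
    (sp : Sp a pl G) {Q : Finset ℕ} (hQ : ∀ q ∈ Q, G q) {j : ι} (hj : ¬ St (a j) pl S Q ≤ Bl (a j) ⊤) :
    ∃ q ∉ Q, G q ∧ ∑ i, finrank F (St (a i) pl S (insert q Q)) < ∑ i, finrank F (St (a i) pl S Q) := by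
  have g := fun i => gwl (a i) pl S Q (r i) fun q m => hG q (hQ q m) i
  have fs : ∀ i, Module.Finite F (St (a i) pl S Q) := fun i =>
    haveI := (g i).1
    Submodule.finiteDimensional_of_le (g i).2.2.1
  have ex : ∀ i, ∃ z, z ∈ Rl (a i) pl S Q ∧ z ∉ Bl (a i) ⊤ ∧ (i = j → z ∈ St (a i) pl S Q) := by
    intro i
    by_cases e : i = j
    · subst e
      obtain ⟨z, m, n⟩ := SetLike.not_le_iff_exists.1 hj
      exact ⟨z, (g i).2.2.1 m, n, fun _ => m⟩
    · have : ¬ Rl (a i) pl S Q ≤ St (a i) pl S Q := fun h => by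
        haveI := fs i
        have := Submodule.finrank_mono h
        have := (g i).2.2.2.1
        omega
      obtain ⟨z, m, n⟩ := SetLike.not_le_iff_exists.1 this
      exact ⟨z, m, fun b => n ((g i).2.1 b), fun h => (e h).elim⟩
  choose z h1 h2 h3 using ex
  obtain ⟨q, n, gq, hq⟩ := sp z (S ∪ Q) fun i => ⟨rl_zg _ _ _ _ (h1 i), h2 i⟩
  have nq : q ∉ Q := fun m => n (Finset.mem_union_right _ m)
  have st := fun i => step (a i) pl S Q q (r i) (fun x m => hG x (hQ x m) i) (hG q gq i) nq (z i)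
    (h1 i) (hq i)
  refine ⟨q, nq, gq, Finset.sum_lt_sum (fun i _ => ?_) ⟨j, Finset.mem_univ j, ?_⟩⟩
  · haveI := fs i
    exact Submodule.finrank_mono ((st i).trans inf_le_left)
  · haveI := fs j
    exact Submodule.finrank_lt_finrank_of_lt (lt_of_le_of_ne ((st j).trans inf_le_left)
      fun e => hq j (st j (e ▸ h3 j rfl)).2)

end Kil

/-- **killing** -/
theorem kil (gwl : GWL) (step : STEP) : KIL := by
  intro ι _ a pl S r
  refine ⟨∑ i, finrank F (St (a i) pl S ∅), fun G hG sp => ?_⟩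
  have key : ∀ n (Q : Finset ℕ), (∀ q ∈ Q, G q) → ∑ i, finrank F (St (a i) pl S Q) ≤ n →
      ∃ Q' : Finset ℕ, Q'.card ≤ Q.card + n ∧ (∀ q ∈ Q', G q) ∧
        ∀ i, St (a i) pl S Q' ≤ Bl (a i) ⊤ := by
    intro n
    induction n with
    | zero =>
      intro Q hQ h
      refine ⟨Q, le_rfl, hQ, fun j => by_contra fun hj => ?_⟩
      obtain ⟨q, -, -, lt⟩ := Kil.one gwl step r hG sp hQ hj
      omega
    | succ n ih =>
      intro Q hQ h
      by_cases e : ∀ i, St (a i) pl S Q ≤ Bl (a i) ⊤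
      · exact ⟨Q, Nat.le_add_right _ _, hQ, e⟩
      obtain ⟨j, hj⟩ := not_forall.1 e
      obtain ⟨q, nq, gq, lt⟩ := Kil.one gwl step r hG sp hQ hj
      obtain ⟨Q', c, g', b⟩ := ih (insert q Q)
        (fun x m => (Finset.mem_insert.1 m).elim (fun e => e ▸ gq) (hQ x)) (by omega)
      rw [Finset.card_insert_of_notMem nq] at c
      exact ⟨Q', by omega, g', b⟩
  obtain ⟨Q, c, g, b⟩ := key _ ∅ (fun q m => (Finset.notMem_empty q m).elim) le_rfl
  exact ⟨Q, by simpa using c, g, b⟩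

end Vale.Agent.P014Y.Mu
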