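import Vale.Agent.P014Y.Mu.St0

/-! # P014Y, block MU: the use of parity (helper70) -/

set_option autoImplicit false
set_option linter.all false

noncomputable section

namespace Vale.Agent.P014Y.Mu

open NumberField Matrix Module
open scoped Classical
open Vale.Agent.P022 (Qb GQ)
open Vale.Agent.P022.H443 (inP)
open Vale.Agent.P022D.W (dec inP_le_dec phi_mem)
open Vale.Agent.P022E.GW (Ov Fb)
open Vale.Agent.P022K.G2 (In B2 d0)
open Vale.Agent.P014U
open L2 (W M2 rh dt cu BB)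
open X4S (Pl)

variable [Pp]

namespace Fin0

variable {a a' : GQ →* M2} {D : Subgroup GQ} {P : Ideal (𝓞 Qb)} {pl : Pl} {S S' Q : Finset ℕ}

theorem cl_eq (e : ∀ g ∈ D, a' g = a g) : Cl a' D = Cl a D := by
  ext z
  refine and_congr_left' (forall₂_congr fun g m => ?_)
  rw [e g m]

theorem bl_eq (e : ∀ g ∈ D, a' g = a g) : Bl a' D = Bl a D := by
  ext z
  refine exists_congr fun v => forall₂_congr fun g m => ?_
  show z g = a' g *ᵥ v - v ↔ z g = a g *ᵥ v - v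
  rw [e g m]

theorem ur_eq (e : ∀ g ∈ dec P, a' g = a g) : Ur a' P = Ur a P := by
  rw [Ur, Ur, cl_eq e, bl_eq fun g m => e g (inP_le_dec m)]

theorem ot_le (e : ∀ g ∈ D, a' g = a g) (L : Submodule F X) : Ot a D L ≤ Ot a' D L :=
  fun y h => ⟨(cl_eq e).ge h.1, fun x m => B2.congr (h.2 x m)
    (fun g n j _ => by simp only [cu, e g n]) fun g n => by simp only [P022K.G2.ch, dt, e g n]⟩

theorem ot_eq (e : ∀ g ∈ D, a' g = a g) (L : Submodule F X) : Ot a' D L = Ot a D L :=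
  le_antisymm (ot_le (fun g m => (e g m).symm) L) (ot_le e L)

theorem vs_eq {σ : GQ} (e : a' σ = a σ) : Vs a' σ = Vs a σ := by rw [Vs, Vs, e]

theorem sg_mem (pl : Pl) {l : ℕ} (h : l.Prime) : pl.σ l ∈ dec (pl.P l) :=
  phi_mem h (pl.ov l h).2.1 (pl.fb l h)

theorem lc_eq {l : ℕ} (h : l.Prime) (e : ∀ g ∈ dec (pl.P l), a' g = a g) :
    Lc a' pl Q l = Lc a pl Q l := by
  rw [Lc, Lc, Rq, Rq, cl_eq e, ur_eq e, vs_eq (e _ (sg_mem pl h))]

theorem up_of {q : ℕ} (u : Up a pl S q) (e : ∀ g ∈ dec (pl.P q), a' g = a g) : Up a' pl S q :=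
  have := e _ (sg_mem pl u.pr)
  ⟨u.pr, u.out, u.md, this ▸ u.ne, this ▸ u.un⟩

theorem rs_un (r : Rs a S) (h : ∀ q ∈ Q, q.Prime) : Rs a (S ∪ Q) :=
  ⟨r.toR0, Finset.mem_union_left _ r.pm,
    fun l m => (Finset.mem_union.1 m).elim (r.pr l) (h l), fun g ⟨l, n, o⟩ =>
      r.unr g ⟨l, fun m => n (Finset.mem_coe.2 (Finset.mem_union_left _ m)), o⟩⟩

theorem ot_cl (L : Submodule F X) : Ot a D L ≤ Cl a D := fun _ h => h.1

theorem dim_bl (n : Nf a ⊤) : finrank F (Bl a ⊤) = finrank F W := by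
  have e : Bl a ⊤ = LinearMap.range (d0 (rh a)) := by
    ext z
    exact ⟨fun ⟨v, h⟩ => ⟨v, funext fun g => (h g trivial).symm⟩,
      fun ⟨v, h⟩ => ⟨v, fun g _ => (congrFun h g).symm⟩⟩
  rw [e]
  refine LinearMap.finrank_range_of_inj ((injective_iff_map_eq_zero _).2 fun v h => n v fun g _ => ?_)
  exact sub_eq_zero.1 (congrFun h g)

theorem dq_self (L : Submodule F X) : dq L L = 0 := by
  rw [dq, Submodule.mkQ_map_self]
  exact finrank_bot _ _

/-- unramified classes are their own orthogonal away from `pp` -/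
theorem ur_lag (laga : LAGA) (locq : LOCQ) (dim : DIM) (url : URL) (r : R0 a) {l : ℕ} (o : Ov l P)
    (n : l ≠ pp) {f : (GQ → GQ → F) →ₗ[F] F} (i : Iv1 P f) : Ot a (dec P) (Ur a P) = Ur a P := by
  obtain ⟨lq, h⟩ := locq a l P f r o i
  obtain ⟨u1, u2, u3⟩ := url a l P r o
  have d := dim a l P r o
  rw [if_neg n] at d
  rw [← h (Ur a P) inf_le_left] at u2 ⊢
  exact (laga F X _ _ _ _ lq u1 inf_le_left).2.2.2 u2 (by omega)

/-- the first family of conditions -/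
def L1 (a : GQ →* M2) (pl : Pl) (S : Finset ℕ) (L : ℕ → Submodule F X) (l : ℕ) : Submodule F X :=
  if l ∈ S then L l else Ur a (pl.P l)

/-- the second family of conditions -/
def L2 (a : GQ →* M2) (pl : Pl) (Q : Finset ℕ) (M : Submodule F X) (l : ℕ) : Submodule F X :=
  if l = pp then M else Lc a pl Q l

theorem sl1 (unq : UNQ) (r : Rs a S') (hS : S ⊆ S') (h : ∀ q ∈ Q, q.Prime)
    (L : ℕ → Submodule F X) : sl (Zg a (S' ∪ Q)) (S' ∪ Q) (L1 a pl S L) = Sf a pl S S' L := by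
  rw [Sf, ← unq a pl S' (S' ∪ Q) r Finset.subset_union_left (rs_un r h).pr]
  ext z
  simp only [sl, Submodule.mem_inf, Submodule.mem_iInf]
  refine ⟨fun ⟨m, c⟩ => ⟨⟨m, fun l n => ?_⟩, fun l n => c l (Finset.mem_union_left _ n)⟩,
    fun ⟨⟨m, c⟩, c'⟩ => ⟨m, fun l n => ?_⟩⟩
  · obtain ⟨n1, n2⟩ := Finset.mem_sdiff.1 n
    have := c l n1
    rwa [L1, if_neg fun x => n2 (hS x)] at this
  · by_cases e : l ∈ S'
    · exact c' l e
    · rw [L1, if_neg fun x => e (hS x)]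
      exact c l (Finset.mem_sdiff.2 ⟨n, e⟩)

theorem sl2 (m : pp ∈ S') (M : Submodule F X) :
    sl (Zg a (S' ∪ Q)) (S' ∪ Q) (L2 a pl Q M) = Sb a pl S' Q ⊓ M := by
  ext z
  simp only [Sb, sl, Submodule.mem_inf, Submodule.mem_iInf]
  refine ⟨fun ⟨m, c⟩ => ⟨⟨m, fun l n => ?_⟩, ?_⟩, fun ⟨⟨m, c⟩, c'⟩ => ⟨m, fun l n => ?_⟩⟩
  · obtain ⟨n1, n2⟩ := Finset.mem_erase.1 n
    have := c l n2
    rwa [L2, if_neg n1] at this
  · have := c pp (Finset.mem_union_left _ ‹pp ∈ S'›)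
    rwa [L2, if_pos rfl] at this
  · rw [L2]
    split_ifs with e
    · exact c'
    · exact c l (Finset.mem_erase.2 ⟨e, n⟩)

/-- parity for one module -/
theorem par (laga : LAGA) (para : PARA) (locq : LOCQ) (dim : DIM) (url : URL) (trl : TRL)
    (inv : INV) (unq : UNQ) (qs : QS) (r : Rs a S') (hS : S ⊆ S') (pm : pp ∈ S)
    (u : ∀ q ∈ Q, Up a pl S' q) {L : ℕ → Submodule F X}
    (hL : ∀ l ∈ S, Ot a (dec (pl.P l)) (L l) = L l) {M : Submodule F X}
    (hM : Ot a (dec (pl.P pp)) M = M) :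
    Even (finrank F (Sf a pl S S' L) + finrank F ↥(Sb a pl S' Q ⊓ M) +
      ∑ l ∈ S' ∪ Q, dq (L1 a pl S L l) (L2 a pl Q M l)) := by
  obtain ⟨f, i⟩ := inv pl
  have r' := rs_un r fun q m => (u q m).pr
  have lo : ∀ l ∈ S' ∪ Q, ∀ N, Ot a (dec (pl.P l)) N = N →
      ot (Cl a (dec (pl.P l))) (bt a (f l)) N = N := fun l m N e => by
    rw [(locq a l _ _ r.toR0 (pl.ov l (r'.pr l m)) (i.loc l (r'.pr l m))).2 N (e.ge.trans (ot_cl N)), e]
  have ul : ∀ l ∈ S' ∪ Q, l ≠ pp → Ot a (dec (pl.P l)) (Ur a (pl.P l)) = Ur a (pl.P l) :=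
    fun l m n => ur_lag laga locq dim url r.toR0 (pl.ov l (r'.pr l m)) n (i.loc l (r'.pr l m))
  rw [← sl1 unq r hS fun q m => (u q m).pr, ← sl2 r.pm]
  refine para F X _ _ _ _ _ _ _ two_ne (qs a pl _ f r' i) (fun l m => lo l m _ ?_)
    fun l m => lo l m _ ?_
  · rw [L1]
    split_ifs with e
    · exact hL l e
    · exact ul l m fun x => e (x ▸ pm)
  · rw [L2, Lc]
    split_ifs with e e'
    · exact e ▸ hM
    · exact (trl a pl S' l r (u l e')).2.2.1
    · exact ul l m e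

end Fin0

open Fin0 in
/-- **the use of parity** -/
theorem fin (laga : LAGA) (para : PARA) (locq : LOCQ) (dim : DIM) (url : URL) (trl : TRL)
    (inv : INV) (unq : UNQ) (qs : QS) (gwl : GWL) : FIN := by
  rintro a a' pl S S' Q r r' hS pm n n' u e ⟨L, hL, od⟩ k k' x hx y hy s
  have ep := e pp (Finset.mem_union_left _ pm)
  have u' : ∀ q ∈ Q, Up a' pl S' q := fun q m => up_of (u q m) (e q (Finset.mem_union_right _ m))
  by_cases c : x ∈ Ur a (pl.P pp)
  · refine ⟨k ⟨hx.1, c⟩, k' ⟨hy.1, (ur_eq ep).ge ?_⟩⟩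
    simpa using sub_mem s c
  exfalso
  obtain ⟨g1, g2, g3, g4, g5⟩ := gwl a pl S' Q r u
  obtain ⟨g1', g2', g3', g4', -⟩ := gwl a' pl S' Q r' u'
  set M := Ur a (pl.P pp) ⊔ Rl a pl S' Q with hM
  have mo : M ≤ Ot a (dec (pl.P pp)) (Ur a (pl.P pp)) :=
    sup_le (url a pp _ r.toR0 (pl.ov pp pp_prime)).2.1 inf_le_right
  have e1 : Sb a pl S' Q ⊓ M = Rl a pl S' Q :=
    le_antisymm (inf_le_inf_left _ mo) (le_inf inf_le_left le_sup_right)
  have le2 : Sb a' pl S' Q ⊓ M ≤ Rl a' pl S' Q := inf_le_inf_left _ (by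
    rw [ur_eq ep, ot_eq ep]; exact mo)
  have e2 : Sb a' pl S' Q ⊓ M = Rl a' pl S' Q := by
    refine Submodule.eq_of_le_of_finrank_le le2 ?_
    haveI := Submodule.finiteDimensional_of_le le2
    rw [g4']
    refine Submodule.finrank_lt_finrank_of_lt (lt_of_le_of_ne (inf_le_inf_left _ ((ur_eq ep).le.trans
      le_sup_left)) fun h => c ?_)
    have hm : y ∈ Sb a' pl S' Q ⊓ M := ⟨hy.1, by
      simpa using sub_mem (Submodule.mem_sup_left s : x + y ∈ M) (Submodule.mem_sup_right hx)⟩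
    simpa using sub_mem s ((ur_eq ep).le (h.ge hm).2)
  have p := par laga para locq dim url trl inv unq qs r hS pm u hL g5
  have p' := par laga para locq dim url trl inv unq qs r' hS pm u' (L := L) (M := M)
    (fun l m => (ot_eq (e l (Finset.mem_union_left _ m)) _).trans (hL l m)) ((ot_eq ep _).trans g5)
  have sm : ∑ l ∈ S' ∪ Q, dq (L1 a' pl S L l) (L2 a' pl Q M l) =
      ∑ l ∈ S' ∪ Q, dq (L1 a pl S L l) (L2 a pl Q M l) := Finset.sum_congr rfl fun l m => by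
    by_cases h : l ∈ S ∪ Q
    · rw [L1, L1, L2, L2, ur_eq (e l h), lc_eq ((rs_un r fun q m => (u q m).pr).pr l m) (e l h)]
    · have h1 : l ∉ S := fun x => h (Finset.mem_union_left _ x)
      have h2 : l ∉ Q := fun x => h (Finset.mem_union_right _ x)
      have h3 : l ≠ pp := fun x => h1 (x ▸ pm)
      simp only [L1, L2, Lc, if_neg h1, if_neg h2, if_neg h3, dq_self]
  rw [e1, g4, le_antisymm k g2, dim_bl n] at p
  rw [e2, g4', le_antisymm k' g2', dim_bl n', sm] at p'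
  rw [Nat.even_iff] at p p'
  rw [Nat.odd_iff] at od
  omega

end Vale.Agent.P014Y.Mu
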