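import Vale.Agent.P014Y.Mu.Url
import Vale.Agent.P014U.L2.All

/-! # P014Y, block MU: transverse classes (row TRL) -/

set_option autoImplicit false
set_option linter.all false

noncomputable section

namespace Vale.Agent.P014Y.Mu

open NumberField Matrix Module
open scoped Classical
open Vale.Agent.P022 (Qb GQ)
open Vale.Agent.P022.H443 (inP)
open Vale.Agent.P027M.S (Inert)
open Vale.Agent.P022D.W (dec inP_le_dec conj_inP phi_mem dec_gen)
open Vale.Agent.P022E.GW (Ov Fb)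
open Vale.Agent.P022K.G2 (Lv Z1 B1 B2 H0 ch om d0 ka oz)
open Vale.Agent.P014U
open L2 (W M2 rh dt cu BB am a1 aw)
open X4S (Pl)
open P004S (wp)
open Ul

variable [Pp]

namespace Tl

section alg

variable {N : M2}

theorem det_one (h : N ^ 2 = 0) : (N + 1).det = 1 := by
  have e (i j) := congrFun (congrFun h i) j
  have e1 := e 0 0
  have e2 := e 0 1
  have e3 := e 1 0
  have e4 := e 1 1
  simp only [sq, mul_apply, Fin.sum_univ_two, Matrix.zero_apply] at e1 e2 e3 e4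
  have t : (N 0 0 + N 1 1) ^ 3 = 0 := by
    linear_combination (N 0 0 + 3 * N 1 1) * e1 + (3 * N 0 0 + N 1 1) * e4 - 4 * N 1 0 * e2
  have t' := pow_eq_zero_iff (by decide) |>.1 t
  simp only [det_fin_two, Matrix.add_apply, one_apply_eq, one_apply_ne (show (0 : Fin 2) ≠ 1 by decide),
    one_apply_ne (show (1 : Fin 2) ≠ 0 by decide)]
  linear_combination (1 + N 0 0) * t' - e1

theorem rk_one (h : N ^ 2 = 0) (n : N ≠ 0) : LinearMap.range N.mulVecLin = LinearMap.ker N.mulVecLin ∧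
    finrank F (LinearMap.ker N.mulVecLin) = 1 := by
  have le : LinearMap.range N.mulVecLin ≤ LinearMap.ker N.mulVecLin := by
    rintro _ ⟨v, rfl⟩
    rw [LinearMap.mem_ker, mulVecLin_apply, mulVecLin_apply, mulVec_mulVec, ← sq, h, zero_mulVec]
  have c : finrank F (LinearMap.range N.mulVecLin) + finrank F (LinearMap.ker N.mulVecLin) = 2 :=
    N.mulVecLin.finrank_range_add_finrank_ker.trans (Module.finrank_fin_fun _)
  have c1 : finrank F (LinearMap.range N.mulVecLin) ≤ finrank F (LinearMap.ker N.mulVecLin) :=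
    Submodule.finrank_mono le
  have c2 : finrank F (LinearMap.range N.mulVecLin) ≠ 0 := fun e => n (Matrix.toLin'.injective
    ((LinearMap.range_eq_bot.1 (Submodule.finrank_eq_zero.1 e)).trans (map_zero _).symm))
  have c3 : finrank F (LinearMap.ker N.mulVecLin) = 1 := by omega
  have c4 : finrank F (LinearMap.range N.mulVecLin) = 1 := by omega
  exact ⟨Submodule.eq_of_le_of_finrank_eq le (c4.trans c3.symm), c3⟩

theorem wp_ker (n : N ≠ 0) {u v : W} (hu : N *ᵥ u = 0) (hv : N *ᵥ v = 0) : wp u v = 0 := by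
  by_contra k
  refine n (Matrix.ext fun i j => mul_right_cancel₀ k ?_)
  have a := congrFun hu i
  have b := congrFun hv i
  simp only [mulVec, dotProduct, Fin.sum_univ_two, Pi.zero_apply] at a b
  fin_cases j <;> simp only [wp, Matrix.zero_apply, Fin.zero_eta, Fin.mk_one]
  · linear_combination v 1 * a - u 1 * b
  · linear_combination u 0 * b - v 0 * a

end alg

variable {a : GQ →* M2} {q : ℕ} {P : Ideal (𝓞 Qb)} {σ φ : GQ} {x y z : X}

theorem fb_div (o : Ov q P) (f : Fb q P σ) (f' : Fb q P φ) : σ⁻¹ * φ ∈ inP P := fun x =>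
  (phi_mem o.1 o.2.1 f _).1 (by
    rw [smul_sub, ← mul_smul, mul_inv_cancel_left]
    simpa using P.sub_mem (f' x) (f x))

/-- the local data -/
structure Lu (a : GQ →* M2) (q : ℕ) (P : Ideal (𝓞 Qb)) (σ : GQ) : Prop extends R0 a where
  ov : Ov q P
  fb : Fb q P σ
  np : q ≠ pp
  ur : ∀ s ∈ inP P, a s = 1
  ne : a σ - 1 ≠ 0
  un : (a σ - 1) ^ 2 = 0

variable (h : Lu a q P σ)
include h

theorem Lu.mem : σ ∈ dec P := phi_mem h.ov.1 h.ov.2.1 h.fb

theorem Lu.vs : z ∈ Vs a σ ↔ a σ *ᵥ z σ = z σ := by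
  rw [Vs, Submodule.mem_comap, (rk_one h.un h.ne).1, LinearMap.mem_ker, mulVecLin_apply, sub_mulVec,
    one_mulVec, sub_eq_zero]
  rfl

theorem Lu.oz1 : oz pp σ = 1 := by
  have := det_one h.un
  rw [sub_add_cancel] at this
  simpa [om] using (congrFun h.det σ).symm.trans this

/-- the values on inertia are fixed -/
theorem Lu.fix (hz : z ∈ Cl a (dec P)) {s : GQ} (m : s ∈ inP P) : a σ *ᵥ z s = z s := by
  obtain ⟨gz, -, t⟩ := P022K.G2.tam pp q P h.ov h.np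
  obtain ⟨n, hn⟩ := t F W z (fun g j k k' => by
    rw [hz.1 g (inP_le_dec k) j (inP_le_dec k'), h.ur g k, one_mulVec])
    (hz.2.imp fun U e => ⟨e.1, fun w k k' => e.2 w (inP_le_dec k') k⟩)
  have c := P022K.G2.ka_conj (p := pp) (b := q) (Nat.cast_ne_zero.2 h.ov.1.ne_zero) σ (gz s m)
    (map_natCast s q)
  rw [map_natCast, h.oz1, one_mul] at c
  rw [← cl_conj hz h.mem (inP_le_dec m) (h.ur s m), hn _ (conj_inP h.mem m), c, hn s m]

theorem Lu.fx {v : W} (e : a σ *ᵥ v = v) : ∀ g ∈ dec P, a g *ᵥ v = v :=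
  fix_dec h.toR0 h.ov h.fb (fun s m => by rw [h.ur s m, one_mulVec]) e

theorem Lu.val (hz : z ∈ Cl a (dec P)) (e : z σ = 0) : ∀ g ∈ dec P, a σ *ᵥ z g = z g := fun g m => by
  obtain ⟨U, lv, w⟩ := hz.2
  obtain ⟨k, s, u, hs, hu, rfl⟩ := dec_gen h.ov.1 h.ov.2.1 h.ov.2.2 h.fb m U lv.opn
  have m1 := pow_mem h.mem k
  have m2 := inP_le_dec hs
  have m3 : u ∈ dec P := by simpa using mul_mem (mul_mem m (inv_mem m2)) (inv_mem m1)
  rw [hz.1 _ (mul_mem m3 m1) s m2, hz.1 u m3 _ m1, w u m3 hu, cl_pow hz h.mem e, mulVec_zero,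
    add_zero, zero_add, h.fx (h.fix hz hs) _ (mul_mem m3 m1), h.fix hz hs]

theorem Lu.bl : Bl a (dec P) ≤ Rq a P σ := fun z m =>
  ⟨bl_le h.toR0 _ m, (mem_Vs a).2 (m.imp fun v e => (e σ h.mem).symm)⟩

theorem Lu.ex (hx : x ∈ Rq a P σ) : ∃ x' ∈ Cl a (dec P), x - x' ∈ Bl a (dec P) ∧ x' σ = 0 := by
  obtain ⟨v, hv⟩ := (mem_Vs a).1 hx.2
  exact ⟨x - d0 (rh a) v, sub_mem hx.1 (bl_le h.toR0 _ (d0_bl _ v)), by
    rw [sub_sub_cancel]; exact d0_bl _ v, sub_eq_zero.2 hv.symm⟩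

theorem Lu.iso (hx : x ∈ Rq a P σ) (hy : y ∈ Rq a P σ) : cu a x y ∈ BB a (dec P) := by
  obtain ⟨x', a1, a2, a3⟩ := h.ex hx
  obtain ⟨y', b1, b2, b3⟩ := h.ex hy
  refine cu_of h.toR0 a1 hy.1 a2 b2 (B2.congr (zero_mem _) (fun g m j n => ?_) fun _ _ => rfl)
  rw [cu, h.fx (h.val b1 b3 j n) g m]
  refine wp_ker h.ne ?_ ?_ <;> rw [sub_mulVec, one_mulVec, sub_eq_zero]
  exacts [h.val a1 a3 g m, h.val b1 b3 j n]

theorem Lu.spl (hz : z ∈ Cl a (dec P)) : ∃ u ∈ Ur a P, z - u ∈ Rq a P σ := by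
  obtain ⟨Θ, t⟩ := ex_th h.toR0 h.ov h.fb
  obtain ⟨b1, b2, b3⟩ := t (z σ) fun s m => by rw [h.ur s m, one_mulVec]
  exact ⟨_, ⟨b1, bl_of b2⟩, sub_mem hz b1, h.vs.2 (by rw [Pi.sub_apply, b3, sub_self, mulVec_zero])⟩

omit h in
/-- nondegeneracy in the words of the block -/
theorem nd (r : R0 a) (o : Ov q P) (hy : y ∈ Cl a (dec P))
    (e : ∀ x ∈ Cl a (dec P), cu a x y ∈ BB a (dec P)) : y ∈ Bl a (dec P) := by
  have i : ∀ g ∈ dec P, (dec P : Set GQ).indicator y g = y g := fun g m =>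
    Set.indicator_of_mem m _
  obtain ⟨v, hv⟩ := L2.ld1' o r.det (L2.rp_of ⟨_, lv_ker r, fun _ _ m => m⟩)
    (c := (dec P : Set GQ).indicator y) ⟨fun g m j n => by
      rw [i _ (mul_mem m n), i g m, i j n]; exact hy.1 g m j n,
      fun g m => Set.indicator_of_notMem m _, hy.2.imp fun U k => ⟨k.1, fun w m n => by
        rw [i w m, k.2 w m n]⟩⟩
    fun b hb => B2.congr (e b ⟨hb.1, hb.2.2⟩) (fun g _ j n => by rw [cu, cu, i j n]) fun _ _ => rfl
  exact ⟨v, fun g m => (i g m).symm.trans (hv g m)⟩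

theorem Lu.ot : Ot a (dec P) (Rq a P σ) = Rq a P σ := by
  refine le_antisymm (fun y hy => ?_) fun y hy => ⟨hy.1, fun x hx => h.iso hx hy⟩
  obtain ⟨u, hu, m⟩ := h.spl hy.1
  have k : u ∈ Bl a (dec P) := nd h.toR0 h.ov hu.1 fun x hx => by
    obtain ⟨w, hw, n⟩ := h.spl hx
    have e : cu a x u = cu a w u + (cu a (x - w) y - cu a (x - w) (y - u)) := by
      funext g j
      simp only [cu, Pi.add_apply, Pi.sub_apply, mulVec_sub, P004S.wp_sub_left, P004S.wp_sub_right]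
      ring
    rw [e]
    exact add_mem (ur_iso h.toR0 h.ov hw hu) (sub_mem (hy.2 _ n) (h.iso n m))
  simpa using add_mem m (h.bl k)

theorem Lu.hz1 : hz a (dec P) = 1 := by
  have e : (H0 (dec P) (rh a) fun _ => 1) = LinearMap.ker (a σ - 1).mulVecLin :=
    Submodule.ext fun v => by
      rw [mem_h0, LinearMap.mem_ker, mulVecLin_apply, sub_mulVec, one_mulVec, sub_eq_zero]
      exact ⟨fun e => e σ h.mem, h.fx⟩
  rw [hz, e, (rk_one h.un h.ne).2]

theorem Lu.inf : Ur a P ⊓ Vs a σ ≤ Bl a (dec P) := fun x hx => by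
  obtain ⟨x', a1, a2, a3⟩ := h.ex ⟨hx.1.1, hx.2⟩
  obtain ⟨v, hv⟩ := sub_mem hx.1.2 (bl_mono inP_le_dec a2)
  rw [sub_sub_cancel] at hv
  simpa using add_mem a2 (bl_of (van h.ov h.fb a1 (fun s m => by
    rw [hv s m, d0_ap, h.ur s m, one_mulVec, sub_self]) a3))

theorem Lu.ind (hz : z ∈ Cl a (dec P)) (f : Fb q P φ) (e : z ∈ Vs a φ) : z ∈ Vs a σ := by
  have m := fb_div h.ov h.fb f
  have e1 := hz.1 σ h.mem _ (inP_le_dec m)
  have e2 : a φ = a σ := by rw [← mul_inv_cancel_left σ φ, map_mul, h.ur _ m, mul_one]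
  have k := (Lu.vs ⟨h.toR0, h.ov, f, h.np, h.ur, e2 ▸ h.ne, e2 ▸ h.un⟩).1 e
  rw [mul_inv_cancel_left, h.fix hz m] at e1
  rw [e1, e2, mulVec_add, h.fix hz m] at k
  exact h.vs.2 (add_right_cancel k)

end Tl

theorem Up.lu {a : GQ →* M2} {pl : Pl} {S : Finset ℕ} {q : ℕ} (u : Up a pl S q) (r : Rs a S) :
    Tl.Lu a q (pl.P q) (pl.σ q) :=
  ⟨r.toR0, pl.ov q u.pr, pl.fb q u.pr, fun e => u.out (e ▸ r.pm), r.inert (pl.ov q u.pr) u.out,
    sub_ne_zero.2 u.ne, u.un⟩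

/-- **row TRL** -/
theorem trl : TRL := fun _ _ _ _ r u =>
  ⟨(u.lu r).hz1, (u.lu r).bl, (u.lu r).ot, (u.lu r).inf, fun _ hz _ => (u.lu r).ind hz⟩

end Vale.Agent.P014Y.Mu
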