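import Vale.Agent.P014Y.Mu.Loc
import Vale.Agent.P014Y.Mu.Lin
import Vale.Agent.P014Y.Mu.Big
import Vale.Agent.P014Y.Mu.Trl
import Vale.Agent.P014Y.Mu.Gwl
import Vale.Agent.P014Y.Mu.Kil
import Vale.Agent.P014Y.Mu.Fin
import Vale.Agent.P014Y.Mu.Dsc

/-! # P014Y, block MU: the residual rows, closed -/

namespace Vale.Agent.P014Y.Mu

variable [P014U.Pp]

theorem qs0 : QS := qs dim url unq big

theorem gwl0 : GWL := gwl dim url trl qs0

theorem step0 : STEP := step dim url trl unq

theorem kil0 : KIL := kil gwl0 step0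

theorem fin0 : FIN := fin laga para locq dim url trl inv unq qs0 gwl0

theorem dsc0 : DSC := dsc trl

end Vale.Agent.P014Y.Mu
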