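import Vale.Agent.P014Y.St2
import Vale.Agent.P014Y.Mu.Brg
import Vale.Agent.P014Y.Mu.Rse
import Vale.Agent.P014Y.Mu.Kml

/-! # P014Y: the parity bridge for any image (row BRI) -/

set_option autoImplicit false
set_option linter.all false

namespace Vale.Agent.P014Y.Top

open Vale.Agent.P014U

variable [Pp]

theorem pe_of {e : F.Crv} {b : F.Fld e} (h : Par b) : Pe b :=
  fun pl hp => Mu.brgA Mu.kml Mu.rse e b pl hp h

/-- **BRI** -/
theorem bri : BRI := fun _ _ _ => pe_of

end Vale.Agent.P014Y.Top
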