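import Vale.Agent.P014U.L2.All
import Vale.Agent.P014U.G2.Lib

/-! # P014Y, block MU: the local invariants with values in the prime field (helper52) -/

set_option autoImplicit false
set_option linter.all false

noncomputable section

namespace Vale.Agent.P014Y.Mu.Iz

open NumberField
open Vale.Agent.P022 (Qb GQ)
open Vale.Agent.P022D.W (dec)
open Vale.Agent.P022E.GW (Ov)
open Vale.Agent.P022K Vale.Agent.P022K.G2 Vale.Agent.P014U
open X4S.Ga (K O d2 d3)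
open X4S.Aq X4F.Rc Iv

variable [Pp] {l : ℕ} {P : Ideal (𝓞 Qb)} {D : Subgroup GQ} {z : GQ → GQ → ZMod pp}

/-- the lift of a cochain -/
def lf (z : GQ → GQ → ZMod pp) (g j : GQ) : K := sz (z g j)

theorem ofZ (hz : z ∈ Z2 ∅ D (ch ω)) : X4S.Ga.Z2 cy D (lf z) := by
  refine ⟨continuousOn_iff_continuous_restrict.2 (((C2.lc hz.2).comp sz).continuous.comp
    (f := fun x : (D : Set GQ) ×ˢ (D : Set GQ) => ((⟨x.1.1, x.2.1⟩, ⟨x.1.2, x.2.2⟩) : D × D))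
    (by fun_prop)), fun g hg j hj k hk => rz_zero.1 ?_⟩
  have h1 := hf_cy g (sz_hf (z j k))
  have h2 := sz_hf (z (g * j) k)
  have h3 := sz_hf (z g (j * k))
  have e := hz.1 g hg j hj k hk
  rw [ch_apply] at e
  rw [d3, lf, lf, lf, lf, rz_sub (hf_add (hf_sub h1 h2) h3) (sz_hf _), rz_add (hf_sub h1 h2) h3,
    rz_sub h1 h2, rz_cy g (sz_hf _), rz_sz, rz_sz, rz_sz, rz_sz]
  linear_combination e

theorem b2_iff (hD : IsClosed (D : Set GQ)) : X4S.Ga.B2 cy D (lf z) ↔ z ∈ B2 ∅ D (ch ω) :=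
  ⟨fun h => by simpa only [lf, rz_sz] using toB hD h fun _ _ _ _ => sz_hf _,
    fun ⟨u, hu, e⟩ => ⟨_, ofB (fun _ _ _ _ => sz_hf _) hu fun g hg j hj =>
      (rz_sz _).trans (e g hg j hj)⟩⟩

theorem sz_add (x y : ZMod pp) : sz (x + y) - (sz x + sz y) ∈ O :=
  rz_inj (sz_hf _) (hf_add (sz_hf _) (sz_hf _)) (by rw [rz_add (sz_hf _) (sz_hf _), rz_sz, rz_sz, rz_sz])

/-- the embedding of the prime field -/
def sq : ZMod pp →+ K ⧸ O :=
  AddMonoidHom.mk' (fun x => mq (sz x)) fun x y => by rw [← map_add, mq_eq]; exact sz_add x y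

theorem sq_inj : Function.Injective sq := fun x y e => by
  rw [← rz_sz x, rz_congr (mq_eq.1 e), rz_sz]

theorem ex_sq {t : K ⧸ O} (h : pp • t = 0) : ∃ x, sq x = t := by
  obtain ⟨t, rfl⟩ := QuotientAddGroup.mk'_surjective O t
  have m : pp * t ∈ O := mq_zero.1 ((mq_nat _ _).trans h)
  exact ⟨rz t, mq_eq.2 (rz_inj (sz_hf _) m (rz_sz _))⟩

theorem ex_iz (P : Ideal (𝓞 Qb)) : ∃ f : (GQ → GQ → ZMod pp) →ₗ[ZMod pp] ZMod pp,
    ∀ l, Ov l P → ∀ z, sq (f z) = iv P (lf z) := by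
  by_cases e : ∃ l, Ov l P
  swap
  · exact ⟨0, fun l o => (e ⟨l, o⟩).elim⟩
  obtain ⟨l, o⟩ := e
  choose f hf using fun z => ex_sq (t := iv P (lf z)) (by
    rw [← map_nsmul]
    exact iv_b2 o (b2_zero fun g _ j _ => (nsm _ _ _ _).symm ▸ sz_hf _))
  exact ⟨(AddMonoidHom.mk' f fun x y => sq_inj (by
    rw [map_add, hf, hf, hf, ← map_add]
    exact iv_congr o fun g _ j _ => sz_add _ _)).toZModLinearMap pp, fun _ _ => hf⟩

/-- the invariant -/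
def iz (P : Ideal (𝓞 Qb)) : (GQ → GQ → ZMod pp) →ₗ[ZMod pp] ZMod pp := (ex_iz P).choose

theorem sq_iz (o : Ov l P) (z : GQ → GQ → ZMod pp) : sq (iz P z) = iv P (lf z) :=
  (ex_iz P).choose_spec l o z

theorem iz_b2 (o : Ov l P) (h : z ∈ B2 ∅ (dec P) (ch ω)) : iz P z = 0 :=
  sq_inj (by rw [sq_iz o, map_zero, iv_b2 o ((b2_iff (dec_closed P)).2 h)])

theorem iz_iff (o : Ov l P) (hz : z ∈ Z2 ∅ (dec P) (ch ω)) :
    iz P z = 0 ↔ z ∈ B2 ∅ (dec P) (ch ω) :=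
  ⟨fun e => (b2_iff (dec_closed P)).1 ((iv_iff o (ofZ hz)).1 (by rw [← sq_iz o, e, map_zero])),
    iz_b2 o⟩

theorem iz_congr (o : Ov l P) {w : GQ → GQ → ZMod pp} (e : ∀ g ∈ dec P, ∀ j ∈ dec P, z g j = w g j) :
    iz P z = iz P w := by
  rw [← sub_eq_zero, ← map_sub]
  exact iz_b2 o (B2.congr (zero_mem _) (fun g hg j hj => sub_eq_zero.2 (e g hg j hj))
    fun _ _ => rfl)

/-- **reciprocity** -/
theorem iz_rec (hz : z ∈ Z2 ∅ ⊤ (ch ω)) (S : Finset ℕ) (P : ℕ → Ideal (𝓞 Qb))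
    (hS : ∀ p ∈ S, Ov p (P p))
    (h1 : ∀ p : ℕ, p.Prime → p ∉ S → ∃ Q, Ov p Q ∧ z ∈ B2 ∅ (dec Q) (ch ω)) :
    ∑ p ∈ S, iz (P p) z = 0 := sq_inj (by
  rw [map_sum, map_zero, Finset.sum_congr rfl fun p m => sq_iz (hS p m) z]
  exact rec0 (ofZ hz) S P hS fun p hp m => (h1 p hp m).imp fun Q h =>
    ⟨h.1, (b2_iff (dec_closed Q)).2 h.2⟩)

end Vale.Agent.P014Y.Mu.Iz
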