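import Vale.Agent.P014Y.Mu.Lin
import Vale.Agent.P014Y.Mu.Loc

/-! # P014Y, block MU: an isotropic local condition lies in a Lagrangian one -/

set_option autoImplicit false
set_option linter.all false

noncomputable section

namespace Vale.Agent.P014Y.Mu

open NumberField Module Lg Li
open Vale.Agent.P022 (Qb GQ)
open Vale.Agent.P022D.W (dec)
open Vale.Agent.P022E.GW (Ov)
open Vale.Agent.P014U L2

theorem lex0 {k Y : Type} [Field k] [AddCommGroup Y] [Module k Y] {C B L₀ I : Submodule k Y}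
    {β : Bf k Y} (h : Lq C B β) (h0 : ot C β L₀ = L₀) (hI : I ≤ ot C β I) :
    ∃ L, I ≤ L ∧ L₀ ⊓ ot C β I ≤ L ∧ ot C β L = L := by
  obtain ⟨n, π, γ, p⟩ := pres h
  have ic : I ≤ C := hI.trans ot_le
  obtain ⟨b0, c0, l0⟩ := p.lag h0
  refine ⟨L₀ ⊓ ot C β I ⊔ I, le_sup_right, le_sup_left, p.of_lag
    ((le_inf b0 (p.le_ot ic)).trans le_sup_left) (sup_le (inf_le_left.trans c0) ic) ?_⟩
  rw [Submodule.map_sup, p.map_inf c0 (p.le_ot ic) ot_le, p.map_ot ic]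
  exact red p.sn l0 (p.map_ot ic ▸ Submodule.map_mono hI)

variable [Pp] {a : GQ →* M2} {l : ℕ} {P : Ideal (𝓞 Qb)} {L₀ I : Submodule F X}

/-- **extension to a Lagrangian** -/
theorem lex (r : R0 a) (o : Ov l P) (h0 : Ot a (dec P) L₀ = L₀) (hI : I ≤ Ot a (dec P) I) :
    ∃ L, I ≤ L ∧ Ot a (dec P) L = L := by
  obtain ⟨q, e⟩ := locq a l P (Iz.iz P) r o ⟨fun _ => Iz.iz_b2 o, fun _ h => (Iz.iz_iff o h).1⟩
  obtain ⟨L, l1, -, l2⟩ := lex0 q ((e L₀ (h0 ▸ fun _ m => m.1)).trans h0)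
    ((e I fun _ m => (hI m).1).symm ▸ hI)
  exact ⟨L, l1, (e L (l2 ▸ ot_le)).symm.trans l2⟩

end Vale.Agent.P014Y.Mu
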