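import Vale.Agent.P014Y.Mu.Lv0
import Vale.Agent.P014Y.Mu.St1

/-! # P014Y, block MU, row LEV: the filtration by the powers of `X` (helper24) -/

set_option autoImplicit false
set_option linter.all false

noncomputable section

namespace Vale.Agent.P014Y.Lev

open NumberField Matrix PowerSeries
open Vale.Agent.P022 (Qb GQ)
open Vale.Agent.P022.H443 (inP)
open Vale.Agent.P027M.S (Inert)
open Vale.Agent.P022D.W (dec inP_le_dec)
open Vale.Agent.P022K.G2 (In ex_lv')
open Vale.Agent.P014U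
open L2 (W M2)
open X4F (Rb)
open Vale.Agent.P014Y.Mu hiding X
open Mu.Lv (L3)
open Mu.Ds (mem_bl)

variable [Pp] {a : GQ →* M2} {J N m : ℕ} {χ : GQ → ℕ} {Γ : Subgroup GQ} {T : Finset ℕ}
  {P : Ideal (𝓞 Qb)} {φ g : GQ}

abbrev PS : Type := PowerSeries F

abbrev mq (J : ℕ) : PS →+* Rb J := Ideal.Quotient.mk _

/-- reduction of vectors -/
def qv (J : ℕ) : (Fin 2 → PS) →ₛₗ[mq J] Fin 2 → Rb J where
  toFun p i := mq J (p i)
  map_add' _ _ := funext fun _ => map_add _ _ _
  map_smul' _ _ := funext fun _ => map_mul _ _ _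

/-- the coefficients -/
def ci (i : ℕ) : (Fin 2 → PS) →ₗ[F] W where
  toFun p j := coeff i (p j)
  map_add' _ _ := funext fun _ => map_add _ _ _
  map_smul' c p := funext fun j => (coeff i).map_smul c (p j)

theorem ci_eq {p q : Fin 2 → PS} (h : qv J p = qv J q) {i : ℕ} (hi : i < J) : ci i p = ci i q :=
  funext fun j => by
    have := X_pow_dvd_iff.1 (Ideal.mem_span_singleton.1 (Ideal.Quotient.eq.1 (congrFun h j))) _ hi
    rwa [map_sub, sub_eq_zero] at this

theorem ci_X (i : ℕ) (p : Fin 2 → PS) : ci (i + m) ((X : PS) ^ m • p) = ci i p :=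
  funext fun j => coeff_X_pow_mul (p j) m i

theorem ci_C (i : ℕ) (A : M2) (p : Fin 2 → PS) : ci i (A.map C *ᵥ p) = A *ᵥ ci i p :=
  funext fun j => by fin_cases j <;> simp [ci, mulVec, dotProduct]

theorem tr3 (n : ℕ) (p : Fin 2 → PS) : ci 0 ((1 + X : PS) ^ n • p) = ci 0 p ∧
    ci 1 ((1 + X : PS) ^ n • p) = ci 1 p + (n : F) • ci 0 p ∧
    (2 : F) • ci 2 ((1 + X : PS) ^ n • p) =
      (2 : F) • ci 2 p + (2 * n : F) • ci 1 p + (n * (n - 1) : F) • ci 0 p := by
  induction n with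
  | zero => simp
  | succ n ih =>
    rw [pow_succ', mul_smul]
    generalize (1 + X : PS) ^ n • p = q at ih ⊢
    have e0 : ci 0 ((X : PS) • q) = 0 := funext fun j => by simp [ci]
    have e1 : ci 1 ((X : PS) • q) = ci 0 q := funext fun j => coeff_succ_X_mul 0 (q j)
    have e2 : ci 2 ((X : PS) • q) = ci 1 q := funext fun j => coeff_succ_X_mul 1 (q j)
    simp only [add_smul, one_smul, map_add, e0, e1, e2, Nat.cast_succ, smul_add, ih.1, ih.2.1,
      ih.2.2]
    refine ⟨?_, ?_, ?_⟩ <;> module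

/-- the action on power series -/
def bg (a : GQ →* M2) (n : ℕ) (g : GQ) : Matrix (Fin 2) (Fin 2) PS := (1 + X : PS) ^ n • (a g).map C

theorem ag_mv (g : GQ) (p : Fin 2 → PS) : ag a J χ g *ᵥ qv J p = qv J (bg a (χ g) g *ᵥ p) :=
  funext fun i => by
    fin_cases i <;> simp [ag, bg, qv, smul_mulVec, mulVec, dotProduct, mul_add, mul_assoc]

theorem pw_eq (hJ : J ≤ pp ^ N) {u v : ℕ} (h : u ≡ v [MOD pp ^ N]) :
    mq J ((1 + X) ^ u) = mq J ((1 + X) ^ v) := by
  have : mq J (1 + X) ^ pp ^ N = 1 := by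
    have : CharP PS pp := charP_of_injective_ringHom (C_injective (R := F)) pp
    rw [← map_pow, add_pow_char_pow, one_pow, map_add, map_one, add_eq_left,
      Ideal.Quotient.eq_zero_iff_mem, Ideal.mem_span_singleton]
    exact pow_dvd_pow _ hJ
  rw [map_pow, map_pow, pow_eq_pow_mod u this, h, ← pow_eq_pow_mod v this]

theorem bg_eq (hJ : J ≤ pp ^ N) {u v : ℕ} (h : u ≡ v [MOD pp ^ N]) (p : Fin 2 → PS) :
    qv J (bg a u g *ᵥ p) = qv J (bg a v g *ᵥ p) := by
  simp only [bg, smul_mulVec, map_smulₛₗ, pw_eq hJ h]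

theorem bg_mul (u v : ℕ) (g h : GQ) (p : Fin 2 → PS) :
    bg a (u + v) (g * h) *ᵥ p = bg a u g *ᵥ (bg a v h *ᵥ p) := by
  simp only [bg, smul_mulVec, mulVec_smul, map_mul, Matrix.map_mul, ← mulVec_mulVec, pow_add,
    smul_smul, mul_comm]

theorem dvd_X (n : ℕ) : ∀ p : PS, ¬ X ^ (n + 1) ∣ p → p ∣ X ^ n := by
  induction n with
  | zero => exact fun p h => (isUnit_iff_constantCoeff.2 (Ne.isUnit fun e =>
      h (by rwa [zero_add, pow_one, X_dvd_iff]))).dvd
  | succ n ih =>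
    intro p h
    by_cases d : X ∣ p
    · obtain ⟨q, rfl⟩ := d
      rw [pow_succ']
      exact mul_dvd_mul_left _ (ih q fun e => h (pow_succ' (X : PS) _ ▸ mul_dvd_mul_left _ e))
    · exact (isUnit_iff_constantCoeff.2 (Ne.isUnit (mt X_dvd_iff.2 d))).dvd

theorem det_dvd {n : ℕ} (h : ¬ pp ∣ n) (g : GQ) : (bg a n g - 1).det ∣ X ^ 2 := dvd_X 2 _ fun d => by
  have d0 : (a g).det ≠ 0 := left_ne_zero_of_mul_eq_one (L2.dt_inv g)
  have n0 : (n : F) ≠ 0 := mt (ZMod.natCast_eq_zero_iff _ _).1 h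
  have e : (bg a n g - 1).det = (1 + X) ^ (2 * n) * C (a g).det - (1 + X) ^ n * C (a g).trace + 1 := by
    simp [bg, det_fin_two, trace_fin_two]; ring
  have k := X_pow_dvd_iff.1 d
  have t := fun n : ℕ => tr3 n fun _ => 1
  have p1 := congrFun (t (2 * n)).2.1 0
  have p2 := congrFun (t (2 * n)).2.2 0
  have q1 := congrFun (t n).2.1 0
  have q2 := congrFun (t n).2.2 0
  have k1 := k 1 (by omega)
  have k2 := k 2 (by omega)
  simp [ci, coeff_C, coeff_one, e] at p1 p2 q1 q2 k1 k2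
  refine mul_ne_zero two_ne (mul_ne_zero (pow_ne_zero 2 n0) d0) ?_
  linear_combination 2 * k2 - (n - 1) * k1 - (a g).det * (p2 - (n - 1) * p1) +
    (a g).trace * (q2 - (n - 1) * q1)

/-- **all levels** -/
theorem core (H : ∀ x y z, L3 a (fun g => χ g) Γ x y z → (∀ g ∈ Γ, g ∈ In (T : Set ℕ) → x g = 0) →
      x ∈ Bl a (inP P) → x ∈ Bl a Γ) (ko : IsOpen (a.ker : Set GQ))
    (ua : ∀ g ∈ In (T : Set ℕ), a g = 1) (N0 : 0 < N) (hJ : J ≤ pp ^ N)
    (ad : ∀ g ∈ Γ, ∀ h ∈ Γ, χ (g * h) ≡ χ g + χ h [MOD pp ^ N])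
    (op : ∃ U : Subgroup GQ, IsOpen (U : Set GQ) ∧ ∀ g ∈ Γ, g ∈ U → pp ^ N ∣ χ g)
    (un : ∀ g ∈ Γ, g ∈ In (T : Set ℕ) → pp ^ N ∣ χ g) (le : dec P ≤ Γ)
    (i0 : ∀ g, Inert P g → pp ^ N ∣ χ g) (s : φ ∈ dec P) (ne : ¬ pp ∣ χ φ)
    {x : GQ → Fin 2 → Rb J} (hx : x ∈ Zx a Γ T J χ P) (g : GQ) : tb J ^ 4 • x g = 0 := by
  obtain ⟨⟨co, out, ⟨U, hU, e1⟩, e2⟩, e3⟩ := hx
  obtain ⟨V, hV, e4⟩ := op
  obtain ⟨W, hW, e5⟩ := ex_lv' (H := a.ker ⊓ (U ⊓ V)) (ko.inter (hU.inter hV))
  have b0 : ∀ g, pp ^ N ∣ χ g → ∀ p, qv J (bg a (χ g) g *ᵥ p) = qv J ((a g).map C *ᵥ p) :=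
    fun g d p => by rw [bg_eq hJ (Nat.modEq_zero_iff_dvd.2 d), bg, pow_zero, one_smul]
  have key : ∀ m, m ≤ J - 2 → ∃ μ : Fin 2 → PS, ∀ g ∈ Γ, ∃ w : Fin 2 → PS,
      x g = qv J (bg a (χ g) g *ᵥ μ - μ + (X : PS) ^ m • w) := fun m => by
    induction m with
    | zero => exact fun _ => ⟨0, fun g _ => ⟨fun i => (x g i).out, funext fun i => by
        simp [qv]⟩⟩
    | succ m ih =>
      intro hm
      obtain ⟨μ, hμ⟩ := ih (by omega)
      choose! w hw using hμ
      have z : ∀ g ∈ Γ, x g = 0 → pp ^ N ∣ χ g → ∀ i < 3,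
          ci i (w g) = a g *ᵥ -ci (i + m) μ - -ci (i + m) μ := fun g k p q i t => by
        have := hw g k
        rw [p, map_add, map_sub, b0 g q, ← map_sub, ← map_add, ← map_zero (qv J)] at this
        have := ci_eq this (i := i + m) (by omega)
        rw [map_add, map_sub, ci_X, ci_C, map_zero] at this
        rw [mulVec_neg]
        linear_combination -this
      have z' : ∀ g ∈ Γ, x g = 0 → pp ^ N ∣ χ g → a g = 1 → ∀ i < 3, ci i (w g) = 0 :=
        fun g k p q r i t => by rw [z g k p q i t, r, one_mulVec, sub_self]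
      have c : ∀ g ∈ Γ, ∀ h ∈ Γ, ∀ i < 3, ci i (w (g * h)) =
          ci i (w g) + ci i ((1 + X : PS) ^ χ g • ((a g).map C *ᵥ w h)) := fun g k h n i t => by
        have := co g k h n
        rw [hw _ (mul_mem k n), hw g k, hw h n, map_add, map_sub, bg_eq hJ (ad g k h n), bg_mul]
          at this
        change _ = _ + ag a J χ g *ᵥ _ at this
        simp only [ag_mv, mulVec_add, mulVec_sub, mulVec_smul, map_add, map_sub] at this
        have e : qv J ((X : PS) ^ m • w (g * h)) =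
            qv J ((X : PS) ^ m • (w g + bg a (χ g) g *ᵥ w h)) := by
          rw [smul_add, map_add]
          linear_combination this
        simpa only [ci_X, map_add, bg, smul_mulVec] using ci_eq e (i := i + m) (by omega)
      have dv : ∀ {u v : ℕ}, u ≡ v [MOD pp ^ N] → (u : F) = v := fun e =>
        (ZMod.natCast_eq_natCast_iff _ _ _).2 (e.of_dvd (dvd_pow_self pp N0.ne'))
      refine (mem_bl.1 (H (fun g => ci 0 (w g)) (fun g => ci 1 (w g))
        (fun g => (2 : F) • ci 2 (w g) + ci 1 (w g))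
        ⟨fun g k h n => by rw [dv (ad g k h n), Nat.cast_add], fun g k h n => ?_,
          fun g k h n => ?_, fun g k h n => ?_, W, hW, fun g k n => ?_⟩
        (fun g k i => z' g k (e2 g i) (un g k i) (ua g i) 0 three_pos)
        (mem_bl.2 ⟨_, fun g i => z g (le (inP_le_dec i)) (e3 g (inP_le_dec i)) (i0 g i) 0
          three_pos⟩))).elim fun v hv => ?_
      rotate_right
      · refine ⟨μ + (X : PS) ^ m • fun i => C (v i), fun g k => ?_⟩
        have : ∀ i, X ∣ (w g - (bg a (χ g) g *ᵥ (fun i => C (v i)) - fun i => C (v i))) i :=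
          fun i => X_dvd_iff.2 (by
            have e : ci 0 (fun i => C (v i)) = v := funext fun i => coeff_zero_C _
            have : ci 0 (w g - (bg a (χ g) g *ᵥ (fun i => C (v i)) - fun i => C (v i))) = 0 := by
              rw [map_sub, map_sub, bg, smul_mulVec, (tr3 _ _).1, ci_C, e, hv g k, sub_self]
            exact (coeff_zero_eq_constantCoeff_apply _).symm.trans (congrFun this i))
        choose w' e using this
        refine ⟨w', (hw g k).trans (congrArg _ ?_)⟩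
        rw [pow_succ, mul_smul, show (X : PS) • w' = _ from (funext e).symm, mulVec_add,
          mulVec_smul, smul_sub, smul_sub]
        abel
      · simp only [c g k h n 0 three_pos, (tr3 _ _).1, ci_C]
      · simp only [c g k h n 1 (by omega), (tr3 _ _).2.1, ci_C, mulVec_add, mulVec_smul]
      · simp only [c g k h n 1 (by omega), c g k h n 2 (by omega), (tr3 _ _).2.1, smul_add,
          (tr3 _ _).2.2, ci_C, mulVec_add, mulVec_smul]
        module
      · obtain ⟨p, q, r⟩ := e5 n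
        have := z' g k (e1 g q) (e4 g k r) p
        exact ⟨(dv (Nat.modEq_zero_iff_dvd.2 (e4 g k r))).trans Nat.cast_zero, this 0 three_pos,
          this 1 (by omega), by rw [this 1 (by omega), this 2 (by omega), smul_zero, add_zero]⟩
  by_cases k : g ∈ Γ
  swap
  · rw [out g k, smul_zero]
  obtain ⟨μ, hμ⟩ := key _ le_rfl
  have t0 : ∀ p, qv J ((X : PS) ^ 2 • (X : PS) ^ (J - 2) • p) = 0 := fun p => by
    rw [smul_smul, map_smulₛₗ, ← pow_add, show mq J _ = 0 from Ideal.Quotient.eq_zero_iff_mem.2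
      (Ideal.mem_span_singleton.2 (pow_dvd_pow _ (by omega)))]
    exact funext fun i => zero_mul _
  have t1 : qv J ((X : PS) ^ 4 • μ) = 0 := by
    obtain ⟨w, e⟩ := hμ φ (le s)
    obtain ⟨r, hr⟩ := det_dvd (a := a) ne φ
    have e' : qv J ((bg a (χ φ) φ - 1) *ᵥ (X : PS) ^ 2 • μ) = 0 := by
      have := congrArg (mq J (X ^ 2) • ·) e
      simp only [e3 φ s, smul_zero] at this
      rw [← map_smulₛₗ (qv J), smul_add, map_add, t0, add_zero] at this
      rw [mulVec_smul, sub_mulVec, one_mulVec, this]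
    generalize bg a (χ φ) φ - 1 = B at hr e'
    have : (X : PS) ^ 4 • μ = r • (B.adjugate *ᵥ (B *ᵥ (X : PS) ^ 2 • μ)) := by
      rw [mulVec_mulVec, adjugate_mul, smul_mulVec, one_mulVec, smul_smul, smul_smul, mul_comm r,
        ← hr, ← pow_add]
    rw [this, map_smulₛₗ, show ∀ p, qv J (B.adjugate *ᵥ p) = B.adjugate.map (mq J) *ᵥ qv J p from
      fun p => funext fun i => (mq J).map_mulVec _ p i, e', mulVec_zero, smul_zero]
  obtain ⟨w, e⟩ := hμ g k
  rw [e, tb, ← map_pow, ← map_smulₛₗ (qv J), smul_add, smul_sub, ← mulVec_smul, map_add, map_sub,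
    ← ag_mv, t1, mulVec_zero, sub_self, zero_add, show 4 = 2 + 2 from rfl, pow_add, mul_smul,
    map_smulₛₗ, t0, smul_zero]

end Vale.Agent.P014Y.Lev
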