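import Mathlib

/-! # P014Y, block MU: systems of local quadratic spaces (words and rows of linear algebra) -/

set_option autoImplicit false
set_option linter.all false

noncomputable section

namespace Vale.Agent.P014Y.Mu

open Module

/-- bilinear forms -/
abbrev Bf (k X : Type) [Field k] [AddCommGroup X] [Module k X] : Type := X →ₗ[k] X →ₗ[k] k

section words

variable {k X : Type} [Field k] [AddCommGroup X] [Module k X]

/-- the orthogonal of `L` in `C` -/
def ot (C : Submodule k X) (β : Bf k X) (L : Submodule k X) : Submodule k X where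
  carrier := {y | y ∈ C ∧ ∀ x ∈ L, β x y = 0}
  add_mem' a b := ⟨add_mem a.1 b.1, fun x m => by rw [map_add, a.2 x m, b.2 x m, add_zero]⟩
  zero_mem' := ⟨zero_mem _, fun x _ => map_zero _⟩
  smul_mem' c _ a := ⟨C.smul_mem c a.1, fun x m => by rw [map_smul, a.2 x m, smul_zero]⟩

/-- the dimension of `L / (L ⊓ L')` -/
def dq (L L' : Submodule k X) : ℕ := finrank k (L.map L'.mkQ)

/-- a symmetric form on `C` with radical `B` of finite codimension -/
structure Lq (C B : Submodule k X) (β : Bf k X) : Prop where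
  sym : ∀ x ∈ C, ∀ y ∈ C, β x y = β y x
  rad : ot C β C = B
  fin : Module.Finite k (C.map B.mkQ)

/-- the elements of `Z` which satisfy the conditions `L` at `T` -/
def sl (Z : Submodule k X) (T : Finset ℕ) (L : ℕ → Submodule k X) : Submodule k X :=
  Z ⊓ ⨅ l ∈ T, L l

/-- local spaces and an isotropic global space -/
structure Q0 (T : Finset ℕ) (C B : ℕ → Submodule k X) (β : ℕ → Bf k X)
    (Z : Submodule k X) : Prop where
  lq : ∀ l ∈ T, Lq (C l) (B l) (β l)
  zf : Module.Finite k Z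
  le : ∀ l ∈ T, Z ≤ C l
  iso : ∀ x ∈ Z, ∀ y ∈ Z, ∑ l ∈ T, β l x y = 0

/-- **the global space is its own orthogonal** -/
structure Qs (T : Finset ℕ) (C B : ℕ → Submodule k X) (β : ℕ → Bf k X)
    (Z : Submodule k X) : Prop extends Q0 T C B β Z where
  pt : ∀ x : ℕ → X, (∀ l ∈ T, x l ∈ C l) → (∀ y ∈ Z, ∑ l ∈ T, β l (x l) y = 0) →
    ∃ z ∈ Z, ∀ l ∈ T, z - x l ∈ B l

end words

/-- dimensions of orthogonals -/
def LAGA : Prop := ∀ (k X : Type) [Field k] [AddCommGroup X] [Module k X] (C B L : Submodule k X)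
  (β : Bf k X), Lq C B β → B ≤ L → L ≤ C →
  ot C β (ot C β L) = L ∧ dq (ot C β L) B + dq L B = dq C B ∧
  (∀ L', L ≤ L' → L' ≤ C → dq L' L + dq L B = dq L' B ∧ (dq L' L = 0 → L' = L)) ∧
  (L ≤ ot C β L → dq C B ≤ 2 * dq L B → ot C β L = L)

/-- counting -/
def CNTA : Prop := ∀ (k X : Type) [Field k] [AddCommGroup X] [Module k X] (T : Finset ℕ)
  (C B : ℕ → Submodule k X) (β : ℕ → Bf k X) (Z : Submodule k X), Q0 T C B β Z →
  2 * finrank k Z ≤ ∑ l ∈ T, dq (C l) (B l) + 2 * finrank k (sl Z T B) ∧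
  (∑ l ∈ T, dq (C l) (B l) + 2 * finrank k (sl Z T B) ≤ 2 * finrank k Z → Qs T C B β Z)

/-- reduction along Lagrangian conditions -/
def REDA : Prop := ∀ (k X : Type) [Field k] [AddCommGroup X] [Module k X] (T T' : Finset ℕ)
  (C B U : ℕ → Submodule k X) (β : ℕ → Bf k X) (Z : Submodule k X), Qs T' C B β Z →
  T ⊆ T' → (∀ l ∈ T' \ T, ot (C l) (β l) (U l) = U l) → Qs T C B β (sl Z (T' \ T) U)

/-- the formula of Greenberg and Wiles for one place -/
def GWA : Prop := ∀ (k X : Type) [Field k] [AddCommGroup X] [Module k X] (T : Finset ℕ)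
  (C B L : ℕ → Submodule k X) (β : ℕ → Bf k X) (Z U : Submodule k X) (p : ℕ),
  Qs T C B β Z → p ∈ T → (∀ l ∈ T.erase p, ot (C l) (β l) (L l) = L l) → B p ≤ U →
  U ≤ ot (C p) (β p) U →
  ot (C p) (β p) (U ⊔ sl Z (T.erase p) L ⊓ ot (C p) (β p) U) =
      U ⊔ sl Z (T.erase p) L ⊓ ot (C p) (β p) U ∧
    2 * finrank k ↥(sl Z (T.erase p) L ⊓ ot (C p) (β p) U) =
      2 * finrank k ↥(sl Z (T.erase p) L ⊓ U) + dq (ot (C p) (β p) U) U

/-- **parity** -/
def PARA : Prop := ∀ (k X : Type) [Field k] [AddCommGroup X] [Module k X] (T : Finset ℕ)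
  (C B L L' : ℕ → Submodule k X) (β : ℕ → Bf k X) (Z : Submodule k X), (2 : k) ≠ 0 →
  Qs T C B β Z → (∀ l ∈ T, ot (C l) (β l) (L l) = L l) → (∀ l ∈ T, ot (C l) (β l) (L' l) = L' l) →
  Even (finrank k (sl Z T L) + finrank k (sl Z T L') + ∑ l ∈ T, dq (L l) (L' l))

end Vale.Agent.P014Y.Mu
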